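import Vale.Agent.P202.Zero.PSLength
import Vale.Agent.P202.Char.FrobRank

/-!
P202, equal characteristic zero: the multiplicity of a reduction is at most the length modulo the
powers of its generators, divided by the product of the exponents.
-/

namespace Vale.Agent.P202.Zero

open IsLocalRing Filter Topology Finset Vale.Agent.P202.Char

universe u

namespace ParamBound

variable {S : Type u} [CommRing S] {d : ℕ} (y : Fin d → S)

theorem span_pow_le (j : ℕ) : Ideal.span (Set.range y) ^ j ≤
    Ideal.span (Set.range fun s : Sym (Fin d) j => ((s : Multiset (Fin d)).map y).prod) := by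
  induction j with
  | zero =>
    rw [pow_zero, Ideal.one_eq_top, ← Ideal.span_singleton_one]
    exact Ideal.span_mono (Set.singleton_subset_iff.2 ⟨Sym.nil, by simp⟩)
  | succ j ih =>
    rw [pow_succ]
    refine (mul_le_mul_left ih _).trans ?_
    rw [Ideal.span_mul_span']
    refine Ideal.span_mono ?_
    rintro _ ⟨_, ⟨s, rfl⟩, _, ⟨i, rfl⟩, rfl⟩
    exact ⟨Sym.cons i s, by simp [Sym.coe_cons, mul_comm]⟩

/-- Powers of an ideal with `d` generators. -/
theorem length_pow_le (N : ℕ) :
    Module.length S (S ⧸ Ideal.span (Set.range y) ^ N) ≤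
      ((PSLen.lowSet d N).card : ℕ∞) * Module.length S (S ⧸ Ideal.span (Set.range y)) := by
  classical
  set J := Ideal.span (Set.range y)
  have hcard : ∀ N, (PSLen.lowSet d N).card =
      ∑ j ∈ Finset.range N, Fintype.card (Sym (Fin d) j) := by
    intro N
    rw [PSLen.lowSet, Finset.card_biUnion]
    · simp [Finset.card_finsuppAntidiag_nat_eq_multichoose, Sym.card_sym_eq_multichoose]
    · intro a _ b _ hab
      rw [Function.onFun, Finset.disjoint_left]
      intro z hz hz'
      rw [Finset.mem_finsuppAntidiag] at hz hz'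
      exact hab (hz.1.symm.trans hz'.1)
  rw [hcard]
  induction N with
  | zero =>
    have : Subsingleton (S ⧸ J ^ 0) := Ideal.Quotient.subsingleton_iff.2 (by simp)
    simp
  | succ N ih =>
    rw [Finset.sum_range_succ, Nat.cast_add, add_mul]
    let q : (S ⧸ J ^ (N + 1)) →ₗ[S] (S ⧸ J ^ N) :=
      Submodule.factor (Ideal.pow_le_pow_right (Nat.le_succ N))
    rw [Module.length_eq_add_of_exact (LinearMap.ker q).subtype q Subtype.val_injective
      (Submodule.factor_surjective _) (LinearMap.exact_subtype_ker_map q), add_comm]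
    refine add_le_add ih ?_
    let g : Fin (Fintype.card (Sym (Fin d) N)) → S ⧸ J ^ (N + 1) := fun i =>
      Submodule.Quotient.mk ((((Fintype.equivFin _).symm i : Sym (Fin d) N) :
        Multiset (Fin d)).map y).prod
    have hgmem : ∀ s : Sym (Fin d) N, ((s : Multiset (Fin d)).map y).prod ∈ J ^ N := fun s => by
      have h : ∀ t : Multiset (Fin d), (t.map y).prod ∈ J ^ Multiset.card t := by
        intro t
        induction t using Multiset.induction_on with
        | empty => simp
        | cons i t ih =>
          rw [Multiset.map_cons, Multiset.prod_cons, Multiset.card_cons, pow_succ']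
          exact Ideal.mul_mem_mul (Ideal.subset_span (Set.mem_range_self i)) ih
      simpa [s.2] using h s
    obtain ⟨φ, hφ⟩ := PSLen.exists_map_of_killed (A := S) J g fun i a ha => by
      refine (Submodule.Quotient.mk_eq_zero _).2 ?_
      change a * _ ∈ J ^ (N + 1)
      rw [pow_succ']
      exact Ideal.mul_mem_mul ha (hgmem _)
    have hker : LinearMap.ker q ≤ LinearMap.range φ := by
      intro z hz
      obtain ⟨z, rfl⟩ := Submodule.mkQ_surjective _ z
      have hz' : z ∈ J ^ N := (Submodule.Quotient.mk_eq_zero _).1 hz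
      have h1 : Submodule.mkQ (J ^ (N + 1)) z ∈ Submodule.map (Submodule.mkQ (J ^ (N + 1)))
          (Ideal.span (Set.range fun s : Sym (Fin d) N => ((s : Multiset (Fin d)).map y).prod)) :=
        Submodule.mem_map_of_mem (span_pow_le y N hz')
      rw [Ideal.span, Submodule.map_span, ← Set.range_comp] at h1
      rw [hφ]
      refine Submodule.span_mono ?_ h1
      rintro _ ⟨s, rfl⟩
      exact ⟨Fintype.equivFin _ s, by simp [g]⟩
    refine ((Module.length_le_of_injective (Submodule.inclusion hker)
      (Submodule.inclusion_injective hker)).trans (Module.length_le_of_surjective φ.rangeRestrict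
        φ.surjective_rangeRestrict)).trans ?_
    simp [Module.length_pi_of_fintype]

end ParamBound

open ParamBound in
/-- If `x` generates a reduction of the maximal ideal, then `e * M ^ d ≤ ℓ(S / (x_i ^ M))`. -/
theorem mult_mul_pow_le {S : Type u} [CommRing S] [IsLocalRing S] [IsNoetherianRing S] {d : ℕ}
    {e : ℝ} (he : IsMultiplicity S d e) (x : Fin d → S) (hx : ∀ i, x i ∈ maximalIdeal S) {c : ℕ}
    (hc : maximalIdeal S ^ (c + 1) ≤ Ideal.span (Set.range x) * maximalIdeal S ^ c) (M : ℕ)
    (hM : 0 < M) :
    e * (M : ℝ) ^ d ≤ (len S (S ⧸ Ideal.span (Set.range fun i => x i ^ M)) : ℝ) := by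
  set I := Ideal.span (Set.range x)
  set J := Ideal.span (Set.range fun i => x i ^ M)
  set m := maximalIdeal S
  have hred : ∀ N, m ^ (N + c) ≤ I ^ N := by
    have h : ∀ N, m ^ (N + c) ≤ I ^ N * m ^ c := by
      intro N
      induction N with
      | zero => simp
      | succ N ih =>
        calc m ^ (N + 1 + c) = m * m ^ (N + c) := by rw [← pow_succ']; ring_nf
          _ ≤ m * (I ^ N * m ^ c) := mul_le_mul_right ih _
          _ = I ^ N * m ^ (c + 1) := by rw [pow_succ']; ring
          _ ≤ I ^ N * (I * m ^ c) := mul_le_mul_right hc _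
          _ = I ^ (N + 1) * m ^ c := by rw [pow_succ]; ring
    exact fun N => (h N).trans Ideal.mul_le_left
  have hIm : I ≤ m := Ideal.span_le.2 (by rintro _ ⟨i, rfl⟩; exact hx i)
  have hfin : ∀ N, Module.length S (S ⧸ I ^ N) ≠ ⊤ := fun N =>
    length_quotient_ne_top _ (N + c) (hred N)
  have hfin' : ∀ N, Module.length S (S ⧸ I ^ N • (⊤ : Submodule S S)) ≠ ⊤ := fun N => by
    rw [(Submodule.quotEquivOfEq _ _ (by simp [Ideal.mul_top])).length_eq
      (N := S ⧸ I ^ N)]
    exact hfin N
  have hlen : ∀ (K : Ideal S), len S (S ⧸ K • (⊤ : Submodule S S)) = len S (S ⧸ K) := fun K => by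
    rw [len, len, (Submodule.quotEquivOfEq _ _ (by simp [Ideal.mul_top])).length_eq (N := S ⧸ K)]
  -- the multiplicity of `I` is `e`
  have eI : Tendsto (fun N : ℕ => (d.factorial : ℝ) * (len S (S ⧸ I ^ N) : ℝ) / (N : ℝ) ^ d) atTop
      (𝓝 e) := by
    have hshift : Tendsto (fun N : ℕ => (d.factorial : ℝ) *
        (len S (S ⧸ m ^ (N + c)) : ℝ) / (N : ℝ) ^ d) atTop (𝓝 e) := by
      have h1 := he.comp (tendsto_add_atTop_nat c)
      have h2 : Tendsto (fun N : ℕ => ((N + c : ℕ) : ℝ) / (N : ℝ)) atTop (𝓝 1) := by
        have h0 := (tendsto_const_nhds (x := (1 : ℝ))).add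
          (tendsto_const_div_atTop_nhds_zero_nat (c : ℝ))
        rw [add_zero] at h0
        refine h0.congr' ?_
        filter_upwards [eventually_gt_atTop 0] with N hN
        have : (0 : ℝ) < N := by exact_mod_cast hN
        push_cast
        field_simp
      have h3 := h1.mul (h2.pow d)
      rw [one_pow, mul_one] at h3
      refine h3.congr' ?_
      filter_upwards [eventually_gt_atTop 0] with N hN
      have : (0 : ℝ) < N := by exact_mod_cast hN
      have : (0 : ℝ) < ((N + c : ℕ) : ℝ) := by exact_mod_cast Nat.add_pos_left hN c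
      simp only [Function.comp, div_pow]
      field_simp
      rfl
    refine tendsto_of_tendsto_of_tendsto_of_le_of_le he hshift (fun N => ?_) fun N => ?_
    · gcongr
      exact_mod_cast ENat.toNat_le_toNat (length_quotient_mono (Ideal.pow_right_mono hIm N))
        (hfin N)
    · gcongr
      exact_mod_cast ENat.toNat_le_toNat (length_quotient_mono (hred N))
        (length_quotient_ne_top _ (N + c) le_rfl)
  have e1 := (koszul_tendsto (R := S) x S hfin').2
  simp only [hlen] at e1
  have he1 : ((kchi S x S : ℤ) : ℝ) = e := tendsto_nhds_unique e1 eI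
  have hJfin : ∀ N, Module.length S (S ⧸ J ^ N • (⊤ : Submodule S S)) ≠ ⊤ := fun N =>
    ne_top_of_le_ne_top (hfin' (M * N + d * (M - 1)))
      (Module.length_le_of_surjective
        (Submodule.factor (Submodule.smul_mono (pow_le_pow_pows x M hM N) le_rfl))
        (Submodule.factor_surjective _))
  have e2 := (koszul_tendsto (R := S) (fun i => x i ^ M) S hJfin).2
  simp only [hlen] at e2
  have hJ0 : Module.length S (S ⧸ J) ≠ ⊤ := by
    have h := hJfin 1
    rwa [pow_one, (Submodule.quotEquivOfEq _ _ (by simp [Ideal.mul_top])).length_eq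
      (N := S ⧸ J)] at h
  have hub : ((kchi S (fun i => x i ^ M) S : ℤ) : ℝ) ≤ (len S (S ⧸ J) : ℝ) := by
    have hl := (PSLen.choose_limit d 0).const_mul (len S (S ⧸ J) : ℝ)
    rw [mul_one] at hl
    refine le_of_tendsto_of_tendsto' e2 hl fun N => ?_
    rw [Nat.sub_zero, mul_div_assoc', mul_left_comm]
    gcongr
    have h := ENat.toNat_le_toNat (length_pow_le (fun i => x i ^ M) N)
      (WithTop.mul_ne_top (ENat.natCast_ne_top _) hJ0)
    rw [ENat.toNat_mul, ENat.toNat_natCast, mul_comm] at h
    exact_mod_cast h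
  rw [kchi_pow x M hM S hfin'] at hub
  push_cast at hub
  rw [he1, mul_comm] at hub
  exact hub

end Vale.Agent.P202.Zero
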