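import Vale.Agent.P202.Zero.Defs
import Vale.Agent.P202.Lech

/-!
P202, equal characteristic zero: lengths of finite modules over `k[[z_1, ..., z_d]]` modulo powers
of the variables; the generic rank is the multiplicity of the variables.
-/

namespace Vale.Agent.P202.Zero

open IsLocalRing Filter Topology Finset Vale.Agent.P202.Char

universe u

namespace PSLen

variable {k : Type u} [Field k] {d : ℕ}

open MvPowerSeries

instance : IsDomain (PS k d) := NoZeroDivisors.to_isDomain _

/-- Splitting off `m`-th powers of the variables. -/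
theorem exists_decomp (m : ℕ) (f : PS k d)
    (hf : ∀ α : Fin d →₀ ℕ, (∀ i, α i < m) → coeff α f = 0) :
    ∃ g : Fin d → PS k d, f = ∑ i, X i ^ m * g i ∧
      ∀ i β, coeff β (g i) ≠ 0 → coeff (β + Finsupp.single i m) f ≠ 0 := by
  classical
  let g : Fin d → PS k d := fun i β =>
    if ∀ j, j < i → (β + Finsupp.single i m : Fin d →₀ ℕ) j < m then
      coeff (β + Finsupp.single i m) f else 0
  have hg : ∀ i β, coeff β (g i) =
      if ∀ j, j < i → (β + Finsupp.single i m : Fin d →₀ ℕ) j < m then
        coeff (β + Finsupp.single i m) f else 0 := fun i β => rfl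
  refine ⟨g, ?_, fun i β h => ?_⟩
  · ext α
    rw [map_sum]
    have hterm : ∀ i, coeff α (X i ^ m * g i) =
        if m ≤ α i ∧ ∀ j, j < i → α j < m then coeff α f else 0 := by
      intro i
      rw [X_pow_eq, coeff_monomial_mul]
      by_cases h : m ≤ α i
      · have hle : Finsupp.single i m ≤ α := Finsupp.single_le_iff.2 h
        rw [if_pos hle, hg, tsub_add_cancel_of_le hle, one_mul]
        simp only [h, true_and]
      · rw [if_neg fun hle => h (Finsupp.single_le_iff.1 hle), if_neg fun h' => h h'.1]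
    simp only [hterm]
    by_cases hex : ∃ i, m ≤ α i
    · set S := Finset.univ.filter fun i => m ≤ α i
      have hS : S.Nonempty := by
        obtain ⟨i, hi⟩ := hex
        exact ⟨i, by simp [S, hi]⟩
      have hmem : m ≤ α (S.min' hS) := by simpa [S] using S.min'_mem hS
      have hlt : ∀ j, j < S.min' hS → α j < m := fun j hj => by
        by_contra hc
        exact absurd hj (not_lt.2 (S.min'_le j (by simp [S, not_lt.1 hc])))
      rw [Finset.sum_eq_single (S.min' hS), if_pos ⟨hmem, hlt⟩]
      · intro i _ hi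
        refine if_neg ?_
        rintro ⟨h1, h2⟩
        rcases lt_or_gt_of_ne hi with h3 | h3
        · exact absurd (hlt i h3) (not_lt.2 h1)
        · exact absurd (h2 _ h3) (not_lt.2 hmem)
      · simp
    · simp only [not_exists, not_le] at hex
      rw [hf α hex]
      exact (Finset.sum_eq_zero fun i _ => by rw [ite_self]).symm
  · rw [hg] at h
    split_ifs at h with h'
    · exact h
    · exact absurd rfl h

theorem mem_zPow_iff {m : ℕ} {f : PS k d} :
    f ∈ zPow k d m ↔ ∀ α : Fin d →₀ ℕ, (∀ i, α i < m) → coeff α f = 0 := by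
  classical
  constructor
  · intro hf α hα
    induction hf using Submodule.span_induction with
    | mem x hx =>
      obtain ⟨i, rfl⟩ := hx
      simp only [X_pow_eq, coeff_monomial]
      rw [if_neg]
      intro h
      have := hα i
      rw [h, Finsupp.single_eq_same] at this
      exact lt_irrefl m this
    | zero => simp
    | add a b _ _ ha hb => rw [map_add, ha, hb, add_zero]
    | smul a b hb ih =>
      rw [smul_eq_mul, coeff_mul]
      refine Finset.sum_eq_zero fun p hp => ?_
      have hle : p.2 ≤ α := by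
        rw [Finset.HasAntidiagonal.mem_antidiagonal] at hp
        rw [← hp]
        exact le_add_self
      suffices coeff p.2 b = 0 by rw [this, mul_zero]
      clear ih hp
      induction hb using Submodule.span_induction generalizing p with
      | mem x hx =>
        obtain ⟨i, rfl⟩ := hx
        simp only [X_pow_eq, coeff_monomial]
        rw [if_neg]
        intro h
        have := lt_of_le_of_lt (hle i) (hα i)
        rw [h, Finsupp.single_eq_same] at this
        exact lt_irrefl m this
      | zero => simp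
      | add a b _ _ ha hb => rw [map_add, ha p hle, hb p hle, add_zero]
      | smul a b _ ih =>
        rw [smul_eq_mul, coeff_mul]
        refine Finset.sum_eq_zero fun q hq => ?_
        rw [Finset.HasAntidiagonal.mem_antidiagonal] at hq
        rw [ih q (le_trans (hq ▸ le_add_self) hle), mul_zero]
  · intro hf
    obtain ⟨g, hg, -⟩ := exists_decomp m f hf
    rw [hg]
    exact Ideal.sum_mem _ fun i _ =>
      Ideal.mul_mem_right _ _ (Ideal.subset_span ⟨i, rfl⟩)

theorem mem_zI_pow_iff {N : ℕ} {f : PS k d} : f ∈ zI k d ^ N ↔ (N : ℕ∞) ≤ f.order := by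
  induction N generalizing f with
  | zero => simp
  | succ N ih =>
    constructor
    · intro hf
      rw [pow_succ] at hf
      refine Submodule.mul_induction_on hf (fun a ha b hb => ?_) fun a b ha hb =>
        (le_min ha hb).trans min_order_le_add
      have hb1 : (1 : ℕ∞) ≤ b.order := by
        induction hb using Submodule.span_induction with
        | mem x hx =>
          obtain ⟨i, rfl⟩ := hx
          refine one_le_order_iff_constCoeff_eq_zero.2 ?_
          simp
        | zero => simp
        | add a b _ _ ha hb => exact (le_min ha hb).trans min_order_le_add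
        | smul a b _ ih => exact (ih.trans le_add_self).trans le_order_mul
      rw [Nat.cast_succ]
      exact (add_le_add (ih.1 ha) hb1).trans le_order_mul
    · intro hf
      have h0 : ∀ α : Fin d →₀ ℕ, (∀ i, α i < 1) → coeff α f = 0 := fun α hα => by
        refine coeff_of_lt_order (lt_of_lt_of_le ?_ hf)
        have : α = 0 := Finsupp.ext fun i => by simpa using hα i
        simp [this]
      obtain ⟨g, hg, hg'⟩ := exists_decomp 1 f h0
      rw [hg, pow_succ']
      refine Ideal.sum_mem _ fun i _ => ?_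
      rw [pow_one]
      refine Ideal.mul_mem_mul (Ideal.subset_span ⟨i, rfl⟩) (ih.2 (nat_le_order fun β hβ => ?_))
      by_contra hne
      refine hg' i β hne (coeff_of_lt_order (lt_of_lt_of_le ?_ hf))
      rw [map_add, Finsupp.degree_single]
      exact_mod_cast Nat.add_lt_add_right hβ 1

/-- Exponents of degree `< N`. -/
noncomputable def lowSet (d N : ℕ) : Finset (Fin d →₀ ℕ) :=
  (Finset.range N).biUnion fun t => (Finset.univ : Finset (Fin d)).finsuppAntidiag t

theorem mem_lowSet {N : ℕ} {α : Fin d →₀ ℕ} : α ∈ lowSet d N ↔ α.degree < N := by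
  simp [lowSet, Finset.mem_finsuppAntidiag, Finsupp.degree_eq_sum]

theorem card_lowSet (d N : ℕ) (hN : 0 < N) : (lowSet d N).card = (N + d - 1).choose d := by
  rw [lowSet, Finset.card_biUnion]
  · simp only [Finset.card_finsuppAntidiag_nat_eq_choose, Finset.card_univ, Fintype.card_fin]
    obtain ⟨N, rfl⟩ : ∃ n, N = n + 1 := ⟨N - 1, by omega⟩
    cases d with
    | zero =>
      rw [Finset.sum_range_succ']
      simp [Nat.choose_eq_zero_of_lt]
    | succ e =>
      rw [show N + 1 + (e + 1) - 1 = N + e + 1 by omega, ← Nat.sum_range_add_choose]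
      refine Finset.sum_congr rfl fun t _ => ?_
      rw [show e + 1 + t - 1 = t + e by omega, Nat.choose_symm_add]
  · intro a _ b _ hab
    rw [Function.onFun, Finset.disjoint_left]
    intro x hx hx'
    rw [Finset.mem_finsuppAntidiag] at hx hx'
    exact hab (hx.1.symm.trans hx'.1)

/-- Exponents with all entries `< m`. -/
noncomputable def box (d m : ℕ) : Finset (Fin d →₀ ℕ) :=
  (Fintype.piFinset fun _ : Fin d => Finset.range m).map
    Finsupp.equivFunOnFinite.symm.toEmbedding

theorem mem_box {m : ℕ} {α : Fin d →₀ ℕ} : α ∈ box d m ↔ ∀ i, α i < m := by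
  simp [box]

theorem card_box (d m : ℕ) : (box d m).card = m ^ d := by simp [box]

/-- Quotients cut out by finitely many coefficients. -/
theorem quot_of_coords (I : Ideal (PS k d)) (s : Finset (Fin d →₀ ℕ))
    (h : ∀ f, f ∈ I ↔ ∀ α ∈ s, coeff α f = 0) :
    Module.Finite k (PS k d ⧸ I) ∧ Module.finrank k (PS k d ⧸ I) = s.card := by
  classical
  let T : PS k d →ₗ[k] (s → k) := LinearMap.pi fun α => coeff α.1
  have hT : Function.Surjective T := fun v => by
    refine ⟨fun α => if h : α ∈ s then v ⟨α, h⟩ else 0, funext fun α => ?_⟩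
    change dite _ _ _ = _
    rw [dif_pos α.2]
  have hker : LinearMap.ker T = I.restrictScalars k := by
    ext f
    rw [LinearMap.mem_ker, Submodule.restrictScalars_mem, h, funext_iff]
    exact ⟨fun h' α hα => h' ⟨α, hα⟩, fun h' α => h' α.1 α.2⟩
  let e : (PS k d ⧸ I) ≃ₗ[k] (s → k) :=
    (Submodule.Quotient.restrictScalarsEquiv k I).symm ≪≫ₗ
      Submodule.quotEquivOfEq _ _ hker.symm ≪≫ₗ T.quotKerEquivOfSurjective hT
  exact ⟨Module.Finite.equiv e.symm, by rw [e.finrank_eq]; simp⟩

theorem quot_zI (N : ℕ) :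
    Module.Finite k (PS k d ⧸ zI k d ^ N) ∧
      Module.finrank k (PS k d ⧸ zI k d ^ N) = (lowSet d N).card := by
  refine quot_of_coords _ _ fun f => ?_
  rw [mem_zI_pow_iff]
  refine ⟨fun h α hα => coeff_of_lt_order (lt_of_lt_of_le (by exact_mod_cast mem_lowSet.1 hα) h),
    fun h => nat_le_order fun α hα => h α (mem_lowSet.2 hα)⟩

theorem quot_zPow (m : ℕ) :
    Module.Finite k (PS k d ⧸ zPow k d m) ∧
      Module.finrank k (PS k d ⧸ zPow k d m) = m ^ d := by
  rw [← card_box d m]
  refine quot_of_coords _ _ fun f => ?_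
  simp only [mem_zPow_iff, mem_box]

theorem zI_pow_le_zPow (m : ℕ) : zI k d ^ ((d + 1) * m + 1) ≤ zPow k d m := by
  intro f hf
  rw [mem_zI_pow_iff] at hf
  refine mem_zPow_iff.2 fun α hα => coeff_of_lt_order (lt_of_lt_of_le ?_ hf)
  have : α.degree ≤ d * m := by
    rw [Finsupp.degree_eq_sum]
    refine (Finset.sum_le_card_nsmul _ _ m fun i _ => (hα i).le).trans ?_
    simp
  exact_mod_cast (by nlinarith : α.degree < (d + 1) * m + 1)

theorem mul_mem_zI_pow {h f : PS k d} (hh : h ≠ 0) {N : ℕ} (hf : h * f ∈ zI k d ^ N) :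
    f ∈ zI k d ^ (N - h.order.toNat) := by
  rw [mem_zI_pow_iff, order_mul] at hf
  rw [mem_zI_pow_iff]
  rw [← ne_zero_iff_order_finite.1 hh] at hf
  rcases eq_or_ne f.order ⊤ with h' | h'
  · simp [h']
  · obtain ⟨a, ha⟩ := ENat.ne_top_iff_exists.1 h'
    rw [← ha] at hf ⊢
    have h2 : N ≤ h.order.toNat + a := by exact_mod_cast hf
    exact_mod_cast Nat.sub_le_iff_le_add'.2 h2

section Module

variable {A : Type u} [CommRing A] [Algebra k A] {Q : Type u} [AddCommGroup Q] [Module A Q]

/-- Elements killed by `J` give a map from a power of `A ⧸ J` onto their span. -/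
theorem exists_map_of_killed (J : Ideal A) {n : ℕ} (v : Fin n → Q)
    (hv : ∀ i, ∀ a ∈ J, a • v i = 0) :
    ∃ φ : (Fin n → A ⧸ J) →ₗ[A] Q, LinearMap.range φ = Submodule.span A (Set.range v) := by
  let q : Fin n → (A ⧸ J) →ₗ[A] Q := fun i =>
    Submodule.liftQ J (LinearMap.toSpanSingleton A Q (v i)) fun a ha => by
      rw [LinearMap.mem_ker, LinearMap.toSpanSingleton_apply]
      exact hv i a ha
  refine ⟨∑ i, q i ∘ₗ LinearMap.proj i, le_antisymm ?_ (Submodule.span_le.2 ?_)⟩
  · rintro _ ⟨a, rfl⟩
    rw [LinearMap.sum_apply]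
    refine Submodule.sum_mem _ fun i _ => ?_
    obtain ⟨b, hb⟩ := Submodule.mkQ_surjective _ (a i)
    rw [LinearMap.comp_apply, LinearMap.proj_apply, ← hb]
    change b • v i ∈ _
    exact Submodule.smul_mem _ _ (Submodule.subset_span ⟨i, rfl⟩)
  · rintro _ ⟨i, rfl⟩
    classical
    refine ⟨Pi.single i (Submodule.Quotient.mk 1), ?_⟩
    rw [LinearMap.sum_apply, Finset.sum_eq_single i]
    · rw [LinearMap.comp_apply, LinearMap.proj_apply, Pi.single_eq_same]
      change (1 : A) • v i = v i
      rw [one_smul]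
    · intro j _ hj
      simp [Pi.single_eq_of_ne hj]
    · simp

variable {M : Type u} [AddCommGroup M] [Module A M] [Module k M] [IsScalarTower k A M]

/-- Upper bound from `h M ⊆ span w`. -/
theorem upper (I : Ideal A) [Module.Finite k (A ⧸ I)] (h : A) {r : ℕ} (w : Fin r → M)
    (hw : ∀ m, h • m ∈ Submodule.span A (Set.range w)) {j : ℕ} (s : Fin j → M)
    (hs : Submodule.span A (Set.range s) = ⊤) [Module.Finite k (A ⧸ (I ⊔ Ideal.span {h}))] :
    Module.Finite k (M ⧸ I • (⊤ : Submodule A M)) ∧
      Module.finrank k (M ⧸ I • (⊤ : Submodule A M)) ≤ r * Module.finrank k (A ⧸ I) +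
        j * Module.finrank k (A ⧸ (I ⊔ Ideal.span {h})) := by
  set U := I • (⊤ : Submodule A M)
  have hI : ∀ a ∈ I, ∀ z : M ⧸ U, a • z = 0 := fun a ha z => by
    obtain ⟨m, rfl⟩ := U.mkQ_surjective z
    rw [← map_smul]
    exact (Submodule.Quotient.mk_eq_zero _).2 (Submodule.smul_mem_smul ha trivial)
  obtain ⟨φ, hφ⟩ := exists_map_of_killed I (fun i => U.mkQ (w i)) fun i a ha => hI a ha _
  set W := LinearMap.range φ
  obtain ⟨ψ, hψ⟩ := exists_map_of_killed (I ⊔ Ideal.span {h}) (fun i => W.mkQ (U.mkQ (s i)))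
    fun i a ha => by
      obtain ⟨b, hb, c, hc, rfl⟩ := Submodule.mem_sup.1 ha
      obtain ⟨c, rfl⟩ := Ideal.mem_span_singleton'.1 hc
      rw [add_smul, ← map_smul, hI b hb, map_zero, zero_add, mul_smul, ← map_smul, ← map_smul]
      have hmem : U.mkQ (h • s i) ∈ W := by
        have h1 : U.mkQ (h • s i) ∈ (Submodule.span A (Set.range w)).map U.mkQ :=
          Submodule.mem_map_of_mem (hw (s i))
        rwa [Submodule.map_span, ← Set.range_comp, Function.comp_def, ← hφ] at h1
      rw [map_smul] at hmem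
      exact (Submodule.Quotient.mk_eq_zero W).2 (W.smul_mem c hmem)
  have hψs : Function.Surjective ψ := by
    rw [← LinearMap.range_eq_top, hψ]
    refine eq_top_iff.2 fun z _ => ?_
    obtain ⟨z, rfl⟩ := W.mkQ_surjective z
    obtain ⟨m, rfl⟩ := U.mkQ_surjective z
    have h1 : W.mkQ (U.mkQ m) ∈ (Submodule.span A (Set.range s)).map (W.mkQ ∘ₗ U.mkQ) :=
      Submodule.mem_map_of_mem (f := W.mkQ ∘ₗ U.mkQ) (hs ▸ trivial)
    rwa [Submodule.map_span, ← Set.range_comp] at h1
  have : Module.Finite k ((M ⧸ U) ⧸ W) := Module.Finite.of_surjective (ψ.restrictScalars k) hψs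
  have : Module.Finite k W :=
    Module.Finite.of_surjective (φ.rangeRestrict.restrictScalars k) φ.surjective_rangeRestrict
  have : Module.Finite k ↥(W.restrictScalars k) := ‹Module.Finite k W›
  have : Module.Finite k ((M ⧸ U) ⧸ W.restrictScalars k) :=
    Module.Finite.equiv (Submodule.Quotient.restrictScalarsEquiv k W).symm
  have hfin : Module.Finite k (M ⧸ U) :=
    Module.Finite.of_submodule_quotient (W.restrictScalars k)
  refine ⟨hfin, ?_⟩
  have h1 : Module.finrank k ↥(W.restrictScalars k) ≤ r * Module.finrank k (A ⧸ I) := by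
    refine (LinearMap.finrank_le_finrank_of_surjective (f := φ.rangeRestrict.restrictScalars k)
      φ.surjective_rangeRestrict).trans ?_
    simp [Module.finrank_pi_fintype]
  have h2 : Module.finrank k ((M ⧸ U) ⧸ W.restrictScalars k) ≤
      j * Module.finrank k (A ⧸ (I ⊔ Ideal.span {h})) := by
    rw [(Submodule.Quotient.restrictScalarsEquiv k W).finrank_eq]
    refine (LinearMap.finrank_le_finrank_of_surjective (f := ψ.restrictScalars k) hψs).trans ?_
    simp [Module.finrank_pi_fintype]
  rw [← Submodule.finrank_quotient_add_finrank (W.restrictScalars k), add_comm]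
  exact add_le_add h1 h2

/-- Lower bound from a certificate. -/
theorem lower (I I' : Ideal A) (h : A) (hII' : ∀ a, h * a ∈ I → a ∈ I') {r : ℕ} (w : Fin r → M)
    (π : M →ₗ[A] (Fin r → A)) (hw : ∀ j, π (w j) = Pi.single j h)
    [Module.Finite k (M ⧸ I • (⊤ : Submodule A M))] [Module.Finite k (A ⧸ I')] :
    r * Module.finrank k (A ⧸ I') ≤ Module.finrank k (M ⧸ I • (⊤ : Submodule A M)) := by
  classical
  set U := I • (⊤ : Submodule A M)
  let Φ : (Fin r → A) →ₗ[A] M ⧸ U :=
    U.mkQ ∘ₗ ∑ j, (LinearMap.toSpanSingleton A M (w j)).comp (LinearMap.proj j)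
  let Ψ : (Fin r → A) →ₗ[A] (Fin r → A ⧸ I') := I'.mkQ.compLeft (Fin r)
  have hker : LinearMap.ker Φ ≤ LinearMap.ker Ψ := by
    intro a ha
    rw [LinearMap.mem_ker] at ha ⊢
    have hU : ∑ j, a j • w j ∈ U := by
      rw [← Submodule.Quotient.mk_eq_zero U, ← ha]
      simp only [Φ, LinearMap.comp_apply, LinearMap.sum_apply, LinearMap.proj_apply,
        LinearMap.toSpanSingleton_apply, Submodule.mkQ_apply]
    have hπ : ∀ z ∈ U, ∀ i, π z i ∈ I := fun z hz i => by
      refine Submodule.smul_induction_on hz (fun b hb n _ => ?_) fun b c hb hc => ?_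
      · rw [map_smul, Pi.smul_apply, smul_eq_mul]
        exact Ideal.mul_mem_right _ _ hb
      · rw [map_add, Pi.add_apply]
        exact Ideal.add_mem _ hb hc
    funext i
    change I'.mkQ (a i) = 0
    refine (Submodule.Quotient.mk_eq_zero _).2 (hII' _ ?_)
    have h1 := hπ _ hU i
    simpa [map_sum, hw, Pi.single_apply, mul_comm] using h1
  have hΨ : Function.Surjective Ψ := fun v => by
    choose a ha using fun i => I'.mkQ_surjective (v i)
    exact ⟨a, funext ha⟩
  let e := (LinearMap.quotKerEquivRange Φ).restrictScalars k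
  have : Module.Finite k (LinearMap.range Φ) :=
    Module.Finite.of_injective ((LinearMap.range Φ).subtype.restrictScalars k) Subtype.val_injective
  have : Module.Finite k ((Fin r → A) ⧸ LinearMap.ker Φ) := Module.Finite.equiv e.symm
  calc r * Module.finrank k (A ⧸ I') = Module.finrank k (Fin r → A ⧸ I') := by
        simp [Module.finrank_pi_fintype]
    _ ≤ Module.finrank k ((Fin r → A) ⧸ LinearMap.ker Φ) :=
        LinearMap.finrank_le_finrank_of_surjective
          (f := ((LinearMap.ker Φ).liftQ Ψ hker).restrictScalars k) fun v => by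
            obtain ⟨a, ha⟩ := hΨ v
            exact ⟨Submodule.Quotient.mk a, ha⟩
    _ = Module.finrank k (LinearMap.range Φ) := e.finrank_eq
    _ ≤ _ := Submodule.finrank_le ((LinearMap.range Φ).restrictScalars k)

/-- Larger ideals have smaller quotients. -/
theorem quot_mono {I J : Ideal A} (hIJ : I ≤ J) [Module.Finite k (A ⧸ I)] :
    Module.Finite k (A ⧸ J) ∧ Module.finrank k (A ⧸ J) ≤ Module.finrank k (A ⧸ I) := by
  let q : (A ⧸ I) →ₗ[k] (A ⧸ J) := (Submodule.factor hIJ).restrictScalars k
  have hq : Function.Surjective q := Submodule.factor_surjective hIJ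
  exact ⟨Module.Finite.of_surjective q hq, LinearMap.finrank_le_finrank_of_surjective (f := q) hq⟩

/-- Quotient by one more element. -/
theorem quot_sup_gen (I I' : Ideal A) (h : A) (hII' : ∀ a, h * a ∈ I → a ∈ I')
    [Module.Finite k (A ⧸ I)] [Module.Finite k (A ⧸ I')] :
    Module.Finite k (A ⧸ (I ⊔ Ideal.span {h})) ∧
      Module.finrank k (A ⧸ (I ⊔ Ideal.span {h})) + Module.finrank k (A ⧸ I') ≤
        Module.finrank k (A ⧸ I) := by
  have hle : I ≤ I ⊔ Ideal.span {h} := le_sup_left
  let q : (A ⧸ I) →ₗ[A] (A ⧸ (I ⊔ Ideal.span {h})) := Submodule.factor hle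
  have hq : Function.Surjective q := Submodule.factor_surjective hle
  refine ⟨(quot_mono hle).1, ?_⟩
  let μ : A →ₗ[A] LinearMap.ker q :=
    (I.mkQ ∘ₗ LinearMap.mulLeft A h).codRestrict _ fun a => by
      rw [LinearMap.mem_ker]
      exact (Submodule.Quotient.mk_eq_zero _).2
        (Ideal.mem_sup_right (Ideal.mem_span_singleton'.2 ⟨a, mul_comm a h⟩))
  have hμ : LinearMap.ker μ ≤ I' := fun a ha => by
    refine hII' a ?_
    have h1 : I.mkQ (h * a) = 0 := congrArg Subtype.val ha
    exact (Submodule.Quotient.mk_eq_zero _).1 h1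
  have : Module.Finite k (LinearMap.range μ) :=
    Module.Finite.of_injective
      (((LinearMap.ker q).subtype ∘ₗ (LinearMap.range μ).subtype).restrictScalars k)
      (Subtype.val_injective.comp Subtype.val_injective)
  have : Module.Finite k (LinearMap.ker q) :=
    Module.Finite.of_injective ((LinearMap.ker q).subtype.restrictScalars k) Subtype.val_injective
  let e := (LinearMap.quotKerEquivRange μ).restrictScalars k
  have : Module.Finite k (A ⧸ LinearMap.ker μ) := Module.Finite.equiv e.symm
  have h1 : Module.finrank k (A ⧸ I') ≤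
      Module.finrank k (LinearMap.ker (q.restrictScalars k)) := by
    let g : (A ⧸ LinearMap.ker μ) →ₗ[k] (A ⧸ I') := (Submodule.factor hμ).restrictScalars k
    have hg : Function.Surjective g := Submodule.factor_surjective hμ
    refine (LinearMap.finrank_le_finrank_of_surjective (f := g) hg).trans ?_
    rw [e.finrank_eq]
    exact Submodule.finrank_le ((LinearMap.range μ).restrictScalars k)
  have h2 := LinearMap.finrank_range_add_finrank_ker (q.restrictScalars k)
  have htop : LinearMap.range (q.restrictScalars k) = ⊤ := LinearMap.range_eq_top.2 hq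
  rw [htop, finrank_top] at h2
  omega

/-- Finiteness of the quotients of a finite module. -/
theorem finite_gen (I : Ideal A) [Module.Finite k (A ⧸ I)] [Module.Finite A M] :
    Module.Finite k (M ⧸ I • (⊤ : Submodule A M)) := by
  obtain ⟨n, s, hs⟩ := Module.Finite.exists_fin (R := A) (M := M)
  have hz : ∀ x : M, (0 : A) • x ∈
      Submodule.span A (Set.range (Fin.elim0 : Fin 0 → M)) := fun x => by simp
  have : Module.Finite k (A ⧸ (I ⊔ Ideal.span {(0 : A)})) := (quot_mono le_sup_left).1
  exact (upper (k := k) I 0 (Fin.elim0 : Fin 0 → M) hz s hs).1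

end Module

section Count

theorem choose_limit (d c : ℕ) :
    Tendsto (fun N : ℕ => (d.factorial : ℝ) * ((lowSet d (N - c)).card : ℝ) / (N : ℝ) ^ d)
      atTop (𝓝 1) := by
  have h0 : ∀ i : ℕ, Tendsto (fun N : ℕ => (((N - c + i : ℕ) : ℝ)) / (N : ℝ)) atTop (𝓝 1) := by
    intro i
    have h1 : Tendsto (fun N : ℕ => 1 + ((i : ℝ) - c) / (N : ℝ)) atTop (𝓝 1) := by
      simpa using (tendsto_const_nhds (x := (1 : ℝ))).add
        (tendsto_const_div_atTop_nhds_zero_nat ((i : ℝ) - c))
    refine h1.congr' ?_
    filter_upwards [eventually_gt_atTop c] with N hN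
    have : (0 : ℝ) < N := by exact_mod_cast Nat.zero_lt_of_lt hN
    push_cast [hN.le]
    field_simp
    ring
  have hp := tendsto_finsetProd (Finset.range d) fun i _ => h0 i
  rw [Finset.prod_const_one] at hp
  refine hp.congr' ?_
  filter_upwards [eventually_gt_atTop c] with N hN
  rw [card_lowSet d (N - c) (by omega), Finset.prod_div_distrib, Finset.prod_const,
    Finset.card_range]
  congr 1
  rw [← Nat.cast_mul, ← Nat.cast_prod, ← Nat.descFactorial_eq_factorial_mul_choose]
  congr 1
  rw [Nat.add_descFactorial_eq_ascFactorial', Nat.ascFactorial_eq_prod_range]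

theorem lowSet_mono (d : ℕ) {a b : ℕ} (h : a ≤ b) : (lowSet d a).card ≤ (lowSet d b).card :=
  Finset.card_le_card fun α hα => mem_lowSet.2 (lt_of_lt_of_le (mem_lowSet.1 hα) h)

/-- Shifting by `c` is negligible. -/
theorem diff_limit (d c : ℕ) :
    Tendsto (fun N : ℕ => ((lowSet d N).card - (lowSet d (N - c)).card : ℝ) / (N : ℝ) ^ d)
      atTop (𝓝 0) := by
  have h := ((choose_limit d 0).sub (choose_limit d c)).const_mul ((d.factorial : ℝ)⁻¹)
  rw [sub_self, mul_zero] at h
  refine h.congr fun N => ?_
  have : (d.factorial : ℝ) ≠ 0 := by exact_mod_cast d.factorial_ne_zero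
  rw [Nat.sub_zero]
  field_simp

/-- The shift is negligible also along `(d + 1) * m + 1`. -/
theorem diff_limit' (d c : ℕ) :
    Tendsto (fun m : ℕ =>
      ((lowSet d ((d + 1) * m + 1)).card - (lowSet d ((d + 1) * m + 1 - c)).card : ℝ) /
        (m : ℝ) ^ d) atTop (𝓝 0) := by
  have hg : Tendsto (fun m : ℕ => (d + 1) * m + 1) atTop atTop :=
    tendsto_atTop_mono (fun m => (Nat.le_mul_of_pos_left m d.succ_pos).trans (Nat.le_succ _))
      tendsto_id
  have hr : Tendsto (fun m : ℕ => (((d + 1) * m + 1 : ℕ) : ℝ) / (m : ℝ)) atTop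
      (𝓝 ((d : ℝ) + 1)) := by
    have h1 := (tendsto_const_nhds (x := (d : ℝ) + 1)).add
      (tendsto_const_div_atTop_nhds_zero_nat 1)
    rw [add_zero] at h1
    refine h1.congr' ?_
    filter_upwards [eventually_gt_atTop 0] with m hm
    have : (0 : ℝ) < m := by exact_mod_cast hm
    push_cast
    field_simp
  have h := ((diff_limit d c).comp hg).mul (hr.pow d)
  rw [zero_mul] at h
  refine h.congr' ?_
  filter_upwards [eventually_gt_atTop 0] with m hm
  have : (0 : ℝ) < m := by exact_mod_cast hm
  have h2 : (0 : ℝ) < (((d + 1) * m + 1 : ℕ) : ℝ) := by exact_mod_cast Nat.succ_pos _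
  simp only [Function.comp, div_pow]
  field_simp

end Count

/-- Quotient by `h` of the truncations. -/
theorem quot_sup {h : PS k d} (hh : h ≠ 0) (N : ℕ) :
    Module.Finite k (PS k d ⧸ (zI k d ^ N ⊔ Ideal.span {h})) ∧
      Module.finrank k (PS k d ⧸ (zI k d ^ N ⊔ Ideal.span {h})) +
        (lowSet d (N - h.order.toNat)).card ≤ (lowSet d N).card := by
  obtain ⟨hf, hr⟩ := quot_zI (k := k) (d := d) N
  obtain ⟨hf', hr'⟩ := quot_zI (k := k) (d := d) (N - h.order.toNat)
  rw [← hr, ← hr']
  exact quot_sup_gen (k := k) (zI k d ^ N) (zI k d ^ (N - h.order.toNat)) h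
    fun a ha => mul_mem_zI_pow hh ha

/-- A free part with torsion cokernel and coordinates on it. -/
theorem exists_certificate (M : Type u) [AddCommGroup M] [Module (PS k d) M]
    [Module.Finite (PS k d) M] :
    ∃ (r : ℕ) (w : Fin r → M) (π : M →ₗ[PS k d] (Fin r → PS k d)) (h : PS k d),
      h ≠ 0 ∧ (∀ j, π (w j) = Pi.single j h) ∧
        ∀ m, h • m ∈ Submodule.span (PS k d) (Set.range w) := by
  classical
  obtain ⟨v, hv⟩ := exists_linearIndependent_of_le_finrank
    (le_refl (Module.finrank (PS k d) M))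
  set W := Submodule.span (PS k d) (Set.range v)
  have hW : Module.finrank (PS k d) W = Module.finrank (PS k d) M := by
    rw [finrank_span_eq_card hv, Fintype.card_fin]
  have h0 : Module.finrank (PS k d) (M ⧸ W) = 0 := by
    have := Submodule.finrank_quotient_add_finrank W
    omega
  have ht := Module.finrank_eq_zero_iff_isTorsion.1 h0
  obtain ⟨n, s, hs⟩ := Module.Finite.exists_fin (R := PS k d) (M := M)
  choose a ha using fun i => @ht (W.mkQ (s i))
  set h : PS k d := ∏ i, (a i : PS k d)
  have hh : h ≠ 0 := Finset.prod_ne_zero_iff.2 fun i _ => nonZeroDivisors.ne_zero (a i).2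
  have hmem : ∀ m, h • m ∈ W := by
    intro m
    obtain ⟨c, rfl⟩ := (Submodule.mem_span_range_iff_exists_fun (PS k d)).1
      (hs ▸ trivial : m ∈ Submodule.span (PS k d) (Set.range s))
    rw [Finset.smul_sum]
    refine Submodule.sum_mem _ fun i _ => ?_
    rw [smul_comm]
    refine Submodule.smul_mem _ _ ?_
    have h1 : (a i : PS k d) • W.mkQ (s i) = 0 := ha i
    rw [← map_smul, Submodule.mkQ_apply, Submodule.Quotient.mk_eq_zero] at h1
    obtain ⟨b, hb⟩ := Finset.dvd_prod_of_mem (fun i => (a i : PS k d)) (Finset.mem_univ i)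
    simp only [h]
    rw [hb, mul_comm, mul_smul]
    exact Submodule.smul_mem _ _ h1
  let B := Module.Basis.span hv
  let π : M →ₗ[PS k d] (Fin (Module.finrank (PS k d) M) → PS k d) :=
    B.equivFun.toLinearMap ∘ₗ (h • LinearMap.id : M →ₗ[PS k d] M).codRestrict W fun m => hmem m
  refine ⟨_, v, π, h, hh, fun j => ?_, hmem⟩
  have h1 : (h • LinearMap.id : M →ₗ[PS k d] M).codRestrict W (fun m => hmem m) (v j) =
      h • B j := Subtype.ext (by simp [B, Module.Basis.span_apply])
  change B.equivFun (((h • LinearMap.id : M →ₗ[PS k d] M).codRestrict W fun m => hmem m) (v j)) = _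
  rw [h1, map_smul]
  funext i
  simp [Module.Basis.equivFun_apply, Pi.single_apply, Finsupp.single_apply, eq_comm]

end PSLen

open PSLen

section X2

variable {k : Type u} [Field k] {d : ℕ}

theorem finite_quot (M : Type u) [AddCommGroup M] [Module (PS k d) M] [Module k M]
    [IsScalarTower k (PS k d) M] [Module.Finite (PS k d) M] (m : ℕ) :
    Module.Finite k (M ⧸ zI k d ^ m • (⊤ : Submodule (PS k d) M)) ∧
      Module.Finite k (M ⧸ zPow k d m • (⊤ : Submodule (PS k d) M)) := by
  obtain ⟨h1, -⟩ := quot_zI (k := k) (d := d) m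
  obtain ⟨h2, -⟩ := quot_zPow (k := k) (d := d) m
  exact ⟨finite_gen (k := k) (A := PS k d) _, finite_gen (k := k) (A := PS k d) _⟩

/-- a certificate of `r` independent elements bounds the multiplicity from below -/
theorem le_mult (M : Type u) [AddCommGroup M] [Module (PS k d) M] [Module k M]
    [IsScalarTower k (PS k d) M] [Module.Finite (PS k d) M] {r : ℕ} (w : Fin r → M)
    (π : M →ₗ[PS k d] (Fin r → PS k d)) {h : PS k d} (hh : h ≠ 0)
    (hw : ∀ j, π (w j) = Pi.single j h) {e : ℝ}
    (he : Tendsto (fun N : ℕ => (d.factorial : ℝ) *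
      (len k (M ⧸ zI k d ^ N • (⊤ : Submodule (PS k d) M)) : ℝ) / (N : ℝ) ^ d) atTop (𝓝 e)) :
    (r : ℝ) ≤ e := by
  have hl := (choose_limit d h.order.toNat).const_mul (r : ℝ)
  rw [mul_one] at hl
  refine le_of_tendsto_of_tendsto' hl he fun N => ?_
  obtain ⟨hfin, -⟩ := finite_quot (k := k) (d := d) M N
  obtain ⟨hf', hr'⟩ := quot_zI (k := k) (d := d) (N - h.order.toNat)
  have h1 := lower (k := k) (zI k d ^ N) _ h (fun a ha => mul_mem_zI_pow hh ha) w π hw
  rw [hr'] at h1
  have hlen : len k (M ⧸ zI k d ^ N • (⊤ : Submodule (PS k d) M)) =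
      Module.finrank k (M ⧸ zI k d ^ N • (⊤ : Submodule (PS k d) M)) := by
    rw [len, Module.length_eq_finrank, ENat.toNat_natCast]
  rw [hlen, mul_div_assoc', mul_left_comm]
  gcongr
  exact_mod_cast h1

/-- the generic rank is the multiplicity of the parameters -/
theorem rank_data (M : Type u) [AddCommGroup M] [Module (PS k d) M] [Module k M]
    [IsScalarTower k (PS k d) M] [Module.Finite (PS k d) M] :
    ∃ (r : ℕ) (w : Fin r → M) (π : M →ₗ[PS k d] (Fin r → PS k d)) (h : PS k d),
      h ≠ 0 ∧ (∀ j, π (w j) = Pi.single j h) ∧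
      Tendsto (fun N : ℕ => (d.factorial : ℝ) *
        (len k (M ⧸ zI k d ^ N • (⊤ : Submodule (PS k d) M)) : ℝ) / (N : ℝ) ^ d) atTop (𝓝 (r : ℝ)) ∧
      ∀ ε : ℝ, 0 < ε → ∀ᶠ m : ℕ in atTop,
        (len k (M ⧸ zPow k d m • (⊤ : Submodule (PS k d) M)) : ℝ) ≤
          ((r : ℝ) + ε) * (m : ℝ) ^ d := by
  obtain ⟨r, w, π, h, hh, hw, hspan⟩ := exists_certificate (k := k) (d := d) M
  obtain ⟨j, s, hs⟩ := Module.Finite.exists_fin (R := PS k d) (M := M)
  refine ⟨r, w, π, h, hh, hw, ?_, fun ε hε => ?_⟩
  · set c := h.order.toNat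
    have hlo := (choose_limit d c).const_mul (r : ℝ)
    have hhi := ((choose_limit d 0).const_mul (r : ℝ)).add
      ((diff_limit d c).const_mul ((j : ℝ) * d.factorial))
    rw [mul_one] at hlo
    rw [mul_one, mul_zero, add_zero] at hhi
    refine tendsto_of_tendsto_of_tendsto_of_le_of_le hlo hhi (fun N => ?_) fun N => ?_
    all_goals
      obtain ⟨hfin, -⟩ := finite_quot (k := k) (d := d) M N
      obtain ⟨hf, hr⟩ := quot_zI (k := k) (d := d) N
      obtain ⟨hf', hr'⟩ := quot_zI (k := k) (d := d) (N - c)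
      obtain ⟨hf'', hr''⟩ := quot_sup hh N
      have hlen : len k (M ⧸ zI k d ^ N • (⊤ : Submodule (PS k d) M)) =
          Module.finrank k (M ⧸ zI k d ^ N • (⊤ : Submodule (PS k d) M)) := by
        rw [len, Module.length_eq_finrank, ENat.toNat_natCast]
      simp only [hlen, Nat.sub_zero]
    · have h1 := lower (k := k) (zI k d ^ N) _ h (fun a ha => mul_mem_zI_pow hh ha) w π hw
      rw [hr'] at h1
      rw [mul_div_assoc', mul_left_comm]
      gcongr
      exact_mod_cast h1
    · have h1 := (upper (k := k) (zI k d ^ N) h w hspan s hs).2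
      rw [hr] at h1
      have h2 : (Module.finrank k (M ⧸ zI k d ^ N • (⊤ : Submodule (PS k d) M)) : ℝ) ≤
          r * ((lowSet d N).card : ℝ) +
            j * (((lowSet d N).card : ℝ) - ((lowSet d (N - c)).card : ℝ)) := by
        have h3 : (Module.finrank k (M ⧸ zI k d ^ N • (⊤ : Submodule (PS k d) M)) : ℝ) ≤
            r * ((lowSet d N).card : ℝ) +
              j * (Module.finrank k (PS k d ⧸ (zI k d ^ N ⊔ Ideal.span {h})) : ℝ) := by
          exact_mod_cast h1
        refine h3.trans (add_le_add le_rfl (mul_le_mul_of_nonneg_left ?_ (by positivity)))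
        rw [le_sub_iff_add_le]
        exact_mod_cast hr''
      refine (div_le_div_of_nonneg_right
        (mul_le_mul_of_nonneg_left h2 (by positivity)) (by positivity)).trans (le_of_eq ?_)
      ring
  · set c := h.order.toNat
    have hev := ((diff_limit' d c).const_mul (j : ℝ)).eventually (gt_mem_nhds
      (show (j : ℝ) * 0 < ε by rw [mul_zero]; exact hε))
    filter_upwards [hev, eventually_gt_atTop 0] with m hm hm0
    obtain ⟨-, hfin⟩ := finite_quot (k := k) (d := d) M m
    obtain ⟨hf, hr⟩ := quot_zPow (k := k) (d := d) m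
    obtain ⟨hf'', hr''⟩ := quot_sup hh ((d + 1) * m + 1)
    obtain ⟨hfz, hle⟩ := quot_mono (k := k) (sup_le_sup_right (zI_pow_le_zPow (k := k) (d := d) m)
      (Ideal.span {h}))
    have h1 := (upper (k := k) (zPow k d m) h w hspan s hs).2
    rw [hr] at h1
    rw [len, Module.length_eq_finrank, ENat.toNat_natCast]
    have h2 : (Module.finrank k (PS k d ⧸ (zPow k d m ⊔ Ideal.span {h})) : ℝ) ≤
        ((lowSet d ((d + 1) * m + 1)).card : ℝ) -
          ((lowSet d ((d + 1) * m + 1 - c)).card : ℝ) := by
      rw [le_sub_iff_add_le]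
      exact_mod_cast (Nat.add_le_add_right hle _).trans hr''
    have h3 : (Module.finrank k (M ⧸ zPow k d m • (⊤ : Submodule (PS k d) M)) : ℝ) ≤
        r * (m : ℝ) ^ d + j * (Module.finrank k (PS k d ⧸ (zPow k d m ⊔ Ideal.span {h})) : ℝ) := by
      exact_mod_cast h1
    have hmd : (0 : ℝ) < (m : ℝ) ^ d := by positivity
    rw [mul_div_assoc', div_lt_iff₀ hmd] at hm
    have h4 := mul_le_mul_of_nonneg_left h2 (Nat.cast_nonneg (α := ℝ) j)
    linarith

/-- lengths over a local algebra with residue field `k` are dimensions over `k` -/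
theorem length_eq_residue {R : Type u} [CommRing R] [IsLocalRing R] [Algebra k R]
    (hk : Function.Surjective fun a : k => residue R (algebraMap k R a))
    (M : Type u) [AddCommGroup M] [Module R M] [Module k M] [IsScalarTower k R M] :
    Module.length R M = Module.length k M := by
  have : IsLocalHom (algebraMap k R) := ⟨fun a ha => by
    refine isUnit_iff_ne_zero.2 fun h0 => ?_
    rw [h0, map_zero] at ha
    exact not_isUnit_zero ha⟩
  have hsurj : Function.Surjective (algebraMap (ResidueField k) (ResidueField R)) := fun z => by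
    obtain ⟨a, ha⟩ := hk z
    exact ⟨residue k a, ha⟩
  have h1 : Module.length (ResidueField k) (ResidueField R) = 1 := by
    rw [Module.length_eq_of_surjective (M := ResidueField R) hsurj]
    exact Module.length_eq_one _ _
  rw [IsLocalRing.length_restrictScalars k R M, h1, mul_one]

end X2

end Vale.Agent.P202.Zero
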