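import Vale.Agent.P202.Zero.PSLength
import Vale.Agent.P202.Char.CoeffField
import Vale.Agent.P202.Char.EvalPS
import Vale.Agent.P202.Char.PSBase
import Vale.Agent.P202.Char.KoszulSmall

/-!
P202, equal characteristic zero: coefficient fields, and Noether normalisation of a complete local
ring by a system of parameters.
-/

namespace Vale.Agent.P202.Zero

open IsLocalRing Vale.Agent.P202.Char

universe u

theorem exists_coefficient_field (R : Type u) [CommRing R] [IsLocalRing R] [IsNoetherianRing R]
    [IsAdicComplete (maximalIdeal R) R] [CharZero (ResidueField R)] :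
    ∃ σ : ResidueField R →+* R, ∀ x, residue R (σ x) = x := by
  have hu : ∀ y : nonZeroDivisors ℤ, IsUnit ((Int.castRingHom R) y) := fun y => by
    by_contra h
    have h1 : residue R ((y : ℤ) : R) = 0 := (residue_eq_zero_iff _).2 h
    rw [map_intCast, Int.cast_eq_zero] at h1
    exact nonZeroDivisors.ne_zero y.2 h1
  let f0 : ℚ →+* R := IsLocalization.lift (M := nonZeroDivisors ℤ) hu
  let _ : Algebra ℚ R := f0.toAlgebra
  let _ : Algebra ℚ (ResidueField R) := ((residue R).comp f0).toAlgebra
  have := formallySmooth_of_perfect ℚ (ResidueField R)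
  let f : ResidueField R →ₐ[ℚ] R ⧸ maximalIdeal R :=
    { RingHom.id (R ⧸ maximalIdeal R) with commutes' := fun _ => rfl }
  obtain ⟨g, hg⟩ := Algebra.FormallySmooth.exists_mkₐ_comp_eq_of_isAdicComplete f
  exact ⟨g.toRingHom, fun x => AlgHom.congr_fun hg x⟩

/-- Noether normalisation of a complete ring by a system of parameters -/
theorem exists_psMap {R : Type u} [CommRing R] [IsLocalRing R] [IsNoetherianRing R]
    [IsAdicComplete (maximalIdeal R) R] {k : Type u} [Field k] (σ : k →+* R)
    (hσ : Function.Surjective fun a : k => residue R (σ a)) {d : ℕ} (z : Fin d → R)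
    (hz : ∀ i, z i ∈ maximalIdeal R) (hc : ∃ c, maximalIdeal R ^ c ≤ Ideal.span (Set.range z)) :
    ∃ φ : PS k d →+* R, φ.Finite ∧ (∀ a, φ (MvPowerSeries.C a) = σ a) ∧
      ∀ i, φ (MvPowerSeries.X i) = z i := by
  let φ : PS k d →+* R := EvalPS.eval σ z hz
  refine ⟨φ, ?_, fun a => EvalPS.eval_C σ z hz a, fun i => EvalPS.eval_X σ z hz i⟩
  let _ : Algebra (PS k d) R := φ.toAlgebra
  let _ : Algebra k R := σ.toAlgebra
  have : IsScalarTower k (PS k d) R :=
    IsScalarTower.of_algebraMap_eq fun a => (EvalPS.eval_C σ z hz a).symm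
  let I : Ideal (PS k d) := Ideal.span (Set.range MvPowerSeries.X)
  have hIR : I.map φ = Ideal.span (Set.range z) := by
    rw [Ideal.map_span, ← Set.range_comp]
    exact congrArg Ideal.span (congrArg Set.range (funext fun i => EvalPS.eval_X σ z hz i))
  have hzle : Ideal.span (Set.range z) ≤ maximalIdeal R :=
    Ideal.span_le.2 (by rintro _ ⟨i, rfl⟩; exact hz i)
  have hmem : ∀ (n : ℕ) (x : R), x ∈ (I ^ n • ⊤ : Submodule (PS k d) R) →
      x ∈ Ideal.span (Set.range z) ^ n := by
    intro n x hx
    rw [← hIR, ← Ideal.map_pow]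
    refine Submodule.smul_induction_on (p := fun y => y ∈ (I ^ n).map φ) hx
      (fun a ha y _ => ?_) fun a b ha hb => add_mem ha hb
    rw [Algebra.smul_def]
    exact Ideal.mul_mem_right _ _ (Ideal.mem_map_of_mem φ ha)
  have : IsHausdorff I R := ⟨fun x hx => by
    refine IsHausdorff.haus' (I := maximalIdeal R) x fun n => ?_
    rw [SModEq.zero, smul_eq_mul, Ideal.mul_top]
    exact Ideal.pow_right_mono hzle n (hmem n x (SModEq.zero.1 (hx n)))⟩
  have : IsAdicComplete I (PS k d) := inferInstanceAs (IsAdicComplete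
    (Ideal.span (Set.range MvPowerSeries.X) : Ideal (MvPowerSeries (Fin d) k))
    (MvPowerSeries (Fin d) k))
  obtain ⟨c, hc⟩ := hc
  have hlen : Module.length k (R ⧸ Ideal.span (Set.range z)) ≠ ⊤ := by
    rw [← length_eq_residue hσ]
    refine length_ne_top_of_killed (N := c) fun r hr m => ?_
    obtain ⟨m, rfl⟩ := Submodule.mkQ_surjective _ m
    rw [← map_smul]
    exact (Submodule.Quotient.mk_eq_zero _).2 (Ideal.mul_mem_right _ _ (hc hr))
  have : Module.Finite k (R ⧸ Ideal.span (Set.range z)) := by
    have h := Module.length_ne_top_iff.1 hlen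
    rw [isFiniteLength_iff_isNoetherian_isArtinian] at h
    have := h.1
    infer_instance
  have hle : (I • ⊤ : Submodule (PS k d) R) =
      (Ideal.span (Set.range z)).restrictScalars (PS k d) := by
    rw [← hIR]
    exact Ideal.smul_top_eq_map I
  have : Module.Finite k (R ⧸ (I • ⊤ : Submodule (PS k d) R)) :=
    Module.Finite.equiv (((Submodule.quotEquivOfEq _ _ hle).trans
      (Submodule.Quotient.restrictScalarsEquiv (PS k d) (Ideal.span (Set.range z)))).restrictScalars
        k).symm
  have : Module.Finite (PS k d) (R ⧸ (I • ⊤ : Submodule (PS k d) R)) :=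
    Module.Finite.of_restrictScalars_finite k _ _
  exact PSBase.finite_of_complete I

end Vale.Agent.P202.Zero
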