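import Vale.Agent.P202.Zero.MultPS
import Vale.Agent.P202.Zero.ParamBound

/-!
P202, equal characteristic zero: the model over `F[[z]]` in characteristic `p` of a finite free
extension defined over a finitely generated ring, and the bound it gives.
-/

namespace Vale.Agent.P202.Zero

open IsLocalRing Filter Topology Vale.Agent.P202.Char MvPowerSeries
open scoped TensorProduct

universe u

theorem exists_isMultiplicity_of_reduction {S : Type u} [CommRing S] [IsLocalRing S]
    [IsNoetherianRing S] {d : ℕ} (x : Fin d → S) (hx : ∀ i, x i ∈ maximalIdeal S)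
    (hc : ∃ c, maximalIdeal S ^ (c + 1) ≤ Ideal.span (Set.range x) * maximalIdeal S ^ c) :
    ∃ e : ℝ, IsMultiplicity S d e := by
  obtain ⟨c, hc⟩ := hc
  set I := Ideal.span (Set.range x)
  set m := maximalIdeal S
  have hred : ∀ N, m ^ (N + c) ≤ I ^ N := by
    have h : ∀ N, m ^ (N + c) ≤ I ^ N * m ^ c := by
      intro N
      induction N with
      | zero => simp
      | succ N ih =>
        calc m ^ (N + 1 + c) = m * m ^ (N + c) := by rw [← pow_succ']; ring_nf
          _ ≤ m * (I ^ N * m ^ c) := mul_le_mul_right ih _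
          _ = I ^ N * m ^ (c + 1) := by rw [pow_succ']; ring
          _ ≤ I ^ N * (I * m ^ c) := mul_le_mul_right hc _
          _ = I ^ (N + 1) * m ^ c := by rw [pow_succ]; ring
    exact fun N => (h N).trans Ideal.mul_le_left
  have hIm : I ≤ m := Ideal.span_le.2 (by rintro _ ⟨i, rfl⟩; exact hx i)
  have hfin : ∀ N, Module.length S (S ⧸ I ^ N) ≠ ⊤ := fun N =>
    length_quotient_ne_top _ (N + c) (hred N)
  have hmfin : ∀ N, Module.length S (S ⧸ m ^ N) ≠ ⊤ := fun N => length_quotient_ne_top _ N le_rfl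
  have heq : ∀ (K : Ideal S), Module.length S (S ⧸ K • (⊤ : Submodule S S)) =
      Module.length S (S ⧸ K) := fun K =>
    (Submodule.quotEquivOfEq _ _ (by simp [Ideal.mul_top])).length_eq
  have e1 := (koszul_tendsto (R := S) x S (fun N => by rw [heq]; exact hfin N)).2
  simp only [len, heq] at e1
  set e : ℝ := (((koszulGC S x S).chi (Finset.Icc 0 (d : ℤ)) ⊥ ⊤ : ℤ) : ℝ)
  refine ⟨e, ?_⟩
  have hlo : Tendsto (fun N : ℕ => (d.factorial : ℝ) *
      ((Module.length S (S ⧸ I ^ (N - c))).toNat : ℝ) / (N : ℝ) ^ d) atTop (𝓝 e) := by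
    have h1 := e1.comp (tendsto_sub_atTop_nat c)
    have h2 : Tendsto (fun N : ℕ => ((N - c : ℕ) : ℝ) / (N : ℝ)) atTop (𝓝 1) := by
      have h0 := (tendsto_const_nhds (x := (1 : ℝ))).sub
        (tendsto_const_div_atTop_nhds_zero_nat (c : ℝ))
      rw [sub_zero] at h0
      refine h0.congr' ?_
      filter_upwards [eventually_gt_atTop c] with N hN
      have : (0 : ℝ) < N := by exact_mod_cast Nat.zero_lt_of_lt hN
      push_cast [hN.le]
      field_simp
    have h3 := h1.mul (h2.pow d)
    rw [one_pow, mul_one] at h3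
    refine h3.congr' ?_
    filter_upwards [eventually_gt_atTop c] with N hN
    have : (0 : ℝ) < N := by exact_mod_cast Nat.zero_lt_of_lt hN
    have : (0 : ℝ) < ((N - c : ℕ) : ℝ) := by exact_mod_cast Nat.sub_pos_of_lt hN
    simp only [Function.comp, div_pow]
    field_simp
    rfl
  refine tendsto_of_tendsto_of_tendsto_of_le_of_le' hlo e1 ?_ ?_
  · filter_upwards [eventually_ge_atTop c] with N hN
    gcongr
    · exact hmfin N
    · refine length_quotient_mono ((le_of_eq ?_).trans (hred (N - c)))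
      rw [Nat.sub_add_cancel hN]
  · refine Eventually.of_forall fun N => ?_
    gcongr
    · exact hfin N
    · exact length_quotient_mono (Ideal.pow_right_mono hIm N)

namespace ModelAux

theorem isJacobsonRing_int : IsJacobsonRing ℤ := by
  rw [isJacobsonRing_iff_prime_eq]
  intro P hP
  rcases eq_or_ne P ⊥ with rfl | hne
  · refine le_antisymm (fun x hx => ?_) Ideal.le_jacobson
    by_contra hx0
    obtain ⟨p, hpx, hp⟩ := Nat.exists_infinite_primes (x.natAbs + 1)
    have hmax : (Ideal.span {(p : ℤ)}).IsMaximal :=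
      PrincipalIdealRing.isMaximal_of_irreducible (Nat.prime_iff_prime_int.1 hp).irreducible
    have hmem : x ∈ Ideal.span {(p : ℤ)} := Ideal.mem_sInf.1 hx ⟨bot_le, hmax⟩
    rw [Ideal.mem_span_singleton, Int.natCast_dvd] at hmem
    rw [Submodule.mem_bot] at hx0
    have := Nat.le_of_dvd (Int.natAbs_pos.2 hx0) hmem
    omega
  · have := hP.isMaximal hne
    exact Ideal.jacobson_eq_self_of_isMaximal

end ModelAux

theorem exists_charP_field {k : Type u} [Field k] [CharZero k] (s : Finset k) {A₀ : Subring k}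
    (hA : A₀ = Subring.closure (s : Set k)) {a : A₀} (ha : a ≠ 0) :
    ∃ (p : ℕ) (_ : Fact p.Prime) (F : Type u) (_ : Field F) (_ : CharP F p) (χ : A₀ →+* F),
      χ a ≠ 0 := by
  have : IsJacobsonRing ℤ := ModelAux.isJacobsonRing_int
  let φ : MvPolynomial {x // x ∈ s} ℤ →ₐ[ℤ] A₀ :=
    MvPolynomial.aeval fun x => (⟨x.1, hA ▸ Subring.subset_closure x.2⟩ : A₀)
  have hφ : Function.Surjective φ := by
    rintro ⟨z, hz⟩
    have h' : z ∈ Subring.closure (s : Set k) := hA ▸ hz
    suffices h : Subring.closure (s : Set k) ≤ (A₀.subtype.comp φ.toRingHom).range by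
      obtain ⟨q, hq⟩ := h h'
      exact ⟨q, Subtype.ext hq⟩
    refine Subring.closure_le.2 fun y hy => ⟨MvPolynomial.X ⟨y, hy⟩, ?_⟩
    simp [φ]
  have hft : Algebra.FiniteType ℤ A₀ := Algebra.FiniteType.of_surjective φ hφ
  have : IsJacobsonRing A₀ := isJacobsonRing_of_finiteType (A := ℤ)
  have hjac : Ideal.jacobson (⊥ : Ideal A₀) = ⊥ :=
    IsJacobsonRing.out ‹_› Ideal.isPrime_bot.isRadical
  obtain ⟨P, hP, haP⟩ : ∃ P : Ideal A₀, P.IsMaximal ∧ a ∉ P := by
    by_contra h
    simp only [not_exists, not_and, not_not] at h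
    have h' : a ∈ Ideal.jacobson (⊥ : Ideal A₀) := Ideal.mem_sInf.2 fun {I} hI => h I hI.2
    rw [hjac] at h'
    exact ha ((Submodule.mem_bot _).1 h')
  let _ : Field (A₀ ⧸ P) := Ideal.Quotient.field P
  have : Algebra.FiniteType ℤ (A₀ ⧸ P) :=
    Algebra.FiniteType.of_surjective (Ideal.Quotient.mkₐ ℤ P) Ideal.Quotient.mk_surjective
  have : Module.Finite ℤ (A₀ ⧸ P) := finite_of_finite_type_of_isJacobsonRing ℤ (A₀ ⧸ P)
  obtain ⟨p, hchar⟩ := CharP.exists (A₀ ⧸ P)
  rcases CharP.char_is_prime_or_zero (A₀ ⧸ P) p with hp | hp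
  · exact ⟨p, ⟨hp⟩, A₀ ⧸ P, inferInstance, hchar, Ideal.Quotient.mk P,
      fun h => haP (Ideal.Quotient.eq_zero_iff_mem.1 h)⟩
  · subst hp
    have : CharZero (A₀ ⧸ P) := CharP.charP_to_charZero _
    exact absurd (isField_of_isIntegral_of_isField (R := ℤ) (S := A₀ ⧸ P)
      (algebraMap ℤ (A₀ ⧸ P)).injective_int (Field.toIsField _)) Int.not_isField

namespace ModelAux

/-- An ideal contained in every maximal ideal, with residues coming from a field, is the maximal
ideal. -/
theorem local_of_residues {k A : Type u} [Field k] [CommRing A] [Nontrivial A] (ι : k →+* A)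
    (I : Ideal A) (hI : ∀ P : Ideal A, P.IsMaximal → I ≤ P)
    (hres : ∀ y : A, ∃ c : k, y - ι c ∈ I) :
    ∃ _ : IsLocalRing A, maximalIdeal A = I := by
  obtain ⟨P0, hP0⟩ := Ideal.exists_maximal A
  have hmax : I.IsMaximal := by
    refine Ideal.isMaximal_iff.2 ⟨fun h => hP0.ne_top ((Ideal.eq_top_iff_one P0).2 (hI P0 hP0 h)),
      fun J y hIJ hy hyJ => ?_⟩
    obtain ⟨c, hc⟩ := hres y
    have hc0 : c ≠ 0 := fun h => hy (by rwa [h, map_zero, sub_zero] at hc)
    have h1 : ι c ∈ J := by
      have := sub_mem hyJ (hIJ hc)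
      rwa [sub_sub_cancel] at this
    have := J.mul_mem_left (ι c⁻¹) h1
    rwa [← map_mul, inv_mul_cancel₀ hc0, map_one] at this
  have hloc : IsLocalRing A := IsLocalRing.of_unique_max_ideal
    ⟨I, hmax, fun J hJ => (hmax.eq_of_le hJ.ne_top (hI J hJ)).symm⟩
  exact ⟨hloc, (IsLocalRing.eq_maximalIdeal hmax).symm⟩

/-- The model, with the base changes given abstractly. -/
theorem model_abs {p : ℕ}
    (mainp : ∀ (R S : Type u) [CommRing R] [CommRing S] [IsLocalRing R] [IsLocalRing S]
      [IsNoetherianRing R] [IsNoetherianRing S] [Algebra R S] [IsLocalHom (algebraMap R S)]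
      [Module.Finite R S] [Module.Free R S] [CharP R p]
      (d : ℕ) (e e' : ℝ), IsMultiplicity R d e → IsMultiplicity S d e' → e ≤ e')
    {F : Type u} [Field F] [CharP F p] {d : ℕ} {B RB SB : Type u} [CommRing B] [CommRing RB]
    [CommRing SB] [Algebra B (PS F d)] [Algebra B RB] [Algebra RB SB] [Algebra B SB]
    [IsScalarTower B RB SB]
    {RR SS : Type u} [CommRing RR] [CommRing SS] [Algebra (PS F d) RR] [Algebra RR SS]
    [Algebra (PS F d) SS] [IsScalarTower (PS F d) RR SS] [Module.Free RR SS] [Module.Finite RR SS]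
    [Nontrivial RR] [Nontrivial SS]
    (f : RB →+* RR) (g : SB →+* SS)
    (hf : ∀ β, f (algebraMap B RB β) = algebraMap (PS F d) RR (algebraMap B (PS F d) β))
    (hg : ∀ t, g (algebraMap RB SB t) = algebraMap RR SS (f t))
    (hgenR : Submodule.span (PS F d) (Set.range f) = ⊤)
    (hgenS : Submodule.span (PS F d) (Set.range g) = ⊤)
    (ζ : Fin d → B) (hζ : ∀ i, algebraMap B (PS F d) (ζ i) = X i)
    {n : ℕ} (a : Fin n → RB) (ha : Submodule.span B (insert 1 (Set.range a)) = ⊤)
    (mB : Ideal RB)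
    (hmB : mB = Ideal.span (Set.range (fun i => algebraMap B RB (ζ i)) ∪ Set.range a))
    (hR : ∃ c, mB ^ (c + 1) ≤ Ideal.span (Set.range fun i => algebraMap B RB (ζ i)) * mB ^ c)
    {s : ℕ} (b : Fin s → SB) (hb : Submodule.span RB (insert 1 (Set.range b)) = ⊤)
    (nB : Ideal SB) (hnB : nB = mB.map (algebraMap RB SB) ⊔ Ideal.span (Set.range b))
    (hS : ∃ c, nB ^ c ≤ mB.map (algebraMap RB SB))
    (x : Fin d → SB) (hx : ∀ i, x i ∈ nB)
    (hxc : ∃ c, nB ^ (c + 1) ≤ Ideal.span (Set.range x) * nB ^ c)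
    {r : ℕ} (w : Fin r → RR) (π : RR →ₗ[PS F d] (Fin r → PS F d)) {h : PS F d}
    (hh : h ≠ 0) (hw : ∀ j, π (w j) = Pi.single j h)
    {M : ℕ} (hM : 0 < M) {L : ℕ} (v : Fin L → SB) (J : Ideal SB)
    (hJ : J = Ideal.span (Set.range fun i => x i ^ M))
    (hv : Submodule.span B (Set.range v) ⊔ J.restrictScalars B = ⊤)
    (κ : Fin d → Fin L → Fin L → B)
    (hκ : ∀ i j, algebraMap B SB (ζ i) * v j - ∑ l, algebraMap B SB (κ i j l) * v l ∈ J)
    {D : ℕ} (hκc : ∀ i j l, ∃ c : F, algebraMap B (PS F d) (κ i j l) - C c ∈ zI F d ^ D)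
    (hD : Ideal.span (Set.range fun i => algebraMap B SB (ζ i)) ^ D ≤ J) :
    (r : ℝ) * (M : ℝ) ^ d ≤ L := by
  classical
  let ιR : F →+* RR := (algebraMap (PS F d) RR).comp C
  let _ : Algebra F RR := ιR.toAlgebra
  have : IsScalarTower F (PS F d) RR := IsScalarTower.of_algebraMap_eq fun _ => rfl
  let ιS : F →+* SS := (algebraMap (PS F d) SS).comp C
  let _ : Algebra F SS := ιS.toAlgebra
  have : IsScalarTower F (PS F d) SS := IsScalarTower.of_algebraMap_eq fun _ => rfl
  have hgB : ∀ β, g (algebraMap B SB β) = algebraMap (PS F d) SS (algebraMap B (PS F d) β) :=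
    fun β => by
      rw [IsScalarTower.algebraMap_apply B RB SB, hg, hf, ← IsScalarTower.algebraMap_apply]
  have hconst : ∀ q : PS F d, q - C (constantCoeff q) ∈ zI F d := by
    intro q
    rw [← pow_one (zI F d), PSLen.mem_zI_pow_iff]
    exact_mod_cast one_le_order_iff_constCoeff_eq_zero.2 (by simp)
  have : IsNoetherianRing (PS F d) := inferInstance
  -- `RR` is local
  set m0 := mB.map f
  have hzm : (zI F d).map (algebraMap (PS F d) RR) ≤ m0 := by
    rw [Ideal.map_le_iff_le_comap, zI, Ideal.span_le]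
    rintro _ ⟨i, rfl⟩
    change algebraMap (PS F d) RR (X i) ∈ m0
    rw [← hζ i, ← hf]
    exact Ideal.mem_map_of_mem f (hmB ▸ Ideal.subset_span (Or.inl ⟨i, rfl⟩))
  have hζmap : (Ideal.span (Set.range fun i => algebraMap B RB (ζ i))).map f =
      (zI F d).map (algebraMap (PS F d) RR) := by
    rw [zI, Ideal.map_span, Ideal.map_span, ← Set.range_comp, ← Set.range_comp]
    congr 1
    refine congrArg Set.range (funext fun i => ?_)
    simp only [Function.comp_apply]
    rw [hf, hζ]
  have hredR : ∃ c, m0 ^ (c + 1) ≤ (zI F d).map (algebraMap (PS F d) RR) * m0 ^ c := by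
    obtain ⟨c, hc⟩ := hR
    refine ⟨c, ?_⟩
    have := Ideal.map_mono (f := f) hc
    rwa [Ideal.map_mul, Ideal.map_pow, Ideal.map_pow, hζmap] at this
  have hRfin : Module.Finite (PS F d) RR := by
    refine Module.Finite.of_fg_top (Submodule.fg_def.2
      ⟨f '' insert 1 (Set.range a), Set.Finite.image _ ((Set.finite_range a).insert 1), ?_⟩)
    rw [eq_top_iff, ← hgenR, Submodule.span_le]
    rintro _ ⟨t, rfl⟩
    have ht : t ∈ Submodule.span B (insert 1 (Set.range a)) := ha ▸ trivial
    induction ht using Submodule.span_induction with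
    | mem y hy => exact Submodule.subset_span ⟨y, hy, rfl⟩
    | zero => rw [map_zero]; exact zero_mem _
    | add y z _ _ hy hz => rw [map_add]; exact add_mem hy hz
    | smul β y _ hy =>
      rw [Algebra.smul_def, map_mul, hf, ← Algebra.smul_def]
      exact Submodule.smul_mem _ _ hy
  have hmaxR : ∀ P : Ideal RR, P.IsMaximal → m0 ≤ P := by
    intro P hP
    have : Algebra.IsIntegral (PS F d) RR := inferInstance
    have h1 := Ideal.isMaximal_comap_of_isIntegral_of_isMaximal (R := PS F d) P
    have hzP : (zI F d).map (algebraMap (PS F d) RR) ≤ P := by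
      refine Ideal.map_le_iff_le_comap.2 ?_
      rw [IsLocalRing.eq_maximalIdeal h1, zI, Ideal.span_le]
      rintro _ ⟨i, rfl⟩
      rw [SetLike.mem_coe, mem_maximalIdeal, mem_nonunits_iff, isUnit_iff_constantCoeff]
      simp
    obtain ⟨c, hc⟩ := hredR
    exact hP.isPrime.le_of_pow_le ((hc.trans Ideal.mul_le_left).trans hzP)
  have hresR : ∀ y : RR, ∃ c : F, y - ιR c ∈ m0 := by
    intro y
    have hy : y ∈ Submodule.span (PS F d) (Set.range f) := hgenR ▸ trivial
    induction hy using Submodule.span_induction with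
    | mem y hy =>
      obtain ⟨t, rfl⟩ := hy
      have ht : t ∈ Submodule.span B (insert 1 (Set.range a)) := ha ▸ trivial
      induction ht using Submodule.span_induction with
      | mem y hy =>
        rcases hy with rfl | ⟨i, rfl⟩
        · exact ⟨1, by simp⟩
        · exact ⟨0, by
            rw [map_zero, sub_zero]
            exact Ideal.mem_map_of_mem f (hmB ▸ Ideal.subset_span (Or.inr ⟨i, rfl⟩))⟩
      | zero => exact ⟨0, by simp⟩
      | add y z _ _ hy hz =>
        obtain ⟨c, hc⟩ := hy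
        obtain ⟨c', hc'⟩ := hz
        exact ⟨c + c', by rw [map_add, map_add, add_sub_add_comm]; exact add_mem hc hc'⟩
      | smul β y _ hy =>
        obtain ⟨c, hc⟩ := hy
        refine ⟨constantCoeff (algebraMap B (PS F d) β) * c, ?_⟩
        have h1 : algebraMap (PS F d) RR (algebraMap B (PS F d) β) -
            ιR (constantCoeff (algebraMap B (PS F d) β)) ∈ m0 := by
          change _ - algebraMap (PS F d) RR (C _) ∈ m0
          rw [← map_sub]
          exact hzm (Ideal.mem_map_of_mem _ (hconst _))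
        rw [Algebra.smul_def, map_mul, map_mul, hf]
        have := add_mem (m0.mul_mem_right (f y) h1)
          (m0.mul_mem_left (ιR (constantCoeff (algebraMap B (PS F d) β))) hc)
        rwa [sub_mul, mul_sub, sub_add_sub_cancel] at this
    | zero => exact ⟨0, by simp⟩
    | add y z _ _ hy hz =>
      obtain ⟨c, hc⟩ := hy
      obtain ⟨c', hc'⟩ := hz
      exact ⟨c + c', by rw [map_add, add_sub_add_comm]; exact add_mem hc hc'⟩
    | smul q y _ hy =>
      obtain ⟨c, hc⟩ := hy
      refine ⟨constantCoeff q * c, ?_⟩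
      have h1 : algebraMap (PS F d) RR q - ιR (constantCoeff q) ∈ m0 := by
        change _ - algebraMap (PS F d) RR (C _) ∈ m0
        rw [← map_sub]
        exact hzm (Ideal.mem_map_of_mem _ (hconst _))
      rw [Algebra.smul_def, map_mul]
      have := add_mem (m0.mul_mem_right y h1) (m0.mul_mem_left (ιR (constantCoeff q)) hc)
      rwa [sub_mul, mul_sub, sub_add_sub_cancel] at this
  obtain ⟨_, hmR⟩ := local_of_residues ιR m0 hmaxR hresR
  have : IsNoetherianRing RR := IsNoetherianRing.of_finite (PS F d) RR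
  -- `SS` is local
  set n0 := nB.map g
  have hm0n : m0.map (algebraMap RR SS) ≤ n0 := by
    rw [Ideal.map_map, show (algebraMap RR SS).comp f = g.comp (algebraMap RB SB) from
      RingHom.ext fun t => (hg t).symm, ← Ideal.map_map]
    exact Ideal.map_mono (hnB ▸ le_sup_left)
  have hmaxS : ∀ P : Ideal SS, P.IsMaximal → n0 ≤ P := by
    intro P hP
    have h1 := Ideal.isMaximal_comap_of_isIntegral_of_isMaximal (R := RR) P
    obtain ⟨c, hc⟩ := hS
    refine hP.isPrime.le_of_pow_le (n := c) ?_
    rw [← Ideal.map_pow]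
    refine (Ideal.map_mono hc).trans ?_
    rw [Ideal.map_map, show g.comp (algebraMap RB SB) = (algebraMap RR SS).comp f from
      RingHom.ext hg, ← Ideal.map_map, Ideal.map_le_iff_le_comap, IsLocalRing.eq_maximalIdeal h1,
      hmR]
  have hresS : ∀ y : SS, ∃ c : F, y - ιS c ∈ n0 := by
    have hR' : ∀ t : RR, ∃ c : F, algebraMap RR SS t - ιS c ∈ n0 := fun t => by
      obtain ⟨c, hc⟩ := hresR t
      refine ⟨c, ?_⟩
      have h1 := hm0n (Ideal.mem_map_of_mem (algebraMap RR SS) hc)
      rwa [map_sub, show algebraMap RR SS (ιR c) = ιS c from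
        (IsScalarTower.algebraMap_apply (PS F d) RR SS (C c)).symm] at h1
    have hmul : ∀ y z : SS, (∃ c, y - ιS c ∈ n0) → (∃ c, z - ιS c ∈ n0) →
        ∃ c, y * z - ιS c ∈ n0 := by
      rintro y z ⟨c, hc⟩ ⟨c', hc'⟩
      refine ⟨c * c', ?_⟩
      have := add_mem (n0.mul_mem_right z hc) (n0.mul_mem_left (ιS c) hc')
      rwa [sub_mul, mul_sub, sub_add_sub_cancel, ← map_mul] at this
    intro y
    have hy : y ∈ Submodule.span (PS F d) (Set.range g) := hgenS ▸ trivial
    induction hy using Submodule.span_induction with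
    | mem y hy =>
      obtain ⟨t, rfl⟩ := hy
      have ht : t ∈ Submodule.span RB (insert 1 (Set.range b)) := hb ▸ trivial
      induction ht using Submodule.span_induction with
      | mem y hy =>
        rcases hy with rfl | ⟨i, rfl⟩
        · exact ⟨1, by simp⟩
        · exact ⟨0, by
            rw [map_zero, sub_zero]
            exact Ideal.mem_map_of_mem g (hnB ▸ Ideal.mem_sup_right
              (Ideal.subset_span ⟨i, rfl⟩))⟩
      | zero => exact ⟨0, by simp⟩
      | add y z _ _ hy hz =>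
        obtain ⟨c, hc⟩ := hy
        obtain ⟨c', hc'⟩ := hz
        exact ⟨c + c', by rw [map_add, map_add, add_sub_add_comm]; exact add_mem hc hc'⟩
      | smul β y _ hy =>
        rw [Algebra.smul_def, map_mul, hg]
        exact hmul _ _ (hR' _) hy
    | zero => exact ⟨0, by simp⟩
    | add y z _ _ hy hz =>
      obtain ⟨c, hc⟩ := hy
      obtain ⟨c', hc'⟩ := hz
      exact ⟨c + c', by rw [map_add, add_sub_add_comm]; exact add_mem hc hc'⟩
    | smul q y _ hy =>
      rw [Algebra.smul_def, IsScalarTower.algebraMap_apply (PS F d) RR SS]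
      exact hmul _ _ (hR' _) hy
  obtain ⟨_, hmS⟩ := local_of_residues ιS n0 hmaxS hresS
  have : IsNoetherianRing SS := IsNoetherianRing.of_finite RR SS
  have : IsLocalHom (algebraMap RR SS) :=
    ((local_hom_TFAE (algebraMap RR SS)).out 0 2).2 (by rw [hmR, hmS]; exact hm0n)
  have : CharP RR p := charP_of_injective_ringHom ιR.injective p
  -- the multiplicities
  have hzR : ∀ i, algebraMap (PS F d) RR (X i) ∈ maximalIdeal RR := fun i =>
    hmR ▸ hzm (Ideal.mem_map_of_mem _ (Ideal.subset_span ⟨i, rfl⟩))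
  have hkR : Function.Surjective fun c : F => residue RR (algebraMap F RR c) := fun z => by
    obtain ⟨y, rfl⟩ := residue_surjective z
    obtain ⟨c, hc⟩ := hresR y
    exact ⟨c, ((Ideal.Quotient.eq).2 (hmR ▸ hc)).symm⟩
  have hkS : Function.Surjective fun c : F => residue SS (algebraMap F SS c) := fun z => by
    obtain ⟨y, rfl⟩ := residue_surjective z
    obtain ⟨c, hc⟩ := hresS y
    exact ⟨c, ((Ideal.Quotient.eq).2 (hmS ▸ hc)).symm⟩
  have hredR' : ∃ c, maximalIdeal RR ^ (c + 1) ≤
      (zI F d).map (algebraMap (PS F d) RR) * maximalIdeal RR ^ c := by rw [hmR]; exact hredR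
  have hx' : ∀ i, g (x i) ∈ maximalIdeal SS := fun i => hmS ▸ Ideal.mem_map_of_mem g (hx i)
  have hredS : ∃ c, maximalIdeal SS ^ (c + 1) ≤
      Ideal.span (Set.range fun i => g (x i)) * maximalIdeal SS ^ c := by
    obtain ⟨c, hc⟩ := hxc
    refine ⟨c, ?_⟩
    have h1 := Ideal.map_mono (f := g) hc
    rw [Ideal.map_mul, Ideal.map_pow, Ideal.map_pow, Ideal.map_span, ← Set.range_comp] at h1
    rw [hmS]
    exact h1
  obtain ⟨e, he⟩ : ∃ e : ℝ, IsMultiplicity RR d e := by
    refine exists_isMultiplicity_of_reduction (fun i => algebraMap (PS F d) RR (X i)) hzR ?_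
    obtain ⟨c, hc⟩ := hredR'
    refine ⟨c, hc.trans (le_of_eq ?_)⟩
    rw [zI, Ideal.map_span, ← Set.range_comp]
    rfl
  obtain ⟨e', he'⟩ := exists_isMultiplicity_of_reduction (fun i => g (x i)) hx' hredS
  have h1 := rank_le_isMultiplicity hkR hzR hredR' w π hh hw he
  have h2 := mainp RR SS d e e' he he'
  obtain ⟨c, hc⟩ := hredS
  have h3 := mult_mul_pow_le he' (fun i => g (x i)) hx' hc M hM
  -- the quotient of `SS` is spanned by `v` over `F`
  set K := Ideal.span (Set.range fun i => g (x i) ^ M)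
  have hJK : ∀ t ∈ J, g t ∈ K := by
    intro t ht
    have h4 := Ideal.mem_map_of_mem g ht
    rw [hJ, Ideal.map_span, ← Set.range_comp] at h4
    simpa [Function.comp_def] using h4
  let Q := SS ⧸ K
  let mkQ : SS →+* Q := Ideal.Quotient.mk K
  let W : Submodule F Q := Submodule.span F (Set.range fun j => mkQ (g (v j)))
  have hCsmul : ∀ (c : F) (y : Q), mkQ (ιS c) * y = c • y := fun c y => by
    obtain ⟨y, rfl⟩ := Ideal.Quotient.mk_surjective y
    rfl
  have hDK : ∀ q ∈ zI F d ^ D, algebraMap (PS F d) SS q ∈ K := by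
    intro q hq
    have h4 := Ideal.mem_map_of_mem (algebraMap (PS F d) SS) hq
    rw [Ideal.map_pow, zI, Ideal.map_span, ← Set.range_comp] at h4
    have h5 : (Ideal.span (Set.range fun i => algebraMap B SB (ζ i)) ^ D).map g ≤ K :=
      Ideal.map_le_iff_le_comap.2 fun t ht => hJK t (hD ht)
    rw [Ideal.map_pow, Ideal.map_span, ← Set.range_comp] at h5
    refine h5 ?_
    convert h4 using 4
    funext i
    simp only [Function.comp_apply]
    rw [hgB, hζ]
  have hXW : ∀ i, ∀ y ∈ W, mkQ (algebraMap (PS F d) SS (X i)) * y ∈ W := by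
    intro i y hy
    induction hy using Submodule.span_induction with
    | mem y hy =>
      obtain ⟨j, rfl⟩ := hy
      have h4 : mkQ (algebraMap (PS F d) SS (X i)) * mkQ (g (v j)) =
          ∑ l, mkQ (algebraMap (PS F d) SS (algebraMap B (PS F d) (κ i j l))) * mkQ (g (v l)) := by
        simp only [← map_mul, ← map_sum]
        refine Ideal.Quotient.eq.2 ?_
        have h5 := hJK _ (hκ i j)
        simpa only [map_sub, map_mul, map_sum, hgB, hζ] using h5
      rw [h4]
      refine Submodule.sum_mem _ fun l _ => ?_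
      obtain ⟨c, hc⟩ := hκc i j l
      have h5 : mkQ (algebraMap (PS F d) SS (algebraMap B (PS F d) (κ i j l))) = mkQ (ιS c) := by
        refine Ideal.Quotient.eq.2 ?_
        change _ - algebraMap (PS F d) SS (C c) ∈ K
        rw [← map_sub]
        exact hDK _ hc
      rw [h5, hCsmul]
      exact W.smul_mem _ (Submodule.subset_span ⟨l, rfl⟩)
    | zero => rw [mul_zero]; exact zero_mem _
    | add y z _ _ hy hz => rw [mul_add]; exact add_mem hy hz
    | smul c y _ hy => rw [mul_smul_comm]; exact W.smul_mem _ hy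
  let Kn : ℕ → Submodule F Q := fun N =>
    W ⊔ Submodule.span F {y | ∃ q ∈ zI F d ^ N, ∃ z : Q, y = mkQ (algebraMap (PS F d) SS q) * z}
  have hact : ∀ N, ∀ q : PS F d, ∀ y ∈ W, mkQ (algebraMap (PS F d) SS q) * y ∈ Kn N := by
    intro N
    induction N with
    | zero =>
      intro q y _
      exact Submodule.mem_sup_right (Submodule.subset_span ⟨q, by simp, y, rfl⟩)
    | succ N ih =>
      intro q y hy
      obtain ⟨q', hq', -⟩ := PSLen.exists_decomp 1 (q - C (constantCoeff q)) (fun α hα => by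
        have h0 : α = 0 := Finsupp.ext fun i => by simpa using hα i
        simp [h0])
      have hq : q = C (constantCoeff q) + ∑ i, X i * q' i := by
        rw [show ∑ i, X i * q' i = ∑ i, X i ^ 1 * q' i by simp, ← hq', add_sub_cancel]
      rw [hq, map_add, map_add, add_mul, map_sum, map_sum, Finset.sum_mul]
      refine add_mem ?_ (Submodule.sum_mem _ fun i _ => ?_)
      · change mkQ (ιS _) * y ∈ _
        rw [hCsmul]
        exact Submodule.mem_sup_left (W.smul_mem _ hy)
      · rw [map_mul, map_mul, mul_assoc]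
        obtain ⟨y1, hy1, y2, hy2, he⟩ := Submodule.mem_sup.1 (ih (q' i) y hy)
        rw [← he, mul_add]
        refine add_mem (Submodule.mem_sup_left (hXW i _ hy1)) (Submodule.mem_sup_right ?_)
        clear he
        induction hy2 using Submodule.span_induction with
        | mem y hy =>
          obtain ⟨q₁, hq₁, z, rfl⟩ := hy
          refine Submodule.subset_span ⟨X i * q₁, ?_, z, by simp only [map_mul, mul_assoc]⟩
          rw [pow_succ']
          exact Ideal.mul_mem_mul (Ideal.subset_span ⟨i, rfl⟩) hq₁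
        | zero => rw [mul_zero]; exact zero_mem _
        | add y z _ _ hy hz => rw [mul_add]; exact add_mem hy hz
        | smul c y _ hy => rw [mul_smul_comm]; exact Submodule.smul_mem _ _ hy
  have hKD : Kn D ≤ W := by
    refine sup_le le_rfl (Submodule.span_le.2 ?_)
    rintro _ ⟨q, hq, z, rfl⟩
    rw [show mkQ (algebraMap (PS F d) SS q) = 0 from Ideal.Quotient.eq_zero_iff_mem.2 (hDK q hq),
      zero_mul]
    exact zero_mem _
  have hWtop : W = ⊤ := by
    refine Submodule.eq_top_iff'.2 fun y => ?_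
    obtain ⟨y, rfl⟩ := Ideal.Quotient.mk_surjective y
    have hy : y ∈ Submodule.span (PS F d) (Set.range g) := hgenS ▸ trivial
    suffices hs : ∀ q : PS F d, mkQ (algebraMap (PS F d) SS q) * mkQ y ∈ W by
      simpa using hs 1
    induction hy using Submodule.span_induction with
    | mem y hy =>
      obtain ⟨t, rfl⟩ := hy
      intro q
      obtain ⟨t1, ht1, t2, ht2, rfl⟩ := Submodule.mem_sup.1
        (show t ∈ Submodule.span B (Set.range v) ⊔ J.restrictScalars B by rw [hv]; trivial)
      rw [map_add, map_add, show mkQ (g t2) = 0 from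
        Ideal.Quotient.eq_zero_iff_mem.2 (hJK t2 ht2), add_zero]
      obtain ⟨β, rfl⟩ := (Submodule.mem_span_range_iff_exists_fun B).1 ht1
      simp only [map_sum, Algebra.smul_def, map_mul, hgB, Finset.mul_sum]
      refine Submodule.sum_mem _ fun j _ => ?_
      rw [← mul_assoc, ← map_mul mkQ, ← map_mul (algebraMap (PS F d) SS)]
      exact hKD (hact D _ _ (Submodule.subset_span ⟨j, rfl⟩))
    | zero => intro q; simp
    | add y z _ _ hy hz => intro q; rw [map_add, mul_add]; exact add_mem (hy q) (hz q)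
    | smul q' y _ hy =>
      intro q
      rw [Algebra.smul_def, map_mul, ← mul_assoc, ← map_mul mkQ,
        ← map_mul (algebraMap (PS F d) SS)]
      exact hy _
  have : Module.Finite F Q := Module.Finite.of_fg_top (Submodule.fg_def.2
    ⟨_, Set.finite_range fun j => mkQ (g (v j)), hWtop⟩)
  have hlenQ : len SS Q ≤ L := by
    rw [len, length_eq_residue hkS Q, Module.length_eq_finrank, ENat.toNat_natCast]
    rw [← finrank_top F Q, ← hWtop]
    exact (finrank_range_le_card _).trans (by simp)
  have h4 : (len SS Q : ℝ) ≤ L := by exact_mod_cast hlenQ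
  calc (r : ℝ) * (M : ℝ) ^ d ≤ e' * (M : ℝ) ^ d :=
        mul_le_mul_of_nonneg_right (h1.trans h2) (by positivity)
    _ ≤ (L : ℝ) := h3.trans h4

end ModelAux

attribute [local instance] Algebra.TensorProduct.rightAlgebra

theorem model_bound {p : ℕ} [Fact p.Prime]
    (mainp : ∀ (R S : Type u) [CommRing R] [CommRing S] [IsLocalRing R] [IsLocalRing S]
      [IsNoetherianRing R] [IsNoetherianRing S] [Algebra R S] [IsLocalHom (algebraMap R S)]
      [Module.Finite R S] [Module.Free R S] [CharP R p]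
      (d : ℕ) (e e' : ℝ), IsMultiplicity R d e → IsMultiplicity S d e' → e ≤ e')
    {F : Type u} [Field F] [CharP F p] {d : ℕ} {B RB SB : Type u} [CommRing B] [CommRing RB]
    [CommRing SB] [Algebra B (PS F d)] [Algebra B RB] [Algebra RB SB] [Algebra B SB]
    [IsScalarTower B RB SB] [Module.Free RB SB] [Module.Finite RB SB] [Nontrivial SB]
    (ζ : Fin d → B) (hζ : ∀ i, algebraMap B (PS F d) (ζ i) = X i)
    {g : ℕ} (a : Fin g → RB) (ha : Submodule.span B (insert 1 (Set.range a)) = ⊤)
    (hR : ∃ c, Ideal.span (Set.range (fun i => algebraMap B RB (ζ i)) ∪ Set.range a) ^ (c + 1) ≤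
      Ideal.span (Set.range fun i => algebraMap B RB (ζ i)) *
        Ideal.span (Set.range (fun i => algebraMap B RB (ζ i)) ∪ Set.range a) ^ c)
    {s : ℕ} (b : Fin s → SB) (hb : Submodule.span RB (insert 1 (Set.range b)) = ⊤)
    (mB : Ideal RB)
    (hmB : mB = Ideal.span (Set.range (fun i => algebraMap B RB (ζ i)) ∪ Set.range a))
    (nB : Ideal SB) (hnB : nB = mB.map (algebraMap RB SB) ⊔ Ideal.span (Set.range b))
    (hS : ∃ c, nB ^ c ≤ mB.map (algebraMap RB SB))
    (x : Fin d → SB) (hx : ∀ i, x i ∈ nB)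
    (hxc : ∃ c, nB ^ (c + 1) ≤ Ideal.span (Set.range x) * nB ^ c)
    {r : ℕ} (w : Fin r → RB) (π : RB →ₗ[B] (Fin r → B)) {h : B}
    (hh : algebraMap B (PS F d) h ≠ 0) (hw : ∀ j, π (w j) = Pi.single j h)
    {M : ℕ} (hM : 0 < M) {L : ℕ} (v : Fin L → SB) (J : Ideal SB)
    (hJ : J = Ideal.span (Set.range fun i => x i ^ M))
    (hv : Submodule.span B (Set.range v) ⊔ J.restrictScalars B = ⊤)
    (κ : Fin d → Fin L → Fin L → B)
    (hκ : ∀ i j, algebraMap B SB (ζ i) * v j - ∑ l, algebraMap B SB (κ i j l) * v l ∈ J)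
    {D : ℕ} (hκc : ∀ i j l, ∃ c : F, algebraMap B (PS F d) (κ i j l) - C c ∈ zI F d ^ D)
    (hD : Ideal.span (Set.range fun i => algebraMap B SB (ζ i)) ^ D ≤ J) :
    (r : ℝ) * (M : ℝ) ^ d ≤ L := by
  rcases Nat.eq_zero_or_pos r with rfl | hr
  · simp
  classical
  subst hmB
  let π' : (PS F d ⊗[B] RB) →ₗ[PS F d] (Fin r → PS F d) :=
    LinearMap.liftBaseChange (PS F d)
      (((Algebra.linearMap B (PS F d)).compLeft (Fin r)).comp π)
  have hπ' : ∀ j, π' ((1 : PS F d) ⊗ₜ[B] w j) = Pi.single j (algebraMap B (PS F d) h) := fun j => by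
    simp only [π', LinearMap.liftBaseChange_tmul, LinearMap.comp_apply, one_smul, hw]
    funext i
    rw [LinearMap.compLeft_apply, Function.comp_apply, Algebra.linearMap_apply,
      Pi.single_apply, Pi.single_apply, apply_ite (algebraMap B (PS F d)), map_zero]
  have : Nontrivial (PS F d ⊗[B] RB) := by
    refine nontrivial_of_ne ((1 : PS F d) ⊗ₜ[B] w ⟨0, hr⟩) 0 fun h0 => hh ?_
    have h1 := congrArg (fun z => π' z ⟨0, hr⟩) h0
    simpa [hπ'] using h1
  let bS := Module.Free.chooseBasis RB SB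
  have : Nonempty (Module.Free.ChooseBasisIndex RB SB) := bS.index_nonempty
  have : Nontrivial ((PS F d ⊗[B] RB) ⊗[RB] SB) :=
    (Algebra.TensorProduct.basis (PS F d ⊗[B] RB) bS).repr.toEquiv.nontrivial
  let f : RB →+* PS F d ⊗[B] RB := (Algebra.TensorProduct.includeRight (R := B)).toRingHom
  let G : SB →+* (PS F d ⊗[B] RB) ⊗[RB] SB :=
    (Algebra.TensorProduct.includeRight (R := RB)).toRingHom
  refine ModelAux.model_abs (RR := PS F d ⊗[B] RB) (SS := (PS F d ⊗[B] RB) ⊗[RB] SB)
    mainp f G (fun β => ?_) (fun t => ?_) ?_ ?_ ζ hζ a ha _ rfl hR b hb nB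
    hnB hS x hx hxc (fun j => (1 : PS F d) ⊗ₜ[B] w j) π' hh hπ' hM v J hJ hv κ hκ hκc hD
  · simp [f, Algebra.TensorProduct.algebraMap_apply, Algebra.TensorProduct.tmul_one_eq_one_tmul]
  · change (1 : PS F d ⊗[B] RB) ⊗ₜ[RB] algebraMap RB SB t = algebraMap _ _ ((1 : PS F d) ⊗ₜ[B] t)
    rw [Algebra.TensorProduct.algebraMap_apply, ← Algebra.TensorProduct.tmul_one_eq_one_tmul]
    rfl
  · refine eq_top_iff.2 fun y _ => ?_
    induction y with
    | zero => exact zero_mem _
    | add y z hy hz => exact add_mem (hy trivial) (hz trivial)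
    | tmul q t =>
      rw [← mul_one q, ← smul_eq_mul, ← TensorProduct.smul_tmul']
      exact Submodule.smul_mem _ _ (Submodule.subset_span ⟨t, rfl⟩)
  · refine eq_top_iff.2 fun y _ => ?_
    induction y with
    | zero => exact zero_mem _
    | add y z hy hz => exact add_mem (hy trivial) (hz trivial)
    | tmul y t =>
      induction y with
      | zero => rw [TensorProduct.zero_tmul]; exact zero_mem _
      | add y z hy hz => rw [TensorProduct.add_tmul]; exact add_mem (hy trivial) (hz trivial)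
      | tmul q r =>
        have h1 : (q ⊗ₜ[B] r) ⊗ₜ[RB] t = q • G (r • t) := by
          change _ = q • ((1 : PS F d ⊗[B] RB) ⊗ₜ[RB] (r • t))
          rw [TensorProduct.tmul_smul, TensorProduct.smul_tmul', TensorProduct.smul_tmul',
            Algebra.smul_def r (1 : PS F d ⊗[B] RB), mul_one,
            Algebra.TensorProduct.right_algebraMap_apply, TensorProduct.smul_tmul', smul_eq_mul,
            mul_one]
        rw [h1]
        exact Submodule.smul_mem _ _ (Submodule.subset_span ⟨_, rfl⟩)

end Vale.Agent.P202.Zero
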