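import Vale.Agent.P202.Zero.LechZero
import Vale.Agent.P202.Char.Stage2Smooth
import Vale.Agent.P202.Ext.Localise

/-!
P202, equal characteristic zero: Lech's inequality for all flat local maps, from the one for finite
closed fibres.
-/

namespace Vale.Agent.P202.Zero

open IsLocalRing AdicCompletion Vale.Agent.P202.Char

universe u

/-- An extension of a residue field of characteristic zero has characteristic zero. -/
theorem charZero_residue (R S : Type u) [CommRing R] [CommRing S] [IsLocalRing R] [IsLocalRing S]
    [Algebra R S] [IsLocalHom (algebraMap R S)] [CharZero (ResidueField R)] :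
    CharZero (ResidueField S) :=
  charZero_of_injective_algebraMap (algebraMap (ResidueField R) (ResidueField S)).injective

/-- Lech's inequality for Artinian closed fibres, arbitrary residue extension. -/
theorem lech_artinian
    (mainp : ∀ (p : ℕ) [Fact p.Prime] (R S : Type u) [CommRing R] [CommRing S] [IsLocalRing R]
      [IsLocalRing S] [IsNoetherianRing R] [IsNoetherianRing S] [Algebra R S]
      [IsLocalHom (algebraMap R S)] [Module.Finite R S] [Module.Free R S] [CharP R p]
      (d : ℕ) (e e' : ℝ), IsMultiplicity R d e → IsMultiplicity S d e' → e ≤ e')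
    (R S : Type u) [CommRing R] [CommRing S] [IsLocalRing R] [IsLocalRing S]
    [IsNoetherianRing R] [IsNoetherianRing S] [Algebra R S] [IsLocalHom (algebraMap R S)]
    [Module.Flat R S] [CharZero (ResidueField R)]
    (hS : ∃ c, maximalIdeal S ^ c ≤ (maximalIdeal R).map (algebraMap R S))
    (d : ℕ) (e e' : ℝ) (he : IsMultiplicity R d e) (he' : IsMultiplicity S d e') : e ≤ e' := by
  set m := maximalIdeal R
  set n := maximalIdeal S
  let R' := AdicCompletion m R
  let S' := AdicCompletion n S
  have : IsNoetherianRing R' := Compl.isNoetherianRing m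
  have : IsNoetherianRing S' := Compl.isNoetherianRing n
  have : IsAdicComplete (maximalIdeal R') R' :=
    maximalIdeal_eq_map (R := R) ▸ isAdicComplete_self m m.fg_of_isNoetherianRing
  have : IsAdicComplete (maximalIdeal S') S' :=
    maximalIdeal_eq_map (R := S) ▸ isAdicComplete_self n n.fg_of_isNoetherianRing
  have hle : m.map (algebraMap R S) ≤ n :=
    le_maximalIdeal (map_maximalIdeal_lt_top (algebraMap R S)).ne
  let φ := Compl.compMap (algebraMap R S) (I := m) (J := n) hle
  let _ : Algebra R' S' := φ.toAlgebra
  have hφ : (algebraMap R' S').comp (algebraMap R R') =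
      (algebraMap S S').comp (algebraMap R S) :=
    Compl.compMap_comp_algebraMap _ _
  have : IsScalarTower R R' S' := IsScalarTower.of_algebraMap_eq fun r => by
    rw [IsScalarTower.algebraMap_apply R S S']
    exact (RingHom.congr_fun hφ r).symm
  have hmap : (maximalIdeal R').map (algebraMap R' S') =
      (m.map (algebraMap R S)).map (algebraMap S S') := by
    rw [maximalIdeal_eq_map, Ideal.map_map, hφ, ← Ideal.map_map]
  have : IsLocalHom (algebraMap R' S') := by
    refine ((local_hom_TFAE _).out 0 2).mpr ?_
    rw [hmap, maximalIdeal_eq_map]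
    exact Ideal.map_mono hle
  have : Module.Flat R S' := Module.Flat.trans R S S'
  have : Module.Flat R' S' := flat_tower (R := R) maximalIdeal_eq_map.symm
  have := charZero_residue R R'
  have := PerfectField.ofCharZero (K := ResidueField R')
  have := formallySmooth_of_perfect (ResidueField R') (ResidueField S')
  obtain ⟨σ, hσ⟩ := exists_coefficient_field R'
  obtain ⟨R₁, _, _, _, _, _, _, _, _, _, hmax, hres⟩ := exists_gonflement_of_section R' S' σ hσ
  have : Module.Flat R₁ S' := flat_tower (R := R') hmax
  have := charZero_residue R' R₁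
  have hfin : Module.Finite R₁ (S' ⧸ maximalIdeal S') :=
    Module.Finite.of_surjective (Algebra.linearMap R₁ (S' ⧸ maximalIdeal S')) hres
  obtain ⟨c, hc⟩ := hS
  have : Module.Finite R₁ (S' ⧸ (maximalIdeal R₁).map (algebraMap R₁ S')) := by
    refine Compl.finite_fibre (c := c) ?_
    rw [← hmax, Ideal.map_map, ← IsScalarTower.algebraMap_eq, hmap, maximalIdeal_eq_map,
      ← Ideal.map_pow]
    exact Ideal.map_mono hc
  exact lech_zero mainp R₁ S' d e e'
    ((InfRes.isMultiplicity_iff hmax d e).1
      ((InfRes.isMultiplicity_iff (R := R) (S := R') maximalIdeal_eq_map.symm d e).1 he))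
    ((InfRes.isMultiplicity_iff (R := S) (S := S') maximalIdeal_eq_map.symm d e').1 he')

/-- Lech's inequality for all flat local maps with residue characteristic zero. -/
theorem lech_general
    (mainp : ∀ (p : ℕ) [Fact p.Prime] (R S : Type u) [CommRing R] [CommRing S] [IsLocalRing R]
      [IsLocalRing S] [IsNoetherianRing R] [IsNoetherianRing S] [Algebra R S]
      [IsLocalHom (algebraMap R S)] [Module.Finite R S] [Module.Free R S] [CharP R p]
      (d : ℕ) (e e' : ℝ), IsMultiplicity R d e → IsMultiplicity S d e' → e ≤ e')
    (R S : Type u) [CommRing R] [CommRing S] [IsLocalRing R] [IsLocalRing S]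
    [IsNoetherianRing R] [IsNoetherianRing S] [Algebra R S] [IsLocalHom (algebraMap R S)]
    [Module.Flat R S] [CharZero (ResidueField R)]
    (d D : ℕ) (hd : ringKrullDim R = d) (hD : ringKrullDim S = D)
    (e e' : ℝ) (he : IsMultiplicity R d e) (he' : IsMultiplicity S D e') : e ≤ e' := by
  refine Ext.lech_of_artinian_fibre_of R S ?_ d D hd hD e e' ?_ he'
  · intro T _ _ _ _ _ _ _
    have := charZero_residue R T
    exact exists_coefficient_field T
  · intro S' _ _ _ _ _ _ hc eQ heQ
    exact lech_artinian mainp R S' hc d e eQ he heQ

end Vale.Agent.P202.Zero
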