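import Vale.Agent.P202.Char.Completion

/-!
P202, equal characteristic zero: finite local extensions of complete rings are complete.
-/

namespace Vale.Agent.P202.Zero

open IsLocalRing AdicCompletion

universe u

theorem precomplete_finite {R : Type u} [CommRing R] (I : Ideal R) [IsAdicComplete I R]
    (M : Type u) [AddCommGroup M] [Module R M] [Module.Finite R M] : IsPrecomplete I M := by
  obtain ⟨r, φ, hφ⟩ := Module.Finite.exists_fin' R M
  refine ⟨fun f hf => ?_⟩
  simp only [SModEq.sub_mem] at hf ⊢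
  have himg : ∀ k, (I ^ k • ⊤ : Submodule R (Fin r → R)).map φ = I ^ k • ⊤ := fun k => by
    rw [Submodule.map_smul'', Submodule.map_top, LinearMap.range_eq_top.2 hφ]
  have hstep : ∀ k, ∃ δ ∈ (I ^ k • ⊤ : Submodule R (Fin r → R)), φ δ = f (k + 1) - f k := fun k => by
    have h := neg_mem (hf (Nat.le_succ k))
    rw [neg_sub, ← himg k] at h
    exact h
  choose δ hδ hφδ using hstep
  obtain ⟨g0, hg0⟩ := hφ (f 0)
  let g : ℕ → Fin r → R := fun k => g0 + ∑ j ∈ Finset.range k, δ j
  have hg : ∀ k, φ (g k) = f k := fun k => by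
    simp only [g, map_add, map_sum, hφδ, hg0, Finset.sum_range_sub f k]
    abel
  have hcauchy : ∀ {k l}, k ≤ l → g k - g l ∈ (I ^ k • ⊤ : Submodule R (Fin r → R)) := by
    intro k l hkl
    simp only [g, add_sub_add_left_eq_sub]
    rw [← neg_sub, ← Finset.sum_Ico_eq_sub _ hkl]
    refine neg_mem (sum_mem fun j hj => ?_)
    exact Submodule.smul_mono (Ideal.pow_le_pow_right (Finset.mem_Ico.1 hj).1) le_rfl (hδ j)
  have hco : ∀ i, ∀ {k l}, k ≤ l → g k i ≡ g l i [SMOD (I ^ k • ⊤ : Submodule R R)] := by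
    intro i k l hkl
    have h1 := Submodule.mem_map_of_mem (f := LinearMap.proj (φ := fun _ : Fin r => R) i)
      (hcauchy hkl)
    rw [Submodule.map_smul''] at h1
    rw [SModEq.sub_mem]
    exact Submodule.smul_mono le_rfl le_top h1
  choose L hL using fun i => IsPrecomplete.prec' (I := I) (fun k => g k i) (fun {k l} h => hco i h)
  refine ⟨φ L, fun k => ?_⟩
  rw [← hg k, ← map_sub, ← himg k]
  refine Submodule.mem_map_of_mem ?_
  rw [← Finset.univ_sum_single (g k - L)]
  refine sum_mem fun i _ => ?_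
  have h1 := Submodule.mem_map_of_mem (f := LinearMap.single R (fun _ : Fin r => R) i)
    (SModEq.sub_mem.1 (hL i k))
  rw [Submodule.map_smul''] at h1
  have h2 : LinearMap.single R (fun _ : Fin r => R) i (g k i - L i) ∈
      (I ^ k • ⊤ : Submodule R (Fin r → R)) := Submodule.smul_mono le_rfl le_top h1
  simpa using h2

theorem adicComplete_finite (R S : Type u) [CommRing R] [CommRing S] [IsLocalRing R]
    [IsLocalRing S] [IsNoetherianRing R] [Algebra R S] [IsLocalHom (algebraMap R S)]
    [Module.Finite R S] [IsAdicComplete (maximalIdeal R) R] :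
    IsAdicComplete (maximalIdeal S) S := by
  have : IsNoetherianRing S := IsNoetherianRing.of_finite R S
  have := precomplete_finite (maximalIdeal R) S
  set J := (maximalIdeal R).map (algebraMap R S)
  have hJ : J ≤ maximalIdeal S :=
    le_maximalIdeal (map_maximalIdeal_lt_top (algebraMap R S)).ne
  obtain ⟨c, hc⟩ := Char.Compl.exists_pow_le (R := R) (S := S)
  have hpre : IsPrecomplete J S := IsPrecomplete.map_algebraMap_iff.2 ‹_›
  refine { haus' := IsHausdorff.haus inferInstance, prec' := fun f hf => ?_ }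
  have hpow : ∀ k, maximalIdeal S ^ ((c + 1) * k) ≤ J ^ k := fun k => by
    rw [pow_mul]
    exact Ideal.pow_right_mono ((Ideal.pow_le_pow_right c.le_succ).trans hc) k
  simp only [smul_eq_mul, Ideal.mul_top, SModEq.sub_mem] at hf ⊢
  obtain ⟨L, hL⟩ := IsPrecomplete.prec hpre (f := fun k => f ((c + 1) * k)) fun {k l} hkl => by
    rw [smul_eq_mul, Ideal.mul_top, SModEq.sub_mem]
    exact hpow k (hf (Nat.mul_le_mul_left _ hkl))
  refine ⟨L, fun k => ?_⟩
  have h1 := hL k
  rw [smul_eq_mul, Ideal.mul_top, SModEq.sub_mem] at h1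
  have h2 : f k - f ((c + 1) * k) ∈ maximalIdeal S ^ k :=
    hf (Nat.le_mul_of_pos_left k c.succ_pos)
  simpa using add_mem h2 (Ideal.pow_right_mono hJ k h1)

end Vale.Agent.P202.Zero
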