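import Mathlib

/-! P202, equal characteristic zero: Newton lifting of all polynomial relations of a finite family. -/

namespace Vale.Agent.P202.Zero

universe u v

open Polynomial

/-- A contraction has a fixed point in a complete ring. -/
theorem exists_fixed {C : Type u} [CommRing C] (I : Ideal C) [IsAdicComplete I C] {w : C}
    (hw : w ∈ I) (S : C[X]) : ∃ g : C, g = 1 + w * S.eval g := by
  let f : ℕ → C := fun j => Nat.rec 1 (fun _ g => 1 + w * S.eval g) j
  have hf : ∀ j, f (j + 1) = 1 + w * S.eval (f j) := fun _ => rfl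
  have hstep : ∀ j, f (j + 1) - f j ∈ I ^ j := by
    intro j
    induction j with
    | zero => simp
    | succ j ih =>
      obtain ⟨k, hk⟩ := S.sub_dvd_eval_sub (f (j + 1)) (f j)
      rw [hf (j + 1)]
      nth_rw 2 [hf j]
      rw [add_sub_add_left_eq_sub, ← mul_sub, hk, pow_succ']
      exact Ideal.mul_mem_mul hw (Ideal.mul_mem_right _ _ ih)
  have hcauchy : ∀ {m n}, m ≤ n → f m ≡ f n [SMOD (I ^ m • ⊤ : Submodule C C)] := by
    intro m n hmn
    rw [smul_eq_mul, Ideal.mul_top, SModEq.sub_mem]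
    induction n, hmn using Nat.le_induction with
    | base => simp
    | succ n hmn ih =>
      have h := sub_mem ih (Ideal.pow_le_pow_right hmn (hstep n))
      rwa [sub_sub_sub_cancel_right] at h
  obtain ⟨g, hg⟩ := IsPrecomplete.prec (I := I) (M := C) inferInstance hcauchy
  refine ⟨g, sub_eq_zero.1 (IsHausdorff.haus (I := I) inferInstance _ fun n => ?_)⟩
  have h1 := hg n
  have h2 := hg (n + 1)
  rw [smul_eq_mul, Ideal.mul_top, SModEq.sub_mem] at h1 h2 ⊢
  obtain ⟨k, hk⟩ := S.sub_dvd_eval_sub (f n) g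
  have h3 : f (n + 1) - (1 + w * S.eval g) ∈ I ^ n := by
    rw [hf, add_sub_add_left_eq_sub, ← mul_sub, hk]
    exact Ideal.mul_mem_left _ _ (Ideal.mul_mem_right _ _ h1)
  rw [sub_zero]
  have h4 := sub_mem h3 (Ideal.pow_le_pow_right (Nat.le_succ n) h2)
  rwa [sub_sub_sub_cancel_left] at h4

/-- Newton's lemma with a root near `a`. -/
theorem exists_root_near {C : Type u} [CommRing C] (I : Ideal C) [IsAdicComplete I C] (P : C[X])
    (a w : C) (hw : w ∈ I) (h : P.eval a = P.derivative.eval a ^ 2 * w) :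
    ∃ a', P.eval a' = 0 ∧ w ∣ a' - a := by
  set D := P.derivative.eval a
  set T := taylor a P
  set R := T.divX.divX
  obtain ⟨g, hg⟩ := exists_fixed I hw (X ^ 2 * R.comp (Polynomial.C (-(D * w)) * X))
  refine ⟨a - D * w * g, ?_, ⟨-(D * g), by ring⟩⟩
  have hT : T = Polynomial.C (P.eval a) + X * (Polynomial.C D + X * R) := by
    conv_lhs => rw [← T.X_mul_divX_add, ← T.divX.X_mul_divX_add]
    simp only [T, coeff_divX, zero_add, taylor_coeff_zero, taylor_coeff_one, D, R]
    ring
  have he : P.eval (a - D * w * g) = T.eval (-(D * w * g)) := by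
    simp only [T, taylor_eval]
    ring_nf
  simp only [eval_mul, eval_pow, eval_X, eval_comp, eval_C, neg_mul] at hg
  rw [he, hT, eval_add, eval_mul, eval_add, eval_mul, eval_X, eval_C, eval_C, h]
  linear_combination (-(D ^ 2 * w)) * hg

/-- A polynomial vanishing at `a` vanishes identically at `y` if no polynomial with leading
coefficient alive at `y` vanishes at `a`. -/
theorem coeff_all_zero {B : Type v} [CommRing B] {A : Type*} [CommRing A] (f : B →+* A) (a : A)
    (h : ∀ R : B[X], f R.leadingCoeff ≠ 0 → (R.map f).eval a = 0 → False) (Q : B[X])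
    (hQ : (Q.map f).eval a = 0) : Q.map f = 0 := by
  induction hn : Q.natDegree using Nat.strong_induction_on generalizing Q with
  | _ n ih =>
    by_cases hl : f Q.leadingCoeff = 0
    · have hmap : Q.map f = Q.eraseLead.map f := by
        conv_lhs => rw [← Q.eraseLead_add_C_mul_X_pow]
        rw [Polynomial.map_add, Polynomial.map_mul, map_C, hl, C_0, zero_mul, add_zero]
      rcases Nat.eq_zero_or_pos n with rfl | hn0
      · rw [eq_C_of_natDegree_eq_zero hn, map_C, ← hn, coeff_natDegree, hl, C_0]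
      · rw [hmap] at hQ ⊢
        exact ih _ ((eraseLead_natDegree_le Q).trans_lt (by omega)) _ hQ rfl
    · exact (h Q hl hQ).elim

theorem map_eraseLead {B : Type v} [CommRing B] {D : Type*} [CommRing D] (φ : B →+* D) {Q : B[X]}
    (h : φ Q.leadingCoeff = 0) : Q.map φ = Q.eraseLead.map φ := by
  conv_lhs => rw [← Q.eraseLead_add_C_mul_X_pow]
  rw [Polynomial.map_add, Polynomial.map_mul, map_C, h, C_0, zero_mul, add_zero]

/-- Relations follow from the minimal one. -/
theorem eq_zero_of_lead {B : Type v} [CommRing B] {A : Type*} [CommRing A] {C : Type*} [CommRing C]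
    [IsDomain C] (f : B →+* A) (g : B →+* C) (P : B[X]) (a : A) (x : C) {k : ℕ} (hk : 1 ≤ k)
    (hPk : P.natDegree = k) (hPa : (P.map f).eval a = 0) (hPx : (P.map g).eval x = 0)
    (hlc : g P.leadingCoeff ≠ 0) (hrel : ∀ p, f p = 0 → g p = 0)
    (hmin : ∀ R : B[X], R.natDegree < k → f R.leadingCoeff ≠ 0 → (R.map f).eval a = 0 → False)
    (Q : B[X]) (hQ : (Q.map f).eval a = 0) : (Q.map g).eval x = 0 := by
  induction hn : Q.natDegree using Nat.strong_induction_on generalizing Q with
  | _ n ih =>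
    rcases lt_or_ge n k with hlt | hge
    · by_cases hl : f Q.leadingCoeff = 0
      · rcases Nat.eq_zero_or_pos n with rfl | hn0
        · rw [eq_C_of_natDegree_eq_zero hn, map_C, eval_C]
          exact hrel _ (by rw [← hn, coeff_natDegree, hl])
        · rw [map_eraseLead g (hrel _ hl)]
          rw [map_eraseLead f hl] at hQ
          exact ih _ ((eraseLead_natDegree_le Q).trans_lt (by omega)) _ hQ rfl
      · exact (hmin Q (hn ▸ hlt) hl hQ).elim
    · set R := (Polynomial.C P.leadingCoeff * Q - Polynomial.C Q.leadingCoeff * X ^ (n - k) * P)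
      have hlt : R.natDegree < n := by
        refine lt_of_le_of_lt (natDegree_le_iff_coeff_eq_zero.2 fun i hi => ?_)
          (show n - 1 < n by omega)
        rw [coeff_sub, coeff_C_mul, mul_assoc, coeff_C_mul, coeff_X_pow_mul',
          if_pos (by omega)]
        rcases lt_or_ge n i with h | h
        · rw [coeff_eq_zero_of_natDegree_lt (by omega : Q.natDegree < i),
            coeff_eq_zero_of_natDegree_lt (by omega : P.natDegree < i - (n - k))]
          ring
        · rw [show i = n by omega, show n - (n - k) = P.natDegree by omega, ← hn, coeff_natDegree, coeff_natDegree]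
          ring
      have hR := ih _ hlt R (by simp [R, hQ, hPa]) rfl
      simp [R, hPx] at hR
      exact hR.resolve_left hlc

/-- The relations of `y` with their prescribed near solutions can be lifted. -/
def Lifts {A : Type v} [CommRing A] {e : ℕ} (y : Fin e → A) (Fix : Set (Fin e)) : Prop :=
  ∃ (Ds Gs : Finset (MvPolynomial (Fin e) ℤ)) (K : ℕ),
    (∀ p ∈ Ds, MvPolynomial.aeval y p ≠ 0) ∧ (∀ p ∈ Gs, MvPolynomial.aeval y p = 0) ∧
    ∀ (C : Type u) [CommRing C] [IsDomain C] (I : Ideal C) [IsAdicComplete I C] (b : C)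
      (y₀ : Fin e → C) (N : ℕ), b ∈ I → b ≠ 0 → 1 ≤ N →
      (∀ p ∈ Ds, MvPolynomial.aeval y₀ p ∣ b) →
      (∀ p ∈ Gs, b ^ (K + N) ∣ MvPolynomial.aeval y₀ p) →
      ∃ y' : Fin e → C, (∀ i ∈ Fix, y' i = y₀ i) ∧ (∀ i, b ^ N ∣ y' i - y₀ i) ∧
        ∀ F : MvPolynomial (Fin e) ℤ, MvPolynomial.aeval y F = 0 → MvPolynomial.aeval y' F = 0

theorem dvd_aeval_sub {C : Type u} [CommRing C] {e : ℕ} {x x' : Fin e → C} {c : C}
    (h : ∀ i, c ∣ x' i - x i) (p : MvPolynomial (Fin e) ℤ) :
    c ∣ MvPolynomial.aeval x' p - MvPolynomial.aeval x p := by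
  induction p using MvPolynomial.induction_on with
  | C a => simp
  | add p q hp hq => rw [map_add, map_add, add_sub_add_comm]; exact dvd_add hp hq
  | mul_X p i hp =>
    rw [map_mul, map_mul, MvPolynomial.aeval_X, MvPolynomial.aeval_X]
    exact dvd_mul_sub_mul hp (h i)

theorem aeval_cons {C : Type u} [CommRing C] {e : ℕ} (a : C) (y : Fin e → C)
    (F : MvPolynomial (Fin (e + 1)) ℤ) :
    MvPolynomial.aeval (Fin.cons a y) F =
      ((MvPolynomial.finSuccEquiv ℤ e F).map (MvPolynomial.aeval y : _ →ₐ[ℤ] C).toRingHom).eval a := by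
  induction F using MvPolynomial.induction_on with
  | C a => simp
  | add p q hp hq => simp [hp, hq]
  | mul_X p i hp =>
    rw [map_mul, map_mul, MvPolynomial.aeval_X, Polynomial.map_mul, eval_mul, hp]
    congr 1
    refine Fin.cases ?_ (fun j => ?_) i
    · simp [MvPolynomial.finSuccEquiv_X_zero]
    · simp [MvPolynomial.finSuccEquiv_X_succ]

theorem lifts_base {A : Type v} [CommRing A] {e : ℕ} (z : Fin e → A)
    (hz : ∀ F : MvPolynomial (Fin e) ℤ, MvPolynomial.aeval z F = 0 → F = 0) : Lifts.{u, v} z Set.univ :=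
  ⟨∅, ∅, 0, by simp, by simp, fun C _ _ I _ b y₀ N _ _ _ _ _ =>
    ⟨y₀, fun _ _ => rfl, fun i => by simp, fun F hF => by simp [hz F hF]⟩⟩

theorem lifts_cons {A : Type v} [CommRing A] [IsDomain A] [CharZero A] {e : ℕ} {y : Fin e → A}
    {Fix : Set (Fin e)} (h : Lifts.{u, v} y Fix) (a : A) :
    Lifts.{u, v} (Fin.cons a y) (Fin.succ '' Fix) := by
  classical
  obtain ⟨Ds, Gs, K, hD, hG, hlift⟩ := h
  set f : MvPolynomial (Fin e) ℤ →+* A := (MvPolynomial.aeval y : _ →ₐ[ℤ] A).toRingHom
  let up : MvPolynomial (Fin e) ℤ → MvPolynomial (Fin (e + 1)) ℤ :=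
    fun p => (MvPolynomial.finSuccEquiv ℤ e).symm (Polynomial.C p)
  have hup : ∀ {C : Type v} [CommRing C] (x : C) (v : Fin e → C) p,
      MvPolynomial.aeval (Fin.cons x v) (up p) = MvPolynomial.aeval v p := by
    intro C _ x v p
    rw [aeval_cons]
    simp only [up, AlgEquiv.apply_symm_apply, Polynomial.map_C, eval_C]
    rfl
  have hup' : ∀ {C : Type u} [CommRing C] (x : C) (v : Fin e → C) p,
      MvPolynomial.aeval (Fin.cons x v) (up p) = MvPolynomial.aeval v p := by
    intro C _ x v p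
    rw [aeval_cons]
    simp only [up, AlgEquiv.apply_symm_apply, Polynomial.map_C, eval_C]
    rfl
  set S : ℕ → Prop := fun k => ∃ P : (MvPolynomial (Fin e) ℤ)[X],
    P.natDegree = k ∧ f P.leadingCoeff ≠ 0 ∧ (P.map f).eval a = 0 with hSdef
  by_cases hS : ∃ k, S k
  · obtain ⟨P, hPk, hlc, hroot⟩ := Nat.find_spec hS
    set k := Nat.find hS
    have hdeg : (P.map f).natDegree = k := by
      rw [natDegree_map_of_leadingCoeff_ne_zero f hlc, hPk]
    have hk : 1 ≤ k := by
      by_contra hk
      rw [eq_C_of_natDegree_eq_zero (show (P.map f).natDegree = 0 by omega), eval_C, coeff_map,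
        ← show k = 0 by omega, ← hPk] at hroot
      exact hlc hroot
    have hdc : f P.derivative.leadingCoeff ≠ 0 ∧ P.derivative.natDegree = k - 1 := by
      have h1 : f (P.derivative.coeff (k - 1)) ≠ 0 := by
        rw [coeff_derivative, show k - 1 + 1 = k by omega, map_mul, ← hPk,
          coeff_natDegree]
        refine mul_ne_zero hlc ?_
        rw [map_add, map_natCast, map_one]
        exact Nat.cast_add_one_ne_zero _
      have hne : P.derivative.coeff (k - 1) ≠ 0 := fun h => h1 (by rw [h, map_zero])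
      have hd : P.derivative.natDegree = k - 1 :=
        le_antisymm (hPk ▸ natDegree_derivative_le P) (le_natDegree_of_ne_zero hne)
      exact ⟨by rw [leadingCoeff, hd]; exact h1, hd⟩
    have hder : (P.derivative.map f).eval a ≠ 0 := fun h0 =>
      Nat.find_min hS (show k - 1 < k by omega) ⟨P.derivative, hdc.2, hdc.1, h0⟩
    let P' := (MvPolynomial.finSuccEquiv ℤ e).symm P
    let D' := (MvPolynomial.finSuccEquiv ℤ e).symm P.derivative
    refine ⟨insert D' (insert (up P.leadingCoeff) (Ds.image up)), insert P' (Gs.image up), K + 3,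
      ?_, ?_, ?_⟩
    · intro p hp
      simp only [Finset.mem_insert, Finset.mem_image] at hp
      obtain rfl | rfl | ⟨q, hq, rfl⟩ := hp
      · rw [aeval_cons, AlgEquiv.apply_symm_apply]; exact hder
      · rw [hup]; exact hlc
      · rw [hup]; exact hD q hq
    · intro p hp
      simp only [Finset.mem_insert, Finset.mem_image] at hp
      obtain rfl | ⟨q, hq, rfl⟩ := hp
      · rw [aeval_cons, AlgEquiv.apply_symm_apply]; exact hroot
      · rw [hup]; exact hG q hq
    intro C _ _ I _ b y₀ N hbI hb hN hDs hGs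
    obtain ⟨x, v, rfl⟩ : ∃ x v, y₀ = Fin.cons x v := ⟨y₀ 0, Fin.tail y₀, (Fin.cons_self_tail _).symm⟩
    obtain ⟨v', hfix, hnear, hrel⟩ := hlift C I b v (N + 3) hbI hb (by omega)
      (fun q hq => hup' x v q ▸
        hDs _ (Finset.mem_insert_of_mem (Finset.mem_insert_of_mem (Finset.mem_image_of_mem up hq))))
      (fun q hq => by
        have := hup' x v q ▸ hGs _ (Finset.mem_insert_of_mem (Finset.mem_image_of_mem up hq))
        rwa [show K + (N + 3) = K + 3 + N by omega])
    set g : MvPolynomial (Fin e) ℤ →+* C := (MvPolynomial.aeval v' : _ →ₐ[ℤ] C).toRingHom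
    have hclose : ∀ F : MvPolynomial (Fin (e + 1)) ℤ, b ^ (N + 3) ∣ MvPolynomial.aeval (Fin.cons x v') F -
        MvPolynomial.aeval (Fin.cons x v) F := dvd_aeval_sub fun i => by
      refine Fin.cases ?_ (fun j => ?_) i <;> simp [hnear]
    have hdvd : ∀ F : MvPolynomial (Fin (e + 1)) ℤ, b ^ (N + 3) ∣ MvPolynomial.aeval (Fin.cons x v) F →
        b ^ (N + 3) ∣ MvPolynomial.aeval (Fin.cons x v') F := fun F hF => by
      simpa using dvd_add (hclose F) hF
    -- a value dividing `b` is only changed by a unit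
    have hassoc : ∀ F : MvPolynomial (Fin (e + 1)) ℤ, MvPolynomial.aeval (Fin.cons x v) F ∣ b →
        MvPolynomial.aeval (Fin.cons x v') F ∣ b ∧ MvPolynomial.aeval (Fin.cons x v') F ≠ 0 := by
      intro F hF
      obtain ⟨c, hc⟩ := hF
      obtain ⟨r, hr⟩ := hclose F
      set D₀ := MvPolynomial.aeval (Fin.cons x v) F
      have hu : IsUnit (1 + c * b ^ (N + 2) * r) := by
        have hj : c * b ^ (N + 2) * r ∈ (⊥ : Ideal C).jacobson :=
          IsAdicComplete.le_jacobson_bot I
            (Ideal.mul_mem_right _ _ (Ideal.mul_mem_left _ _ (Ideal.pow_mem_of_mem I hbI _ (by omega))))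
        simpa [add_comm] using Ideal.mem_jacobson_bot.1 hj 1
      have he : MvPolynomial.aeval (Fin.cons x v') F = D₀ * (1 + c * b ^ (N + 2) * r) := by
        rw [mul_add, mul_one, ← mul_assoc, ← mul_assoc, ← hc, ← pow_succ', ← hr, add_sub_cancel]
      rw [he]
      refine ⟨(associated_mul_unit_left D₀ _ hu).dvd.trans ⟨c, hc⟩,
        mul_ne_zero (fun h0 => hb (by rw [hc, h0, zero_mul])) hu.ne_zero⟩
    obtain ⟨⟨c, hc⟩, hD0⟩ := hassoc D' (hDs _ (by simp))
    obtain ⟨r, hr⟩ : b ^ (N + 3) ∣ MvPolynomial.aeval (Fin.cons x v') P' :=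
      hdvd _ (dvd_trans (pow_dvd_pow _ (by omega)) (hGs _ (Finset.mem_insert_self _ _)))
    have hPv : MvPolynomial.aeval (Fin.cons x v') P' = (P.map g).eval x := by
      rw [aeval_cons, AlgEquiv.apply_symm_apply]
    have hDv : MvPolynomial.aeval (Fin.cons x v') D' = (P.map g).derivative.eval x := by
      rw [aeval_cons, AlgEquiv.apply_symm_apply, derivative_map]
    obtain ⟨x', hx', hnx⟩ := exists_root_near I (P.map g) x (b ^ (N + 1) * c ^ 2 * r)
      (Ideal.mul_mem_right _ _ (Ideal.mul_mem_right _ _ (Ideal.pow_mem_of_mem I hbI _ (by omega))))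
      (by
        rw [← hDv, ← hPv, hr]
        calc b ^ (N + 3) * r = b ^ 2 * (b ^ (N + 1) * r) := by ring
          _ = _ := by rw [hc]; ring)
    obtain ⟨-, hlc'⟩ := hassoc (up P.leadingCoeff) (hDs _ (by simp))
    rw [hup'] at hlc'
    refine ⟨Fin.cons x' v', ?_, fun i => ?_, fun F hF => ?_⟩
    · rintro _ ⟨i, hi, rfl⟩
      simp [hfix i hi]
    · refine Fin.cases ?_ (fun j => ?_) i
      · simp only [Fin.cons_zero]
        exact dvd_trans (dvd_trans (pow_dvd_pow b (show N ≤ N + 1 by omega))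
          (by exact ⟨c ^ 2 * r, by ring⟩)) hnx
      · simpa using dvd_trans (pow_dvd_pow b (show N ≤ N + 3 by omega)) (hnear j)
    · rw [aeval_cons] at hF ⊢
      refine eq_zero_of_lead f g P a x' hk hPk hroot hx' hlc' hrel (fun Q h1 h2 h3 => ?_) _ hF
      exact Nat.find_min hS (h1.trans_le le_rfl) ⟨Q, rfl, h2, h3⟩
  · refine ⟨Ds.image up, Gs.image up, K, ?_, ?_, ?_⟩
    · intro p hp
      obtain ⟨q, hq, rfl⟩ := Finset.mem_image.1 hp
      rw [hup]; exact hD q hq
    · intro p hp
      obtain ⟨q, hq, rfl⟩ := Finset.mem_image.1 hp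
      rw [hup]; exact hG q hq
    intro C _ _ I _ b y₀ N hbI hb hN hDs hGs
    obtain ⟨x, v, rfl⟩ : ∃ x v, y₀ = Fin.cons x v := ⟨y₀ 0, Fin.tail y₀, (Fin.cons_self_tail _).symm⟩
    obtain ⟨v', hfix, hnear, hrel⟩ := hlift C I b v N hbI hb hN
      (fun q hq => hup' x v q ▸ hDs _ (Finset.mem_image_of_mem up hq))
      (fun q hq => hup' x v q ▸ hGs _ (Finset.mem_image_of_mem up hq))
    refine ⟨Fin.cons x v', ?_, fun i => ?_, fun F hF => ?_⟩
    · rintro _ ⟨i, hi, rfl⟩
      simp [hfix i hi]
    · refine Fin.cases ?_ (fun j => ?_) i <;> simp [hnear]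
    · rw [aeval_cons] at hF ⊢
      set Q := MvPolynomial.finSuccEquiv ℤ e F
      have h0 : Q.map f = 0 := coeff_all_zero f a (fun R h2 h3 => hS ⟨_, R, rfl, h2, h3⟩) Q hF
      have h1 : Q.map (MvPolynomial.aeval v' : _ →ₐ[ℤ] C).toRingHom = 0 := by
        ext i
        rw [coeff_map, coeff_zero]
        exact hrel _ (by simpa [coeff_map, f] using congrArg (fun R => coeff R i) h0)
      rw [h1, eval_zero]

end Vale.Agent.P202.Zero
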