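import Vale.Agent.P202.Zero.Defs
import Vale.Agent.P202.Zero.Lift

/-! P202, equal characteristic zero: finitely many power series over a field can be moved, keeping
all their polynomial relations, to power series over a finitely generated subring. -/

namespace Vale.Agent.P202.Zero

universe u v

open MvPowerSeries

/-- Integers act on power series through the ring structure. -/
noncomputable local instance (priority := high) intAlgebraPS {R : Type u} [CommRing R] {d : ℕ} :
    Algebra ℤ (PS R d) := Ring.toIntAlgebra _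

/-! ### Lifting over `Fin d ⊕ ι` -/

/-- `Lifts` with the fixed variables and the others separated. -/
theorem exists_lift_data {A : Type v} [CommRing A] [IsDomain A] [CharZero A] {d : ℕ}
    (z : Fin d → A) (hz : ∀ F : MvPolynomial (Fin d) ℤ, MvPolynomial.aeval z F = 0 → F = 0)
    {ι : Type} [Fintype ι] (y : ι → A) :
    ∃ (Ds Gs : Finset (MvPolynomial (Fin d ⊕ ι) ℤ)) (K : ℕ),
      (∀ p ∈ Ds, MvPolynomial.aeval (Sum.elim z y) p ≠ 0) ∧
      (∀ p ∈ Gs, MvPolynomial.aeval (Sum.elim z y) p = 0) ∧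
      ∀ (C : Type u) [CommRing C] [IsDomain C] (I : Ideal C) [IsAdicComplete I C] (b : C)
        (ζ : Fin d → C) (y₀ : ι → C) (N : ℕ), b ∈ I → b ≠ 0 → 1 ≤ N →
        (∀ p ∈ Ds, MvPolynomial.aeval (Sum.elim ζ y₀) p ∣ b) →
        (∀ p ∈ Gs, b ^ (K + N) ∣ MvPolynomial.aeval (Sum.elim ζ y₀) p) →
        ∃ y' : ι → C, (∀ i, b ^ N ∣ y' i - y₀ i) ∧
          ∀ F : MvPolynomial (Fin d ⊕ ι) ℤ, MvPolynomial.aeval (Sum.elim z y) F = 0 →
            MvPolynomial.aeval (Sum.elim ζ y') F = 0 := by
  classical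
  have main : ∀ (m : ℕ) (y : Fin m → A), ∃ (e : ℕ) (σ : Fin e ≃ Fin d ⊕ Fin m),
      Lifts.{u, v} (Sum.elim z y ∘ σ) {i | ∃ j, σ i = Sum.inl j} := by
    intro m
    induction m with
    | zero =>
      intro y
      refine ⟨d, (Equiv.sumEmpty _ _).symm, ?_⟩
      convert lifts_base.{u, v} z hz using 1
      · ext i; simp
      · ext i; exact ⟨fun _ => trivial, fun _ => ⟨i, rfl⟩⟩
    | succ m ih =>
      intro y
      obtain ⟨e, σ, hσ⟩ := ih (y ∘ Fin.succ)
      let g : Fin (e + 1) → Fin d ⊕ Fin (m + 1) :=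
        Fin.cons (Sum.inr 0) fun i => (σ i).map id Fin.succ
      have hg : Function.Bijective g := by
        have hi : Function.Injective g := Fin.cons_injective_iff.2 ⟨by
          rintro ⟨i, hi⟩
          cases h : σ i with
          | inl j => simp [h] at hi
          | inr j => simp [h, Fin.succ_ne_zero] at hi,
          fun i i' h => σ.injective
            ((Sum.map_injective.2 ⟨Function.injective_id, Fin.succ_injective _⟩) h)⟩
        have hc := Fintype.card_congr σ
        simp only [Fintype.card_fin, Fintype.card_sum] at hc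
        exact (Fintype.bijective_iff_injective_and_card g).2 ⟨hi, by simp; omega⟩
      refine ⟨e + 1, Equiv.ofBijective g hg, ?_⟩
      convert lifts_cons.{u, v} hσ (y 0) using 1
      · ext i
        refine Fin.cases ?_ (fun j => ?_) i
        · simp [g]
        · simp only [Function.comp_apply, Equiv.ofBijective_apply, g, Fin.cons_succ]
          cases σ j <;> rfl
      · ext i
        refine Fin.cases ?_ (fun j => ?_) i
        · simp [g, Fin.succ_ne_zero]
        · simp only [Set.mem_ofPred_eq, Equiv.ofBijective_apply, g, Fin.cons_succ, Set.mem_image,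
            Fin.succ_inj, exists_eq_right]
          cases σ j <;> simp
  obtain ⟨e, σ, Ds, Gs, K, hD, hG, hlift⟩ := main _ (y ∘ (Fintype.equivFin ι).symm)
  set θ : Fin e ≃ Fin d ⊕ ι := σ.trans (Equiv.sumCongr (Equiv.refl _) (Fintype.equivFin ι).symm)
  have hθ : (Sum.elim z (y ∘ (Fintype.equivFin ι).symm)) ∘ σ = Sum.elim z y ∘ θ := by
    ext i
    simp only [θ, Function.comp_apply, Equiv.trans_apply]
    cases σ i <;> rfl
  refine ⟨Ds.image (MvPolynomial.rename θ), Gs.image (MvPolynomial.rename θ), K, ?_, ?_, ?_⟩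
  · simp only [Finset.forall_mem_image, MvPolynomial.aeval_rename, ← hθ]
    exact hD
  · simp only [Finset.forall_mem_image, MvPolynomial.aeval_rename, ← hθ]
    exact hG
  intro C _ _ I _ b ζ y₀ N hbI hb hN hDs hGs
  simp only [Finset.forall_mem_image, MvPolynomial.aeval_rename] at hDs hGs
  obtain ⟨v, hfix, hnear, hrel⟩ := hlift C I b (Sum.elim ζ y₀ ∘ θ) N hbI hb hN hDs hGs
  refine ⟨fun i => v (θ.symm (Sum.inr i)), fun i => ?_, fun F hF => ?_⟩
  · simpa using hnear (θ.symm (Sum.inr i))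
  · have hv : v = Sum.elim ζ (fun i => v (θ.symm (Sum.inr i))) ∘ θ := by
      ext i
      cases h : θ i with
      | inl j =>
        simp only [Function.comp_apply, h, Sum.elim_inl]
        rw [hfix i ⟨j, by
          simp only [θ, Equiv.trans_apply] at h
          cases h' : σ i <;> simp_all⟩]
        simp [h]
      | inr j =>
        simp only [Function.comp_apply, h, Sum.elim_inr]
        rw [← h, Equiv.symm_apply_apply]
    have h0 := hrel (MvPolynomial.rename θ.symm F) (by
      rw [MvPolynomial.aeval_rename, hθ, Function.comp_assoc, Equiv.self_comp_symm]; simpa using hF)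
    rw [MvPolynomial.aeval_rename, hv, Function.comp_assoc, Equiv.self_comp_symm] at h0
    simpa using h0

/-! ### The ideal of the variables -/

section Ideals

variable {R : Type u} [CommRing R] {d : ℕ}

theorem mem_zI_pow_of_coeff {N : ℕ} {f : PS R d} (h : ∀ x, x.degree < N → coeff x f = 0) :
    f ∈ zI R d ^ N := by
  let E := toAdicCompletionAlgEquiv (Fin d) R
  let J := MvPolynomial.idealOfVars (Fin d) R
  have hv0 : (toAdicCompletion (Fin d) R f).val N = 0 := by
    rw [toAdicCompletion_apply_eq_mk_truncTotal,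
      show truncTotal N f = 0 from MvPolynomial.ext _ _ fun x => by
        by_cases hx : x.degree < N
        · rw [coeff_truncTotal _ hx, h x hx, MvPolynomial.coeff_zero]
        · rw [MvPolynomial.coeff_zero, coeff_truncTotal_eq_zero _ (not_lt.1 hx)]]
    exact map_zero _
  have h0 : E f ∈ LinearMap.ker (AdicCompletion.eval J (MvPolynomial (Fin d) R) N) := hv0
  rw [← AdicCompletion.pow_smul_top_eq_ker_eval (MvPolynomial.idealOfVars_fg _ _)] at h0
  have hJ : ∀ r ∈ J ^ N, (r : PS R d) ∈ zI R d ^ N := by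
    intro r hr
    have h1 : (J ^ N).map (MvPolynomial.coeToMvPowerSeries.ringHom) ≤ zI R d ^ N := by
      rw [Ideal.map_pow]
      refine Ideal.pow_right_mono ?_ N
      simp only [J, MvPolynomial.idealOfVars, Ideal.map_span, zI]
      refine Ideal.span_le.2 ?_
      rintro _ ⟨_, ⟨i, rfl⟩, rfl⟩
      exact Ideal.subset_span ⟨i, (MvPolynomial.coe_X i).symm⟩
    exact h1 (Ideal.mem_map_of_mem _ hr)
  have h2 : E.symm (E f) ∈ zI R d ^ N := by
    refine Submodule.smul_induction_on h0 (fun r hr x _ => ?_) (fun x y hx hy => ?_)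
    · rw [map_smul, Algebra.smul_def]
      exact Ideal.mul_mem_right _ _ (hJ r hr)
    · rw [map_add]; exact add_mem hx hy
  rwa [AlgEquiv.symm_apply_apply] at h2

theorem coeff_of_mem_zI_pow {N : ℕ} {f : PS R d} (h : f ∈ zI R d ^ N) {x : Fin d →₀ ℕ}
    (hx : x.degree < N) : coeff x f = 0 := by
  have hle : ∀ n : ℕ, ∀ g ∈ zI R d ^ n, (n : ℕ∞) ≤ g.order := by
    intro n
    induction n with
    | zero => simp
    | succ n ih =>
      intro g hg
      rw [pow_succ] at hg
      refine Submodule.mul_induction_on hg (fun a ha b hb => ?_) fun a b ha hb => ?_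
      · refine le_trans ?_ le_order_mul
        rw [Nat.cast_succ]
        refine add_le_add (ih a ha) (nat_le_order fun y hy => ?_)
        have hy0 : y = 0 := (Finsupp.degree_eq_zero_iff y).1 (by omega)
        subst hy0
        induction hb using Submodule.span_induction with
        | mem v hv => obtain ⟨i, rfl⟩ := hv; exact coeff_zero_X i
        | zero => simp
        | add p q _ _ hp hq => rw [map_add, hp, hq, add_zero]
        | smul r p _ hp =>
          rw [smul_eq_mul, coeff_zero_eq_constantCoeff_apply, map_mul,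
            ← coeff_zero_eq_constantCoeff_apply p, hp, mul_zero]
      · exact le_trans (le_min ha hb) min_order_le_add
  exact coeff_of_lt_order (lt_of_lt_of_le (by exact_mod_cast hx) (hle N f h))

theorem constantCoeff_of_mem_zI {f : PS R d} (h : f ∈ zI R d) : constantCoeff f = 0 := by
  rw [← coeff_zero_eq_constantCoeff_apply]
  exact coeff_of_mem_zI_pow (N := 1) (by simpa using h) (by simp)

theorem mem_zI_of_constantCoeff {f : PS R d} (h : constantCoeff f = 0) : f ∈ zI R d := by
  rw [← pow_one (zI R d)]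
  refine mem_zI_pow_of_coeff fun x hx => ?_
  rw [(Finsupp.degree_eq_zero_iff x).1 (by omega), coeff_zero_eq_constantCoeff_apply, h]

theorem maximalIdeal_eq_zI {k : Type u} [Field k] :
    IsLocalRing.maximalIdeal (PS k d) = zI k d := by
  ext f
  rw [IsLocalRing.mem_maximalIdeal, mem_nonunits_iff, isUnit_iff_constantCoeff, isUnit_iff_ne_zero,
    not_not]
  exact ⟨mem_zI_of_constantCoeff, constantCoeff_of_mem_zI⟩

theorem map_zI_le {S : Type v} [CommRing S] {e : ℕ} (φ : PS R d →+* PS S e)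
    (h : ∀ i, φ (X i) ∈ zI S e) (N : ℕ) : (zI R d ^ N).map φ ≤ zI S e ^ N := by
  rw [Ideal.map_pow]
  refine Ideal.pow_right_mono ?_ N
  rw [zI, Ideal.map_span]
  refine Ideal.span_le.2 ?_
  rintro _ ⟨_, ⟨i, rfl⟩, rfl⟩
  exact h i

end Ideals

/-! ### Polynomials in the first variable -/

section Emb

variable {R : Type u} [CommRing R] {d : ℕ}

/-- Power series in the last `d` of `d + 1` variables. -/
noncomputable def emb : PS R d →+* PS R (d + 1) :=
  (finSuccEquiv R d).symm.toRingEquiv.toRingHom.comp PowerSeries.C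

theorem emb_X (i : Fin d) : emb (X i : PS R d) = X i.succ := by
  simp [emb, AlgEquiv.symm_apply_eq]

theorem constantCoeff_finSuccEquiv (f : PS R (d + 1)) :
    constantCoeff (PowerSeries.constantCoeff (finSuccEquiv R d f)) = constantCoeff f := by
  rw [← PowerSeries.coeff_zero_eq_constantCoeff_apply, ← coeff_zero_eq_constantCoeff_apply,
    coeff_coeff_finSuccEquiv, Finsupp.cons_zero_zero, coeff_zero_eq_constantCoeff_apply]

/-- Polynomials in the first variable. -/
noncomputable def polyEmb : Polynomial (PS R d) →+* PS R (d + 1) :=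
  Polynomial.eval₂RingHom emb (X 0)

theorem polyEmb_eq (p : Polynomial (PS R d)) :
    polyEmb p = (finSuccEquiv R d).symm (p : PowerSeries (PS R d)) := by
  have h : (polyEmb : Polynomial (PS R d) →+* PS R (d + 1)) =
      (finSuccEquiv R d).symm.toRingEquiv.toRingHom.comp Polynomial.coeToPowerSeries.ringHom := by
    refine Polynomial.ringHom_ext (fun a => ?_) ?_
    · simp [polyEmb, emb]
    · simp [polyEmb, AlgEquiv.eq_symm_apply]
  exact RingHom.congr_fun h p

theorem polyEmb_injective : Function.Injective (polyEmb : Polynomial (PS R d) → PS R (d + 1)) :=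
  fun p q h => Polynomial.coe_injective _ (by
    rw [polyEmb_eq, polyEmb_eq] at h
    exact (finSuccEquiv R d).symm.injective h)

theorem constantCoeff_polyEmb (p : Polynomial (PS R d)) :
    constantCoeff (polyEmb p) = constantCoeff (p.coeff 0) := by
  rw [polyEmb_eq, ← constantCoeff_finSuccEquiv, AlgEquiv.apply_symm_apply,
    Polynomial.constantCoeff_coe]

theorem map_emb {S : Type v} [CommRing S] (f : R →+* S) (x : PS R d) :
    MvPowerSeries.map f (emb x) = emb (MvPowerSeries.map f x) := by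
  have e1 : ∀ {U : Type v} [CommRing U] (y : PS U d),
      finSuccEquiv U d (emb y) = PowerSeries.C y := fun y => by simp [emb]
  have e2 : ∀ {U : Type u} [CommRing U] (y : PS U d),
      finSuccEquiv U d (emb y) = PowerSeries.C y := fun y => by simp [emb]
  apply (finSuccEquiv S d).injective
  ext i n
  rw [coeff_coeff_finSuccEquiv, coeff_map, ← coeff_coeff_finSuccEquiv, e1, e2,
    PowerSeries.coeff_C, PowerSeries.coeff_C]
  split_ifs <;> simp

theorem map_polyEmb {S : Type v} [CommRing S] (f : R →+* S) (p : Polynomial (PS R d)) :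
    MvPowerSeries.map f (polyEmb p) = polyEmb (p.map (MvPowerSeries.map f)) := by
  have h : (MvPowerSeries.map f).comp (polyEmb (R := R) (d := d)) =
      (polyEmb (R := S)).comp (Polynomial.mapRingHom (MvPowerSeries.map f)) := by
    refine Polynomial.ringHom_ext (fun a => ?_) ?_
    · simp [polyEmb, map_emb]
    · simp [polyEmb, map_X]
  exact RingHom.congr_fun h p

theorem polyEmb_mem {N : ℕ} {p : Polynomial (PS R d)} (h : ∀ i, p.coeff i ∈ zI R d ^ N) :
    polyEmb p ∈ zI R (d + 1) ^ N := by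
  rw [p.as_sum_range_C_mul_X_pow, map_sum]
  refine sum_mem fun i _ => ?_
  rw [map_mul]
  refine Ideal.mul_mem_right _ _ ?_
  rw [polyEmb, Polynomial.coe_eval₂RingHom, Polynomial.eval₂_C]
  exact map_zI_le emb (fun i => by rw [emb_X]; exact Ideal.subset_span ⟨_, rfl⟩) N
    (Ideal.mem_map_of_mem _ (h i))

theorem dvd_of_dvd_coe {k : Type u} [Field k] {g p : Polynomial (PS k d)}
    (hg : g.IsDistinguishedAt (IsLocalRing.maximalIdeal (PS k d)))
    (h : (g : PowerSeries (PS k d)) ∣ p) : g ∣ p := by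
  have : IsAdicComplete (IsLocalRing.maximalIdeal (PS k d)) (PS k d) := by
    rw [maximalIdeal_eq_zI]; unfold zI; infer_instance
  obtain ⟨c, hc⟩ := h
  have hm := hg.monic
  have H := hg.isWeierstrassDivisorAt (by exact (IsLocalRing.maximalIdeal.isMaximal _).ne_top)
  have hn : ((g : PowerSeries (PS k d)).map (Ideal.Quotient.mk
      (IsLocalRing.maximalIdeal (PS k d)))).order.toNat = g.natDegree := by
    rw [hg.coe_natDegree_eq_order_map _ 1 (by simp) (mul_one _).symm |>.symm]
    simp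
  have he := H.eq_of_mul_add_eq_mul_add (q := c) (q' := (p /ₘ g : Polynomial (PS k d)))
    (r := 0) (r' := p %ₘ g) (by simp) (by
      rw [hn]
      exact (Polynomial.degree_modByMonic_lt p hm).trans_le Polynomial.degree_le_natDegree)
    (by
      rw [Polynomial.coe_zero, add_zero, ← hc, ← Polynomial.coe_mul, ← Polynomial.coe_add,
        add_comm, Polynomial.modByMonic_add_div])
  exact (Polynomial.modByMonic_eq_zero_iff_dvd hm).1 he.2.symm

end Emb

/-! ### The induction step -/

/-- The statement in `d` variables. -/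
def Approx (k : Type u) [Field k] (d : ℕ) : Prop :=
  ∀ (ι : Type) [Fintype ι] (y : ι → PS k d) (N : ℕ),
    ∃ s : Finset k, ∀ A₀ : Subring k, (↑s : Set k) ⊆ A₀ →
      ∃ y' : ι → PS A₀ d, (∀ i, MvPowerSeries.map A₀.subtype (y' i) - y i ∈ zI k d ^ N) ∧
        ∀ F : MvPolynomial (Fin d ⊕ ι) ℤ, MvPolynomial.aeval (Sum.elim X y) F = 0 →
          MvPolynomial.aeval (Sum.elim X y') F = 0

theorem map_aeval {A : Type u} {B : Type v} [CommRing A] [CommRing B] [Algebra ℤ A] [Algebra ℤ B]
    (f : A →+* B)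
    {σ : Type*} (v : σ → A) (F : MvPolynomial σ ℤ) :
    f (MvPolynomial.aeval v F) = MvPolynomial.aeval (fun i => f (v i)) F := by
  induction F using MvPolynomial.induction_on with
  | C a => simp
  | add p q hp hq => simp [hp, hq]
  | mul_X p i hp => simp [hp]

theorem sub_mem_aeval {A : Type u} [CommRing A] [Algebra ℤ A] (I : Ideal A) {σ : Type*} {v w : σ → A}
    (h : ∀ i, v i - w i ∈ I) (F : MvPolynomial σ ℤ) :
    MvPolynomial.aeval v F - MvPolynomial.aeval w F ∈ I := by
  rw [← Ideal.Quotient.eq, map_aeval (Ideal.Quotient.mk I) v, map_aeval (Ideal.Quotient.mk I) w]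
  congr 2
  ext i
  exact Ideal.Quotient.eq.2 (h i)

/-- Regular in the first variable: nonzero at `z_1 = ... = z_d = 0`. -/
def Regular {k : Type u} [Field k] {d : ℕ} (f : PS k (d + 1)) : Prop :=
  ∃ m : ℕ, coeff (Finsupp.cons m 0) f ≠ 0

/-- The polynomials in the first variable standing for the variables and for `r`. -/
noncomputable def polyVar {R : Type u} [CommRing R] {d : ℕ} {ι : Type}
    (r : ι → Polynomial (PS R d)) : Fin (d + 1) ⊕ ι → Polynomial (PS R d) :=
  Sum.elim (Fin.cons Polynomial.X fun i => Polynomial.C (X i)) r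

theorem aeval_polyEmb {R : Type u} [CommRing R] {d : ℕ} {ι : Type}
    (r : ι → Polynomial (PS R d)) (p : MvPolynomial (Fin (d + 1) ⊕ ι) ℤ) :
    polyEmb (MvPolynomial.aeval (polyVar r) p) =
      MvPolynomial.aeval (Sum.elim X fun i => polyEmb (r i)) p := by
  rw [map_aeval (polyEmb (R := R) (d := d))]
  congr 1
  ext1 (j | i)
  · refine Fin.cases ?_ (fun l => ?_) j
    · simp [polyVar, polyEmb]
    · simp [polyVar, polyEmb, emb_X]
  · simp [polyVar]

theorem dvd_aeval_polyEmb {R : Type u} [CommRing R] {d : ℕ} {ι : Type}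
    (r : ι → Polynomial (PS R d)) (y : ι → PS R (d + 1)) {B : PS R (d + 1)}
    (h : ∀ i, B ∣ y i - polyEmb (r i)) (p : MvPolynomial (Fin (d + 1) ⊕ ι) ℤ) :
    B ∣ MvPolynomial.aeval (Sum.elim X y) p - polyEmb (MvPolynomial.aeval (polyVar r) p) := by
  rw [aeval_polyEmb, ← Ideal.mem_span_singleton]
  refine sub_mem_aeval _ ?_ p
  rintro (j | i)
  · simp
  · simpa [Ideal.mem_span_singleton] using h i

/-- Weierstrass division: the values become identities between polynomials. -/
theorem exists_division {k : Type u} [Field k] {d : ℕ} {ι : Type}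
    (y : ι → PS k (d + 1)) (Ds Gs : Finset (MvPolynomial (Fin (d + 1) ⊕ ι) ℤ))
    (hD : ∀ p ∈ Ds, Regular (MvPolynomial.aeval (Sum.elim X y) p))
    (hG : ∀ p ∈ Gs, MvPolynomial.aeval (Sum.elim X y) p = 0) (M : ℕ) (hM : 1 ≤ M) :
    ∃ (r : ι → Polynomial (PS k d)) (q : ι → PS k (d + 1)) (a U : Ds → Polynomial (PS k d))
      (Q : Gs → Polynomial (PS k d)),
      (Polynomial.X * ∏ p, a p).Monic ∧
      (∀ i, y i = polyEmb ((Polynomial.X * ∏ p, a p) ^ M) * q i + polyEmb (r i)) ∧
      (∀ p : Ds, MvPolynomial.aeval (polyVar r) p.1 = a p * U p) ∧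
      (∀ p : Ds, constantCoeff ((U p).coeff 0) ≠ 0) ∧
      ∀ p : Gs, MvPolynomial.aeval (polyVar r) p.1 = (Polynomial.X * ∏ p, a p) ^ M * Q p := by
  classical
  have hcompl : IsAdicComplete (IsLocalRing.maximalIdeal (PS k d)) (PS k d) := by
    rw [maximalIdeal_eq_zI]; unfold zI; infer_instance
  let Φ := finSuccEquiv k d
  let Ψ := (finSuccEquiv k d).symm
  have hres : ∀ p ∈ Ds, (Φ (MvPolynomial.aeval (Sum.elim X y) p)).map
      (IsLocalRing.residue (PS k d)) ≠ 0 := by
    intro p hp h0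
    obtain ⟨m, hm⟩ := hD p hp
    have h1 := congrArg (PowerSeries.coeff m) h0
    rw [PowerSeries.coeff_map, map_zero, IsLocalRing.residue_eq_zero_iff, maximalIdeal_eq_zI] at h1
    have h2 := constantCoeff_of_mem_zI h1
    rw [← coeff_zero_eq_constantCoeff_apply, coeff_coeff_finSuccEquiv] at h2
    exact hm h2
  choose a u hau using fun p : Ds =>
    PowerSeries.exists_isWeierstrassFactorization (hres p.1 p.2)
  set b : Polynomial (PS k d) := Polynomial.X * ∏ p : Ds, a p with hb
  have hdX : (Polynomial.X : Polynomial (PS k d)).IsDistinguishedAt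
      (IsLocalRing.maximalIdeal (PS k d)) := by
    refine ⟨⟨fun {i} hi => ?_⟩, Polynomial.monic_X⟩
    rw [Polynomial.natDegree_X, Nat.lt_one_iff] at hi
    simp [hi]
  have hdmul : ∀ f g : Polynomial (PS k d), f.IsDistinguishedAt (IsLocalRing.maximalIdeal _) →
      g.IsDistinguishedAt (IsLocalRing.maximalIdeal _) →
      (f * g).IsDistinguishedAt (IsLocalRing.maximalIdeal (PS k d)) := fun f g hf hg => hf.mul hg
  have hd1 : (1 : Polynomial (PS k d)).IsDistinguishedAt (IsLocalRing.maximalIdeal _) :=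
    ⟨⟨fun {i} hi => absurd hi (by simp)⟩, Polynomial.monic_one⟩
  have hdb : b.IsDistinguishedAt (IsLocalRing.maximalIdeal _) :=
    hdmul _ _ hdX (Finset.prod_induction _ _ hdmul hd1 fun p _ => (hau p).isDistinguishedAt)
  have hdpow : ∀ m : ℕ, (b ^ m).IsDistinguishedAt (IsLocalRing.maximalIdeal _) := fun m => by
    induction m with
    | zero => simpa using hd1
    | succ m ih => rw [pow_succ]; exact hdmul _ _ ih hdb
  have hdB := hdpow M
  have H := hdB.isWeierstrassDivisorAt ((IsLocalRing.maximalIdeal.isMaximal _).ne_top)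
  -- division of the series
  let q : ι → PS k (d + 1) := fun i => Ψ (H.div (Φ (y i)))
  let r : ι → Polynomial (PS k d) := fun i => H.mod (Φ (y i))
  have hqr : ∀ i, y i = polyEmb (b ^ M) * q i + polyEmb (r i) := by
    intro i
    have h := (H.isWeierstrassDivisionAt_div_mod (Φ (y i))).2
    apply Φ.injective
    rw [map_add, map_mul, polyEmb_eq, polyEmb_eq]
    simp only [q, Ψ, Φ, AlgEquiv.apply_symm_apply]
    exact h
  have hmod : ∀ p, polyEmb (b ^ M) ∣
      MvPolynomial.aeval (Sum.elim X y) p - polyEmb (MvPolynomial.aeval (polyVar r) p) :=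
    dvd_aeval_polyEmb r y fun i => by rw [hqr i, add_sub_cancel_right]; exact dvd_mul_right _ _
  -- the polynomial identities
  have hQ : ∀ p : Gs, ∃ Q, MvPolynomial.aeval (polyVar r) p.1 = b ^ M * Q := by
    intro p
    refine dvd_of_dvd_coe hdB ?_
    have h := hmod p.1
    rw [hG p.1 p.2, zero_sub, dvd_neg, polyEmb_eq, polyEmb_eq] at h
    simpa only [Φ, AlgEquiv.apply_symm_apply] using map_dvd Φ h
  choose Q hQ using hQ
  have hX : ∀ p : Ds, ∃ W, b ^ M = a p * (Polynomial.X * W) := by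
    intro p
    obtain ⟨W, hW⟩ := Finset.dvd_prod_of_mem a (Finset.mem_univ p)
    exact ⟨W * b ^ (M - 1), by
      rw [show b ^ M = b ^ (M - 1) * b by rw [← pow_succ, Nat.sub_add_cancel hM], hb, hW]; ring⟩
  choose W hW using hX
  have hU : ∀ p : Ds, ∃ U, MvPolynomial.aeval (polyVar r) p.1 = a p * U ∧
      constantCoeff (U.coeff 0) ≠ 0 := by
    intro p
    obtain ⟨c, hc⟩ := hmod p.1
    have hfac : MvPolynomial.aeval (Sum.elim X y) p.1 = polyEmb (a p) * Ψ (u p) := by
      apply Φ.injective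
      rw [map_mul, polyEmb_eq]
      simp only [Ψ, Φ, AlgEquiv.apply_symm_apply]
      exact (hau p).eq_mul
    have hv' : polyEmb (MvPolynomial.aeval (polyVar r) p.1) =
        polyEmb (a p) * (Ψ (u p) - polyEmb (Polynomial.X * W p) * c) := by
      rw [mul_sub, ← hfac, ← mul_assoc, ← map_mul, ← hW, ← hc, sub_sub_cancel]
    obtain ⟨U, hU⟩ := dvd_of_dvd_coe (hau p).isDistinguishedAt (p := MvPolynomial.aeval (polyVar r) p.1) (by
      have h := map_dvd Φ (Dvd.intro _ hv'.symm)
      rw [polyEmb_eq, polyEmb_eq] at h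
      simpa only [Φ, AlgEquiv.apply_symm_apply] using h)
    refine ⟨U, hU, ?_⟩
    have hne : polyEmb (a p) ≠ 0 := fun h0 =>
      (hau p).isDistinguishedAt.monic.ne_zero (polyEmb_injective (h0.trans (map_zero _).symm))
    rw [hU, map_mul] at hv'
    rw [← constantCoeff_polyEmb, mul_left_cancel₀ hne hv', map_sub, map_mul,
      constantCoeff_polyEmb, Polynomial.mul_coeff_zero, Polynomial.coeff_X_zero, zero_mul,
      map_zero, zero_mul, sub_zero, ← constantCoeff_finSuccEquiv]
    simp only [Ψ, AlgEquiv.apply_symm_apply]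
    exact ((isUnit_iff_constantCoeff).1
      (PowerSeries.isUnit_iff_constantCoeff.1 (hau p).isUnit)).ne_zero
  choose U hU hU0 using hU
  exact ⟨r, q, a, U, Q, hdb.monic, hqr, hU, hU0, hQ⟩

/-- Finitely many polynomials with coefficients in `k[[z]]` are the images of polynomials over a
ring that also maps to power series over the subring. -/
theorem exists_coeff_ring {k : Type u} [Field k] {d : ℕ} (IH : Approx k d) (η : Type) [Fintype η]
    (P : η → Polynomial (PS k d)) (N : ℕ) :
    ∃ (κ : Type) (P' : η → Polynomial (MvPolynomial (Fin d ⊕ κ) ℤ)) (c : κ → PS k d),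
      (∀ j, (P' j).map (MvPolynomial.aeval (Sum.elim X c) : _ →ₐ[ℤ] PS k d).toRingHom = P j) ∧
      ∃ s : Finset k, ∀ A₀ : Subring k, (↑s : Set k) ⊆ A₀ →
        ∃ c' : κ → PS A₀ d, (∀ j, MvPowerSeries.map A₀.subtype (c' j) - c j ∈ zI k d ^ N) ∧
          ∀ Q Q' : Polynomial (MvPolynomial (Fin d ⊕ κ) ℤ),
            Q.map (MvPolynomial.aeval (Sum.elim X c) : _ →ₐ[ℤ] PS k d).toRingHom =
              Q'.map (MvPolynomial.aeval (Sum.elim X c) : _ →ₐ[ℤ] PS k d).toRingHom →
            Q.map (MvPolynomial.aeval (Sum.elim X c') : _ →ₐ[ℤ] PS A₀ d).toRingHom =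
              Q'.map (MvPolynomial.aeval (Sum.elim X c') : _ →ₐ[ℤ] PS A₀ d).toRingHom := by
  classical
  let T : Finset (PS k d) := Finset.univ.biUnion fun i => (P i).coeffs
  let κ : Type := Fin T.card
  let c : κ → PS k d := fun j => (T.equivFin.symm j).1
  set e : MvPolynomial (Fin d ⊕ κ) ℤ →+* PS k d :=
    (MvPolynomial.aeval (Sum.elim X c) : _ →ₐ[ℤ] PS k d).toRingHom
  have hlifts : ∀ i, ∃ P' : Polynomial (MvPolynomial (Fin d ⊕ κ) ℤ), P'.map e = P i := by
    intro i
    refine (Polynomial.mem_lifts (P i)).1 ((Polynomial.lifts_iff_coeff_lifts (P i)).2 fun n => ?_)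
    rcases eq_or_ne ((P i).coeff n) 0 with h0 | h0
    · exact ⟨0, by rw [map_zero, h0]⟩
    · refine ⟨MvPolynomial.X (Sum.inr (T.equivFin
        ⟨_, Finset.mem_biUnion.2 ⟨i, Finset.mem_univ i, Polynomial.coeff_mem_coeffs h0⟩⟩)), ?_⟩
      simp [e, c]
  choose P' hP' using hlifts
  obtain ⟨s, hs⟩ := IH κ c N
  refine ⟨κ, P', c, hP', s, fun A₀ hA => ?_⟩
  obtain ⟨c', hcc, hrel⟩ := hs A₀ hA
  refine ⟨c', hcc, fun Q Q' h => ?_⟩
  ext1 i
  have h1 := congrArg (fun R => Polynomial.coeff R i) h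
  simp only [Polynomial.coeff_map] at h1 ⊢
  rw [← sub_eq_zero, ← map_sub] at h1 ⊢
  exact hrel _ h1

theorem map_close {k : Type u} [Field k] {d N : ℕ} {A₀ : Subring k} {κ : Type}
    {c : κ → PS k d} {c' : κ → PS A₀ d}
    (h : ∀ j, MvPowerSeries.map A₀.subtype (c' j) - c j ∈ zI k d ^ N)
    (P : Polynomial (MvPolynomial (Fin d ⊕ κ) ℤ)) :
    MvPowerSeries.map A₀.subtype
        (polyEmb (P.map (MvPolynomial.aeval (Sum.elim X c') : _ →ₐ[ℤ] PS A₀ d).toRingHom)) -
      polyEmb (P.map (MvPolynomial.aeval (Sum.elim X c) : _ →ₐ[ℤ] PS k d).toRingHom) ∈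
        zI k (d + 1) ^ N := by
  rw [map_polyEmb, ← map_sub]
  refine polyEmb_mem fun i => ?_
  simp only [Polynomial.coeff_sub, Polynomial.coeff_map, AlgHom.toRingHom_eq_coe, RingHom.coe_coe,
    map_aeval]
  refine sub_mem_aeval _ ?_ _
  rintro (j | j)
  · simp [map_X]
  · exact h j

/-- A value that is `a * U` modulo a multiple of `a * X` with `U` a unit divides. -/
theorem dvd_of_unit {R : Type u} [CommRing R] {d : ℕ} {a U W : Polynomial (PS R d)}
    {v t : PS R (d + 1)} (hv : v = polyEmb (a * U) + polyEmb (a * (Polynomial.X * W)) * t)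
    (hU : IsUnit (constantCoeff (U.coeff 0))) : v ∣ polyEmb (a * (Polynomial.X * W)) := by
  have hunit : IsUnit (polyEmb U + polyEmb (Polynomial.X * W) * t) := by
    rw [isUnit_iff_constantCoeff, map_add, map_mul, constantCoeff_polyEmb, constantCoeff_polyEmb,
      Polynomial.mul_coeff_zero, Polynomial.coeff_X_zero, zero_mul, map_zero, zero_mul, add_zero]
    exact hU
  rw [hv, map_mul polyEmb a U, map_mul polyEmb a (Polynomial.X * W), mul_assoc, ← mul_add]
  exact (associated_mul_unit_left _ _ hunit).dvd.trans (dvd_mul_right _ _)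

/-- `polyVar` before mapping to power series. -/
noncomputable def liftVar {d : ℕ} {κ ι : Type} (r' : ι → Polynomial (MvPolynomial (Fin d ⊕ κ) ℤ)) :
    Fin (d + 1) ⊕ ι → Polynomial (MvPolynomial (Fin d ⊕ κ) ℤ) :=
  Sum.elim (Fin.cons Polynomial.X fun i => Polynomial.C (MvPolynomial.X (Sum.inl i))) r'

theorem map_liftVar {d : ℕ} {κ ι : Type} (r' : ι → Polynomial (MvPolynomial (Fin d ⊕ κ) ℤ))
    {R : Type u} [CommRing R] (f : MvPolynomial (Fin d ⊕ κ) ℤ →+* PS R d)
    (hf : ∀ i, f (MvPolynomial.X (Sum.inl i)) = X i) (p : MvPolynomial (Fin (d + 1) ⊕ ι) ℤ) :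
    (MvPolynomial.aeval (liftVar r') p).map f =
      MvPolynomial.aeval (polyVar fun i => (r' i).map f) p := by
  have h : (fun i => (liftVar r' i).map f) = polyVar fun i => (r' i).map f := by
    funext j
    cases j with
    | inl j => refine Fin.cases ?_ (fun l => ?_) j <;> simp [polyVar, liftVar, hf]
    | inr i => simp [polyVar, liftVar]
  rw [← h]
  exact map_aeval (Polynomial.mapRingHom f) _ p

theorem exists_start {k : Type u} [Field k] {d : ℕ} (IH : Approx k d) {ι : Type} [Fintype ι]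
    (y : ι → PS k (d + 1)) (Ds Gs : Finset (MvPolynomial (Fin (d + 1) ⊕ ι) ℤ))
    (hD : ∀ p ∈ Ds, Regular (MvPolynomial.aeval (Sum.elim X y) p))
    (hG : ∀ p ∈ Gs, MvPolynomial.aeval (Sum.elim X y) p = 0) (L N : ℕ) :
    ∃ s : Finset k, ∀ A₀ : Subring k, (↑s : Set k) ⊆ A₀ →
      ∃ (b : PS A₀ (d + 1)) (y₀ : ι → PS A₀ (d + 1)), b ∈ zI A₀ (d + 1) ∧ b ≠ 0 ∧
        (∀ p ∈ Ds, MvPolynomial.aeval (Sum.elim X y₀) p ∣ b) ∧
        (∀ p ∈ Gs, b ^ L ∣ MvPolynomial.aeval (Sum.elim X y₀) p) ∧
        ∀ i, MvPowerSeries.map A₀.subtype (y₀ i) - y i ∈ zI k (d + 1) ^ N := by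
  classical
  obtain ⟨r, q, a, U, Q, hmon, hqr, hU, hU0, hQ⟩ :=
    exists_division y Ds Gs hD hG (L + N + 1) (by omega)
  obtain ⟨κ, P', c, hP', s, hs⟩ := exists_coeff_ring IH (ι ⊕ Ds ⊕ Ds ⊕ Gs)
    (Sum.elim r (Sum.elim a (Sum.elim U Q))) (N + 1)
  set M := L + N + 1
  let r' := fun i => P' (Sum.inl i)
  let a' := fun p => P' (Sum.inr (Sum.inl p))
  let U' := fun p => P' (Sum.inr (Sum.inr (Sum.inl p)))
  let Q' := fun p => P' (Sum.inr (Sum.inr (Sum.inr p)))
  set e : MvPolynomial (Fin d ⊕ κ) ℤ →+* PS k d :=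
    (MvPolynomial.aeval (Sum.elim X c) : _ →ₐ[ℤ] PS k d).toRingHom
  have hr' : ∀ i, (r' i).map e = r i := fun i => hP' _
  have ha' : ∀ p, (a' p).map e = a p := fun p => hP' _
  have hU' : ∀ p, (U' p).map e = U p := fun p => hP' _
  have hQ' : ∀ p, (Q' p).map e = Q p := fun p => hP' _
  set v' : Fin (d + 1) ⊕ ι → Polynomial (MvPolynomial (Fin d ⊕ κ) ℤ) := liftVar r'
  have hv' : ∀ {R : Type u} [CommRing R] (f : MvPolynomial (Fin d ⊕ κ) ℤ →+* PS R d),
      (∀ i, f (MvPolynomial.X (Sum.inl i)) = X i) → ∀ p : MvPolynomial (Fin (d + 1) ⊕ ι) ℤ,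
      (MvPolynomial.aeval v' p).map f =
        MvPolynomial.aeval (polyVar fun i => (r' i).map f) p :=
    fun f hf p => map_liftVar r' f hf p
  set bb : Polynomial (MvPolynomial (Fin d ⊕ κ) ℤ) := Polynomial.X * ∏ p : Ds, a' p with hbbdef
  have hbb : bb.map e = Polynomial.X * ∏ p, a p := by
    simp [bb, Polynomial.map_prod, ha']
  refine ⟨s ∪ (Finset.univ.biUnion fun i => ((truncTotal N (q i)).coeffs)) ∪
    Finset.univ.image (fun p => (constantCoeff ((U p).coeff 0))⁻¹), fun A₀ hA => ?_⟩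
  simp only [Finset.coe_union, Set.union_subset_iff] at hA
  obtain ⟨c', hcc, hker⟩ := hs A₀ hA.1.1
  set e' : MvPolynomial (Fin d ⊕ κ) ℤ →+* PS A₀ d :=
    (MvPolynomial.aeval (Sum.elim X c') : _ →ₐ[ℤ] PS A₀ d).toRingHom
  have hXe : ∀ i, e (MvPolynomial.X (Sum.inl i)) = X i := fun i => by simp [e]
  have hXe' : ∀ i, e' (MvPolynomial.X (Sum.inl i)) = X i := fun i => by simp [e']
  set b₀ : PS A₀ (d + 1) := polyEmb (bb.map e') with hb₀
  have hq : ∀ i, ∀ x, (truncTotal N (q i)).coeff x ∈ A₀ := by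
    intro i x
    rcases eq_or_ne ((truncTotal N (q i)).coeff x) 0 with h0 | h0
    · rw [h0]; exact A₀.zero_mem
    · exact hA.1.2 (Finset.mem_biUnion.2
        ⟨i, Finset.mem_univ i, MvPolynomial.mem_coeffs_iff.2
          ⟨x, MvPolynomial.mem_support_iff.2 h0, rfl⟩⟩)
  choose q' hq' using fun i => MvPolynomial.mem_range_map_iff_coeffs_subset
    (f := A₀.subtype) (x := truncTotal N (q i)) |>.2 (fun x hx => by
      obtain ⟨n, -, rfl⟩ := MvPolynomial.mem_coeffs_iff.1 hx
      exact ⟨⟨_, hq i n⟩, rfl⟩)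
  let y₀ : ι → PS A₀ (d + 1) := fun i => polyEmb ((r' i).map e') + b₀ ^ M * (q' i : PS A₀ (d + 1))
  have hmod' : ∀ p, b₀ ^ M ∣ MvPolynomial.aeval (Sum.elim X y₀) p -
      polyEmb ((MvPolynomial.aeval v' p).map e') := fun p => by
    rw [hv' e' hXe']
    exact dvd_aeval_polyEmb _ y₀ (fun i => by simp [y₀]) p
  have hbmem : b₀ ∈ zI A₀ (d + 1) := by
    rw [hb₀, hbbdef, Polynomial.map_mul, Polynomial.map_X, map_mul]
    refine Ideal.mul_mem_right _ _ ?_
    rw [polyEmb, Polynomial.coe_eval₂RingHom, Polynomial.eval₂_X]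
    exact Ideal.subset_span ⟨0, rfl⟩
  refine ⟨b₀, y₀, hbmem, ?_, fun p hp => ?_, fun p hp => ?_, fun i => ?_⟩
  · intro h0
    set m := (Polynomial.X * ∏ p, a p).natDegree
    have hlc : MvPowerSeries.map A₀.subtype (e' (bb.coeff m)) - e (bb.coeff m) ∈
        zI k d ^ (N + 1) := by
      simp only [e, e', AlgHom.toRingHom_eq_coe, RingHom.coe_coe, map_aeval]
      refine sub_mem_aeval _ ?_ _
      rintro (j | j)
      · simp [map_X]
      · exact hcc j
    rw [← Polynomial.coeff_map, ← Polynomial.coeff_map (f := e), hbb, hmon.coeff_natDegree,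
      polyEmb_injective (h0.trans (map_zero _).symm), Polynomial.coeff_zero, map_zero, zero_sub,
      neg_mem_iff] at hlc
    have h2 := coeff_of_mem_zI_pow hlc (x := 0) (by simp)
    simp at h2
  · obtain ⟨cc, hcc'⟩ := hmod' p
    obtain ⟨W', hW'⟩ : ∃ W', bb = a' ⟨p, hp⟩ * (Polynomial.X * W') := by
      obtain ⟨W', hW'⟩ := Finset.dvd_prod_of_mem a' (Finset.mem_univ ⟨p, hp⟩)
      exact ⟨W', by rw [hbbdef, hW']; ring⟩
    have hid : (MvPolynomial.aeval v' p).map e' = (a' ⟨p, hp⟩).map e' * (U' ⟨p, hp⟩).map e' := by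
      rw [← Polynomial.map_mul]
      refine hker _ _ ?_
      rw [hv' e hXe, Polynomial.map_mul, ha', hU', funext hr', hU ⟨p, hp⟩]
    have hb0f : b₀ = polyEmb ((a' ⟨p, hp⟩).map e' * (Polynomial.X * W'.map e')) := by
      rw [hb₀, hW', Polynomial.map_mul, Polynomial.map_mul, Polynomial.map_X]
    rw [hb0f]
    refine dvd_of_unit (U := (U' ⟨p, hp⟩).map e') (t := b₀ ^ (M - 1) * cc) ?_ ?_
    · rw [← hid, ← hb0f, ← mul_assoc, ← pow_succ', show M - 1 + 1 = M by omega, ← hcc',
        add_sub_cancel]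
    · have h1 := Ideal.pow_le_self (Nat.succ_ne_zero N) (map_close hcc (U' ⟨p, hp⟩))
      replace h1 := constantCoeff_of_mem_zI h1
      rw [map_sub, sub_eq_zero, constantCoeff_map, constantCoeff_polyEmb,
        constantCoeff_polyEmb, hP'] at h1
      have hinv : (constantCoeff ((U ⟨p, hp⟩).coeff 0))⁻¹ ∈ A₀ :=
        hA.2 (Finset.mem_image.2 ⟨⟨p, hp⟩, Finset.mem_univ _, rfl⟩)
      refine IsUnit.of_mul_eq_one ⟨_, hinv⟩ (Subtype.ext ?_)
      change A₀.subtype _ * _ = (1 : k)
      rw [h1]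
      exact mul_inv_cancel₀ (hU0 ⟨p, hp⟩)
  · have hid : (MvPolynomial.aeval v' p).map e' = (bb ^ M).map e' * (Q' ⟨p, hp⟩).map e' := by
      rw [← Polynomial.map_mul]
      refine hker _ _ ?_
      rw [hv' e hXe, Polynomial.map_mul, Polynomial.map_pow, hbb, hQ', funext hr', hQ ⟨p, hp⟩]
    have h1 : b₀ ^ M ∣ polyEmb ((MvPolynomial.aeval v' p).map e') := by
      rw [hid, map_mul, Polynomial.map_pow, map_pow, ← hb₀]
      exact dvd_mul_right _ _
    have h2 := dvd_add (hmod' p) h1
    rw [sub_add_cancel] at h2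
    exact (pow_dvd_pow _ (by omega)).trans h2
  · have h1 := Ideal.pow_le_pow_right (Nat.le_succ N) (map_close hcc (r' i))
    have h2 := Ideal.pow_le_pow_right (Nat.le_succ N) (map_close hcc bb)
    have hq0 : MvPowerSeries.map A₀.subtype (q' i : PS A₀ (d + 1)) - q i ∈
        zI k (d + 1) ^ N := by
      refine mem_zI_pow_of_coeff fun x hx => ?_
      rw [map_sub, sub_eq_zero, coeff_map, MvPolynomial.coeff_coe, ← MvPolynomial.coeff_map, hq',
        coeff_truncTotal _ hx]
    rw [← Ideal.Quotient.eq] at h1 h2 hq0 ⊢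
    simp only [y₀, hqr i, map_add, map_mul, map_pow, ← hb₀] at h1 h2 hq0 ⊢
    rw [h1, h2, hq0, hr', hbb]
    simp only [map_mul, map_pow]
    ring

/-! ### Making finitely many series regular -/

/-- `z_i ↦ z_i + c * z_0 ^ w i`. -/
noncomputable def shear (R : Type u) [CommRing R] {d : ℕ} (c : ℤ) (w : Fin d → ℕ) :
    Fin (d + 1) → PS R (d + 1) :=
  Fin.cons (X 0) fun i => X i.succ + (c : PS R (d + 1)) * X 0 ^ (w i + 1)

theorem constantCoeff_shear (R : Type u) [CommRing R] {d : ℕ} (c : ℤ) (w : Fin d → ℕ)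
    (i : Fin (d + 1)) : constantCoeff (shear R c w i) = 0 := by
  refine Fin.cases ?_ (fun j => ?_) i <;> simp [shear, constantCoeff_X]

theorem hasSubst_shear (R : Type u) [CommRing R] {d : ℕ} (c : ℤ) (w : Fin d → ℕ) :
    HasSubst (shear R c w) :=
  hasSubst_of_constantCoeff_zero (constantCoeff_shear R c w)

/-- The shear. -/
noncomputable def shearHom (R : Type u) [CommRing R] {d : ℕ} (c : ℤ) (w : Fin d → ℕ) :
    PS R (d + 1) →ₐ[R] PS R (d + 1) :=
  substAlgHom (hasSubst_shear R c w)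

theorem shearHom_X (R : Type u) [CommRing R] {d : ℕ} (c : ℤ) (w : Fin d → ℕ) (i : Fin (d + 1)) :
    shearHom R c w (X i) = shear R c w i :=
  substAlgHom_X _ i

theorem shearHom_shear (R : Type u) [CommRing R] {d : ℕ} (c : ℤ) (w : Fin d → ℕ)
    (i : Fin (d + 1)) : shearHom R c w (shear R (-c) w i) = X i := by
  refine Fin.cases ?_ (fun j => ?_) i
  · simp [shear, shearHom_X]
  · simp [shear, shearHom_X]

theorem shearHom_comp (R : Type u) [CommRing R] {d : ℕ} (c : ℤ) (w : Fin d → ℕ)
    (f : PS R (d + 1)) : shearHom R c w (shearHom R (-c) w f) = f := by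
  simp only [shearHom, coe_substAlgHom]
  rw [subst_comp_subst_apply (hasSubst_shear R _ w) (hasSubst_shear R _ w)]
  have h : (fun i => subst (shear R c w) (shear R (-c) w i)) = (X : Fin (d + 1) → PS R (d + 1)) := by
    funext i
    rw [← coe_substAlgHom (hasSubst_shear R c w)]
    exact shearHom_shear R c w i
  rw [h, subst_self, id]

theorem map_shearHom {R : Type u} {S : Type u} [CommRing R] [CommRing S] (g : R →+* S) {d : ℕ}
    (c : ℤ) (w : Fin d → ℕ) (f : PS R (d + 1)) :
    MvPowerSeries.map g (shearHom R c w f) = shearHom S c w (MvPowerSeries.map g f) := by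
  simp only [shearHom, coe_substAlgHom]
  rw [map_subst (hasSubst_shear R c w)]
  congr 1
  funext i
  refine Fin.cases ?_ (fun j => ?_) i <;> simp [shear, map_X]

theorem shearHom_mem {R : Type u} [CommRing R] {d : ℕ} (c : ℤ) (w : Fin d → ℕ) {N : ℕ}
    {f : PS R (d + 1)} (hf : f ∈ zI R (d + 1) ^ N) : shearHom R c w f ∈ zI R (d + 1) ^ N :=
  map_zI_le (shearHom R c w).toRingHom (fun i => by
    change shearHom R c w (X i) ∈ _
    rw [shearHom_X]
    exact mem_zI_of_constantCoeff (constantCoeff_shear R c w i)) N (Ideal.mem_map_of_mem _ hf)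

/-- The weighted degree. -/
def wdeg {d : ℕ} (B : ℕ) (n : Fin (d + 1) → ℕ) : ℕ := ∑ i, n i * B ^ (i : ℕ)

theorem exists_unique_min {d : ℕ} (s : Set (Fin (d + 1) → ℕ)) (hs : s.Nonempty) :
    ∃ B, 1 ≤ B ∧ ∃ e ∈ s, ∀ n ∈ s, n ≠ e → wdeg B e < wdeg B n := by
  obtain ⟨e', ⟨e, he, rfl⟩, hmin⟩ := (IsWellFounded.wf (r := ((· < ·) :
    Lex (Fin (d + 1) → ℕ) → Lex (Fin (d + 1) → ℕ) → Prop))).has_min
    ((fun n => toLex (n ∘ Fin.rev)) '' s) (hs.image _)
  refine ⟨(∑ i, e i) + 1, by omega, e, he, fun n hn hne => ?_⟩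
  set B := (∑ i, e i) + 1
  have hlt : toLex (e ∘ Fin.rev) < toLex (n ∘ Fin.rev) := by
    rcases lt_trichotomy (toLex (e ∘ Fin.rev)) (toLex (n ∘ Fin.rev)) with h | h | h
    · exact h
    · exact absurd (funext fun i => by
        simpa using congrFun (toLex.injective h).symm (Fin.rev i)) hne
    · exact absurd h (hmin _ ⟨n, hn, rfl⟩)
  obtain ⟨j', heq, hj⟩ := hlt
  obtain ⟨j, rfl⟩ : ∃ j, j' = Fin.rev j := ⟨Fin.rev j', (Fin.rev_rev j').symm⟩
  simp only [Pi.toLex_apply, Function.comp_apply, Fin.rev_rev] at hj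
  have heq' : ∀ i, j < i → e i = n i := fun i hi => by
    have := heq (Fin.rev i) (Fin.rev_lt_rev.2 hi)
    simpa using this
  have hsplit : ∀ m : Fin (d + 1) → ℕ, wdeg B m =
      (∑ i ∈ Finset.univ.filter (fun i => i < j), m i * B ^ (i : ℕ)) +
        (m j * B ^ (j : ℕ) + ∑ i ∈ Finset.univ.filter (fun i => j < i), m i * B ^ (i : ℕ)) := by
    intro m
    rw [wdeg, ← Finset.sum_filter_add_sum_filter_not Finset.univ (fun i => i < j)]
    congr 1
    rw [show Finset.univ.filter (fun i => ¬ i < j) = insert j (Finset.univ.filter fun i => j < i) by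
      ext i; simp [le_iff_eq_or_lt, eq_comm], Finset.sum_insert (by simp)]
  have hlow : (∑ i ∈ Finset.univ.filter (fun i => i < j), e i * B ^ (i : ℕ)) < B ^ (j : ℕ) := by
    rcases Nat.eq_zero_or_pos (j : ℕ) with h0 | h0
    · rw [Finset.filter_false_of_mem fun i _ h => by simp [Fin.lt_def, h0] at h, Finset.sum_empty]
      positivity
    · calc (∑ i ∈ Finset.univ.filter (fun i => i < j), e i * B ^ (i : ℕ))
          ≤ ∑ i ∈ Finset.univ.filter (fun i => i < j), e i * B ^ ((j : ℕ) - 1) :=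
            Finset.sum_le_sum fun i hi => Nat.mul_le_mul le_rfl
              (Nat.pow_le_pow_right (by omega) (by
                have := Fin.lt_def.1 (Finset.mem_filter.1 hi).2; omega))
        _ ≤ (∑ i, e i) * B ^ ((j : ℕ) - 1) := by
            rw [Finset.sum_mul]
            exact Finset.sum_le_sum_of_subset (Finset.filter_subset _ _)
        _ < B * B ^ ((j : ℕ) - 1) :=
            Nat.mul_lt_mul_of_pos_right (show (∑ i, e i) < B by omega) (by positivity)
        _ = B ^ (j : ℕ) := by rw [← pow_succ', Nat.sub_add_cancel h0]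
  rw [hsplit e, hsplit n]
  have hup : ∑ i ∈ Finset.univ.filter (fun i => j < i), n i * B ^ (i : ℕ) =
      ∑ i ∈ Finset.univ.filter (fun i => j < i), e i * B ^ (i : ℕ) :=
    Finset.sum_congr rfl fun i hi => by rw [heq' i (Finset.mem_filter.1 hi).2]
  have hmid : (e j + 1) * B ^ (j : ℕ) ≤ n j * B ^ (j : ℕ) := Nat.mul_le_mul hj le_rfl
  rw [add_mul, one_mul] at hmid
  omega

/-- A nonzero series becomes regular after a shear. -/
theorem exists_shear_regular {k : Type u} [Field k] {d : ℕ} {f : PS k (d + 1)} (hf : f ≠ 0) :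
    ∃ w : Fin d → ℕ, ∀ g, g ∣ f → Regular (shearHom k 1 w g) := by
  obtain ⟨n₀, hn₀⟩ := (ne_zero_iff_exists_coeff_ne_zero f).1 hf
  obtain ⟨B, hB, e, he, hmin⟩ := exists_unique_min
    {n : Fin (d + 1) → ℕ | coeff (Finsupp.equivFunOnFinite.symm n) f ≠ 0}
    ⟨Finsupp.equivFunOnFinite n₀, by simpa using hn₀⟩
  refine ⟨fun i => B ^ ((i : ℕ) + 1) - 1, ?_⟩
  set w : Fin d → ℕ := fun i => B ^ ((i : ℕ) + 1) - 1
  -- restriction to the axis after the shear
  let Z : Fin (d + 1) → PS k (d + 1) := Fin.cons (X 0) 0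
  have hZ : HasSubst Z := hasSubst_of_constantCoeff_zero fun i => by
    refine Fin.cases ?_ (fun j => ?_) i <;> simp [Z, constantCoeff_X]
  let G : Fin (d + 1) → PS k (d + 1) := fun i => X 0 ^ (B ^ (i : ℕ))
  have hG : HasSubst G := hasSubst_of_constantCoeff_zero fun i => by
    have : B ^ (i : ℕ) ≠ 0 := by positivity
    simp [G, constantCoeff_X]
    omega
  have hcomp : ∀ g, substAlgHom hZ (shearHom k 1 w g) = substAlgHom hG g := by
    intro g
    simp only [shearHom, coe_substAlgHom]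
    rw [subst_comp_subst_apply (hasSubst_shear k 1 w) hZ]
    congr 1
    funext i
    rw [← coe_substAlgHom hZ]
    refine Fin.cases ?_ (fun j => ?_) i
    · simp only [shear, Fin.cons_zero]
      rw [substAlgHom_X]
      simp [Z, G]
    · have h1 : B ^ ((j : ℕ) + 1) - 1 + 1 = B ^ ((j : ℕ) + 1) :=
        Nat.sub_add_cancel (Nat.one_le_pow _ _ hB)
      simp only [shear, Fin.cons_succ, map_add, map_mul, map_pow, map_intCast, substAlgHom_X]
      simp [Z, G, w, h1]
  have hprod : ∀ n : Fin (d + 1) →₀ ℕ,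
      (n.prod fun s m => G s ^ m) = X 0 ^ wdeg B n := fun n => by
    rw [Finsupp.prod_fintype _ _ (fun i => pow_zero _), wdeg, ← Finset.prod_pow_eq_pow_sum]
    exact Finset.prod_congr rfl fun i _ => by rw [← pow_mul, mul_comm]
  have hfG : substAlgHom hG f ≠ 0 := by
    intro h0
    have h1 := congrArg (coeff (Finsupp.single (0 : Fin (d + 1)) (wdeg B e))) h0
    rw [map_zero, coe_substAlgHom, coeff_subst hG,
      finsum_eq_single _ (Finsupp.equivFunOnFinite.symm e)] at h1
    · rw [hprod, coeff_X_pow] at h1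
      simp at h1
      exact he h1
    · intro n hn
      rw [hprod, coeff_X_pow]
      split_ifs with h
      · by_contra hc
        have hne : (n : Fin (d + 1) → ℕ) ≠ e := fun hx => hn (by rw [← hx]; simp)
        have hnc : coeff n f ≠ 0 := fun hx => hc (by simp [hx])
        have := hmin n (by simpa using hnc) hne
        have := Finsupp.single_injective _ h
        omega
      · simp
  rintro g ⟨g', rfl⟩
  have hgG : substAlgHom hZ (shearHom k 1 w g) ≠ 0 := by
    rw [hcomp]
    intro h0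
    exact hfG (by rw [map_mul, h0, zero_mul])
  by_contra hreg
  simp only [Regular, not_exists, not_not] at hreg
  refine hgG (ext fun m => ?_)
  rw [coe_substAlgHom, coeff_subst hZ, map_zero]
  refine finsum_eq_zero_of_forall_eq_zero fun n => ?_
  by_cases hn : Finsupp.tail n = 0
  · rw [show n = Finsupp.cons (n 0) 0 by rw [← hn, Finsupp.cons_tail], hreg, zero_smul]
  · obtain ⟨j, hj⟩ := Finsupp.ne_iff.1 hn
    rw [Finsupp.prod_fintype _ _ (fun i => pow_zero _), Finset.prod_eq_zero (Finset.mem_univ j.succ)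
      (by simp only [Z, Fin.cons_succ, Pi.zero_apply]; exact zero_pow (by simpa [Finsupp.tail_apply] using hj))]
    simp

/-! ### The theorem -/

theorem approx_zero (k : Type u) [Field k] : Approx k 0 := by
  classical
  intro ι _ y N
  refine ⟨Finset.univ.image fun i => constantCoeff (y i), fun A₀ hA => ?_⟩
  have hmem : ∀ i, constantCoeff (y i) ∈ A₀ := fun i =>
    hA (Finset.mem_image.2 ⟨i, Finset.mem_univ i, rfl⟩)
  let y' : ι → PS A₀ 0 := fun i => C (⟨_, hmem i⟩ : A₀)
  have hy : ∀ i, MvPowerSeries.map A₀.subtype (y' i) = y i := fun i => by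
    ext x
    rw [Subsingleton.elim x 0, coeff_map, coeff_zero_eq_constantCoeff_apply,
      coeff_zero_eq_constantCoeff_apply, constantCoeff_C]
    rfl
  refine ⟨y', fun i => by simp [hy], fun F hF => ?_⟩
  have hinj : Function.Injective (MvPowerSeries.map (σ := Fin 0) A₀.subtype) := fun u v h =>
    MvPowerSeries.ext fun x => Subtype.ext (by simpa using congrArg (coeff x) h)
  apply hinj
  rw [map_zero, map_aeval, ← hF]
  congr 1
  ext1 (j | i)
  · exact j.elim0
  · simp [hy]

theorem aeval_X_eq_zero {k : Type u} [Field k] [CharZero k] {d : ℕ} (F : MvPolynomial (Fin d) ℤ)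
    (hF : MvPolynomial.aeval (X : Fin d → PS k d) F = 0) : F = 0 := by
  refine MvPolynomial.map_injective (Int.castRingHom k) Int.cast_injective
    (MvPolynomial.coe_injective _ _ ?_)
  rw [map_zero, MvPolynomial.coe_zero, ← hF]
  have h : MvPolynomial.coeToMvPowerSeries.ringHom.comp (MvPolynomial.map (Int.castRingHom k)) =
      (MvPolynomial.aeval (X : Fin d → PS k d) : _ →ₐ[ℤ] PS k d).toRingHom :=
    MvPolynomial.ringHom_ext (fun c => by simp) (fun i => by simp)
  exact RingHom.congr_fun h F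

/-- The shear as a substitution into polynomials. -/
noncomputable def shearPoly {d : ℕ} {ι : Type} (w : Fin d → ℕ) :
    Fin (d + 1) ⊕ ι → MvPolynomial (Fin (d + 1) ⊕ ι) ℤ :=
  Sum.elim (Fin.cons (MvPolynomial.X (Sum.inl 0))
    fun i => MvPolynomial.X (Sum.inl i.succ) + MvPolynomial.X (Sum.inl 0) ^ (w i + 1))
    fun i => MvPolynomial.X (Sum.inr i)

theorem aeval_shearPoly {R : Type u} [CommRing R] {d : ℕ} {ι : Type} (w : Fin d → ℕ)
    (v : ι → PS R (d + 1)) (p : MvPolynomial (Fin (d + 1) ⊕ ι) ℤ) :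
    MvPolynomial.aeval (Sum.elim X v) (MvPolynomial.bind₁ (shearPoly w) p) =
      MvPolynomial.aeval (Sum.elim (shear R 1 w) v) p := by
  rw [MvPolynomial.aeval_bind₁]
  have h : (fun i => MvPolynomial.aeval (Sum.elim X v) (shearPoly w i)) =
      Sum.elim (shear R 1 w) v := by
    funext j
    cases j with
    | inl j => refine Fin.cases ?_ (fun l => ?_) j <;> simp [shearPoly, shear]
    | inr i => simp [shearPoly]
  rw [h]

theorem shearHom_aeval {R : Type u} [CommRing R] {d : ℕ} {ι : Type} (w : Fin d → ℕ)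
    (y : ι → PS R (d + 1)) (p : MvPolynomial (Fin (d + 1) ⊕ ι) ℤ) :
    shearHom R 1 w (MvPolynomial.aeval (Sum.elim X y) p) =
      MvPolynomial.aeval (Sum.elim X fun i => shearHom R 1 w (y i))
        (MvPolynomial.bind₁ (shearPoly w) p) := by
  rw [aeval_shearPoly]
  refine (map_aeval (shearHom R 1 w).toRingHom _ p).trans ?_
  have h : (fun i => (shearHom R 1 w).toRingHom (Sum.elim X y i)) =
      Sum.elim (shear R 1 w) fun i => shearHom R 1 w (y i) := by
    funext j
    cases j <;> simp [shearHom_X]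
  rw [h]

theorem unshear_relation {R : Type u} [CommRing R] {d : ℕ} {ι : Type} (w : Fin d → ℕ)
    (y' : ι → PS R (d + 1)) (F : MvPolynomial (Fin (d + 1) ⊕ ι) ℤ)
    (hF : MvPolynomial.aeval (Sum.elim (shear R 1 w) y') F = 0) :
    MvPolynomial.aeval (Sum.elim X fun i => shearHom R (-1) w (y' i)) F = 0 := by
  have h := congrArg (shearHom R (-1) w) hF
  rw [map_zero] at h
  rw [← h]
  refine Eq.symm ((map_aeval (shearHom R (-1) w).toRingHom _ F).trans ?_)
  have h' : (fun i => (shearHom R (-1) w).toRingHom (Sum.elim (shear R 1 w) y' i)) =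
      Sum.elim X fun i => shearHom R (-1) w (y' i) := by
    funext j
    cases j with
    | inl j =>
      have := shearHom_shear R (-1) w j
      rw [neg_neg] at this
      simpa using this
    | inr i => simp
  rw [h']

theorem unshear_close {k : Type u} [Field k] {d : ℕ} {A₀ : Subring k} (w : Fin d → ℕ) {N : ℕ}
    {b y' y₀ : PS A₀ (d + 1)} {y : PS k (d + 1)} (hb : b ∈ zI A₀ (d + 1))
    (hy' : b ^ (N + 1) ∣ y' - y₀)
    (hclose : MvPowerSeries.map A₀.subtype y₀ - shearHom k 1 w y ∈ zI k (d + 1) ^ (N + 1)) :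
    MvPowerSeries.map A₀.subtype (shearHom A₀ (-1) w y') - y ∈ zI k (d + 1) ^ N := by
  have h1 : MvPowerSeries.map A₀.subtype (y' - y₀) ∈ zI k (d + 1) ^ N := by
    refine map_zI_le (MvPowerSeries.map A₀.subtype) (fun j => ?_) N (Ideal.mem_map_of_mem _ ?_)
    · rw [map_X]; exact Ideal.subset_span ⟨j, rfl⟩
    · obtain ⟨c, hc⟩ := hy'
      rw [hc]
      exact Ideal.mul_mem_right _ _
        (Ideal.pow_le_pow_right (Nat.le_succ N) (Ideal.pow_mem_pow hb _))
  have h2 := add_mem h1 (Ideal.pow_le_pow_right (Nat.le_succ N) hclose)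
  rw [map_sub, sub_add_sub_cancel] at h2
  have h3 := shearHom_mem (-1) w h2
  have h4 := shearHom_comp k (-1) w y
  rw [neg_neg] at h4
  rw [map_sub, ← map_shearHom, h4] at h3
  exact h3

theorem approx_succ {k : Type u} [Field k] [CharZero k] {d : ℕ} (IH : Approx k d) :
    Approx k (d + 1) := by
  classical
  intro ι _ y N
  have : IsDomain (PS k (d + 1)) := NoZeroDivisors.to_isDomain _
  have : CharZero (PS k (d + 1)) :=
    charZero_of_injective_ringHom (f := (C : k →+* PS k (d + 1))) C_injective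
  have hz := aeval_X_eq_zero (k := k) (d := d + 1)
  obtain ⟨Ds, Gs, K, hD, hG, hlift⟩ := exists_lift_data.{u, u} X hz y
  obtain ⟨w, hw⟩ := exists_shear_regular (f := ∏ p ∈ Ds, MvPolynomial.aeval (Sum.elim X y) p)
    (Finset.prod_ne_zero_iff.2 hD)
  have hD' : ∀ q ∈ Ds.image (MvPolynomial.bind₁ (shearPoly w)), Regular
      (MvPolynomial.aeval (Sum.elim X fun i => shearHom k 1 w (y i)) q) := by
    intro q hq
    obtain ⟨p, hp, rfl⟩ := Finset.mem_image.1 hq
    rw [← shearHom_aeval]
    exact hw _ (Finset.dvd_prod_of_mem _ hp)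
  have hG' : ∀ q ∈ Gs.image (MvPolynomial.bind₁ (shearPoly w)),
      MvPolynomial.aeval (Sum.elim X fun i => shearHom k 1 w (y i)) q = 0 := by
    intro q hq
    obtain ⟨p, hp, rfl⟩ := Finset.mem_image.1 hq
    rw [← shearHom_aeval, hG p hp, map_zero]
  obtain ⟨s, hs⟩ := exists_start IH (fun i => shearHom k 1 w (y i)) _ _ hD' hG'
    (K + (N + 1)) (N + 1)
  refine ⟨s, fun A₀ hA => ?_⟩
  obtain ⟨b, y₀, hb, hb0, hDs0, hGs0, hclose⟩ := hs A₀ hA
  have hDs : ∀ p ∈ Ds, MvPolynomial.aeval (Sum.elim (shear A₀ 1 w) y₀) p ∣ b := fun p hp => by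
    rw [← aeval_shearPoly]
    exact hDs0 _ (Finset.mem_image_of_mem _ hp)
  have hGs : ∀ p ∈ Gs, b ^ (K + (N + 1)) ∣ MvPolynomial.aeval (Sum.elim (shear A₀ 1 w) y₀) p :=
    fun p hp => by
      rw [← aeval_shearPoly]
      exact hGs0 _ (Finset.mem_image_of_mem _ hp)
  have : IsDomain (PS A₀ (d + 1)) := NoZeroDivisors.to_isDomain _
  have : IsAdicComplete (zI A₀ (d + 1)) (PS A₀ (d + 1)) := by unfold zI; infer_instance
  obtain ⟨y', hy', hrel⟩ := hlift (PS A₀ (d + 1)) (zI A₀ (d + 1)) b (shear A₀ 1 w) y₀ (N + 1)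
    hb hb0 (by omega) hDs hGs
  refine ⟨fun i => shearHom A₀ (-1) w (y' i), fun i => ?_, fun F hF => ?_⟩
  · exact unshear_close w hb (hy' i) (hclose i)
  · exact unshear_relation w y' F (hrel F hF)

/-- Artin approximation over finitely generated subrings, in characteristic zero. -/
theorem approx (k : Type u) [Field k] [CharZero k] : ∀ d, Approx k d
  | 0 => approx_zero k
  | d + 1 => approx_succ (approx k d)

end Vale.Agent.P202.Zero
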