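import Mathlib
import Vale.Agent.P202.Char.Defs

/-! P202, equal characteristic zero: shared definitions. -/

namespace Vale.Agent.P202.Zero

universe u

/-- Power series in `d` variables. -/
abbrev PS (k : Type u) [CommRing k] (d : ℕ) := MvPowerSeries (Fin d) k

/-- The ideal of the variables. -/
noncomputable def zI (k : Type u) [CommRing k] (d : ℕ) : Ideal (PS k d) :=
  Ideal.span (Set.range MvPowerSeries.X)

/-- The ideal of the `m`-th powers of the variables. -/
noncomputable def zPow (k : Type u) [CommRing k] (d m : ℕ) : Ideal (PS k d) :=
  Ideal.span (Set.range fun i => MvPowerSeries.X i ^ m)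

/-- Every element is a constant from `R` modulo the maximal ideal: equal residue fields. -/
def SameResidue (R S : Type u) [CommRing R] [CommRing S] [IsLocalRing S] [Algebra R S] : Prop :=
  ∀ s : S, ∃ r : R, s - algebraMap R S r ∈ IsLocalRing.maximalIdeal S

end Vale.Agent.P202.Zero
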