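import Vale.Agent.P202.Zero.Approx

/-! P202, equal characteristic zero: descending ideal inclusions and rings to subrings defined by
finitely many coefficients. -/

namespace Vale.Agent.P202.Zero

universe u

open Pointwise

/-- The inclusion of the power of G into H times the power of K holds over every subring containing `E`. -/
def Descends {R : Type u} [CommRing R] (E : Finset R) (G H K : Set R) (a b : ℕ) : Prop :=
  ∀ (R₀ : Type u) [CommRing R₀] (f : R₀ →+* R), Function.Injective f →
    ∀ (G₀ H₀ K₀ : Set R₀), f '' G₀ = G → f '' H₀ = H → f '' K₀ = K →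
      (E : Set R) ⊆ Set.range f →
        Ideal.span G₀ ^ a ≤ Ideal.span H₀ * Ideal.span K₀ ^ b

/-- The membership of t in the ideal of H holds over every subring containing `E`. -/
def MemDescends {R : Type u} [CommRing R] (E : Finset R) (t : R) (H : Set R) : Prop :=
  ∀ (R₀ : Type u) [CommRing R₀] (f : R₀ →+* R), Function.Injective f →
    ∀ (t₀ : R₀) (H₀ : Set R₀), f t₀ = t → f '' H₀ = H → (E : Set R) ⊆ Set.range f →
      t₀ ∈ Ideal.span H₀

/-- An inclusion of finitely generated ideals holds over every subring containing the finitely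
many coefficients involved. -/
theorem descend_le {R : Type u} [CommRing R] (G H : Finset R)
    (h : Ideal.span (G : Set R) ≤ Ideal.span (H : Set R)) :
    ∃ E : Finset R, ∀ (R₀ : Type u) [CommRing R₀] (f : R₀ →+* R), Function.Injective f →
      ∀ (G₀ H₀ : Set R₀), f '' G₀ = G → f '' H₀ = H → (E : Set R) ⊆ Set.range f →
        Ideal.span G₀ ≤ Ideal.span H₀ := by
  classical
  have hc : ∀ t : G, ∃ c : R → R, ∑ x ∈ H, c x * x = t.1 := fun t => by
    obtain ⟨c, -, hc⟩ := Submodule.mem_span_finset.1 (h (Ideal.subset_span t.2))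
    exact ⟨c, by simpa only [smul_eq_mul] using hc⟩
  choose c hc using hc
  refine ⟨Finset.univ.biUnion fun t : G => H.image (c t), fun R₀ _ f hf G₀ H₀ hG hH hE => ?_⟩
  refine Ideal.span_le.2 fun t₀ ht₀ => ?_
  have ht : f t₀ ∈ G := by
    rw [← Finset.mem_coe, ← hG]; exact ⟨t₀, ht₀, rfl⟩
  have hpre : ∀ x : H, ∃ x₀ ∈ H₀, f x₀ = x.1 := fun x => by
    have := x.2
    rw [← Finset.mem_coe, ← hH] at this
    obtain ⟨x₀, hx₀, hx⟩ := this
    exact ⟨x₀, hx₀, hx⟩
  have hco : ∀ x : H, ∃ y₀, f y₀ = c ⟨f t₀, ht⟩ x.1 := fun x =>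
    hE (Finset.mem_biUnion.2 ⟨⟨f t₀, ht⟩, Finset.mem_univ _, Finset.mem_image_of_mem _ x.2⟩)
  choose x₀ hx₀ hfx using hpre
  choose y₀ hy₀ using hco
  have hsum : t₀ = ∑ x : H, y₀ x * x₀ x := by
    apply hf
    rw [map_sum]
    refine (hc ⟨f t₀, ht⟩).symm.trans ?_
    rw [← Finset.sum_coe_sort H]
    exact Finset.sum_congr rfl fun x _ => by rw [map_mul, hy₀, hfx]
  rw [SetLike.mem_coe, hsum]
  exact sum_mem fun x _ => Ideal.mul_mem_left _ _ (Ideal.subset_span (hx₀ x))

theorem span_pow_eq {R : Type u} [CommRing R] (s : Set R) (n : ℕ) :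
    Ideal.span s ^ n = Ideal.span (s ^ n) :=
  Submodule.span_pow s n

/-- The same for inclusions between products of powers. -/
theorem descend_pow_le {R : Type u} [CommRing R] {G H K : Set R} (hG : G.Finite) (hH : H.Finite)
    (hK : K.Finite) {a b : ℕ} (h : Ideal.span G ^ a ≤ Ideal.span H * Ideal.span K ^ b) :
    ∃ E : Finset R, Descends E G H K a b := by
  classical
  have h1 : Ideal.span ((hG.toFinset ^ a : Finset R) : Set R) ≤
      Ideal.span ((hH.toFinset * hK.toFinset ^ b : Finset R) : Set R) := by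
    rwa [Finset.coe_pow, Finset.coe_mul, Finset.coe_pow, Set.Finite.coe_toFinset,
      Set.Finite.coe_toFinset, Set.Finite.coe_toFinset, ← span_pow_eq, ← Ideal.span_mul_span',
      ← span_pow_eq]
  obtain ⟨E, hE⟩ := descend_le _ _ h1
  refine ⟨E, fun R₀ _ f hf G₀ H₀ K₀ hG₀ hH₀ hK₀ hr => ?_⟩
  have := hE R₀ f hf (G₀ ^ a) (H₀ * K₀ ^ b)
    (by rw [Set.image_pow, hG₀, Finset.coe_pow, Set.Finite.coe_toFinset])
    (by rw [Set.image_mul, Set.image_pow, hH₀, hK₀, Finset.coe_mul, Finset.coe_pow,
      Set.Finite.coe_toFinset, Set.Finite.coe_toFinset]) hr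
  rwa [← span_pow_eq, ← Ideal.span_mul_span', ← span_pow_eq] at this

/-- A membership descends. -/
theorem descend_mem {R : Type u} [CommRing R] {H : Set R} (hH : H.Finite) {t : R}
    (h : t ∈ Ideal.span H) :
    ∃ E : Finset R, MemDescends E t H := by
  classical
  obtain ⟨E, hE⟩ := descend_le {t} hH.toFinset (by
    rwa [Finset.coe_singleton, Set.Finite.coe_toFinset, Ideal.span_le, Set.singleton_subset_iff])
  refine ⟨E, fun R₀ _ f hf t₀ H₀ ht hH₀ hr => ?_⟩
  exact hE R₀ f hf {t₀} H₀ (by simp [ht]) (by rw [hH₀, Set.Finite.coe_toFinset]) hr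
    (Ideal.subset_span rfl)

/-! ### The span of finitely many elements over a subring -/

section SpanRing

variable {B R : Type u} [CommRing B] [CommRing R] [Algebra B R] {ι : Type} (u : ι → R)

/-- The span of `u` over `B` as a ring, when it contains `1` and the products of the `u`. -/
noncomputable def spanRing (h1 : 1 ∈ Submodule.span B (Set.range u))
    (hmul : ∀ i j, u i * u j ∈ Submodule.span B (Set.range u)) : Subalgebra B R :=
  (Submodule.span B (Set.range u)).toSubalgebra h1 fun x y hx hy => by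
    have hle : Submodule.span B (Set.range u) * Submodule.span B (Set.range u) ≤
        Submodule.span B (Set.range u) := by
      rw [Submodule.span_mul_span, Submodule.span_le]
      rintro _ ⟨_, ⟨i, rfl⟩, _, ⟨j, rfl⟩, rfl⟩
      exact hmul i j
    exact hle (Submodule.mul_mem_mul hx hy)

theorem mem_spanRing {h1 : 1 ∈ Submodule.span B (Set.range u)}
    {hmul : ∀ i j, u i * u j ∈ Submodule.span B (Set.range u)} {x : R} :
    x ∈ spanRing u h1 hmul ↔ x ∈ Submodule.span B (Set.range u) := Iff.rfl

/-- Spanning survives the restriction to the span. -/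
theorem span_top_spanRing [Fintype ι] {h1 : 1 ∈ Submodule.span B (Set.range u)}
    {hmul : ∀ i j, u i * u j ∈ Submodule.span B (Set.range u)}
    (u₀ : ι → spanRing u h1 hmul) (hu₀ : ∀ i, (u₀ i : R) = u i) :
    Submodule.span B (Set.range u₀) = ⊤ := by
  refine eq_top_iff.2 fun x _ => ?_
  obtain ⟨c, hc⟩ := (Submodule.mem_span_range_iff_exists_fun B).1 ((mem_spanRing u).1 x.2)
  refine (Submodule.mem_span_range_iff_exists_fun B).2 ⟨c, Subtype.ext ?_⟩
  rw [← hc, AddSubmonoidClass.coe_finsetSum]
  exact Finset.sum_congr rfl fun i _ => by rw [Subalgebra.coe_smul, hu₀]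

end SpanRing

/-- A combination with coefficients in a subring lies in the span over the subring. -/
theorem sum_mem_span {A R : Type u} [CommRing A] [CommRing R] [Algebra A R] {ι : Type} [Fintype ι]
    (u : ι → R) {B : Subring A} (f : ι → A) (hf : ∀ l, f l ∈ B) :
    ∑ l, f l • u l ∈ Submodule.span B (Set.range u) :=
  sum_mem fun l _ =>
    (Submodule.span B (Set.range u)).smul_mem (⟨f l, hf l⟩ : B) (Submodule.subset_span ⟨l, rfl⟩)

end Vale.Agent.P202.Zero
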