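import Vale.Agent.P202.Zero.Defs
import Vale.Agent.P202.Zero.Complete
import Vale.Agent.P202.Char.Completion
import Vale.Agent.P202.Char.FlatCrit
import Vale.Agent.P202.Char.Trivial
import Vale.Agent.P202.Char.BaseAux

/-!
P202, equal characteristic zero: reduction to complete rings, finite free extensions and equal
residue fields.
-/

namespace Vale.Agent.P202.Zero

open IsLocalRing Vale.Agent.P202.Char

universe u

section
open AdicCompletion Vale.Agent.P202.Char.Compl

/-- Reduction to complete rings and finite free extensions. -/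
theorem reduce_complete
    (main : ∀ (R S : Type u) [CommRing R] [CommRing S] [IsLocalRing R] [IsLocalRing S]
      [IsNoetherianRing R] [IsNoetherianRing S] [Algebra R S] [IsLocalHom (algebraMap R S)]
      [Module.Finite R S] [Module.Free R S] [CharZero (ResidueField R)]
      [IsAdicComplete (maximalIdeal R) R],
      ∀ (d : ℕ) (e e' : ℝ), IsMultiplicity R d e → IsMultiplicity S d e' → e ≤ e')
    (R S : Type u) [CommRing R] [CommRing S] [IsLocalRing R] [IsLocalRing S]
    [IsNoetherianRing R] [IsNoetherianRing S] [Algebra R S] [IsLocalHom (algebraMap R S)]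
    [Module.Flat R S] [Module.Finite R (S ⧸ (maximalIdeal R).map (algebraMap R S))]
    [CharZero (ResidueField R)]
    (d : ℕ) (e e' : ℝ) (he : IsMultiplicity R d e) (he' : IsMultiplicity S d e') : e ≤ e' := by
  classical
  set m := maximalIdeal R
  set n := maximalIdeal S
  set J := m.map (algebraMap R S) with hJ
  have hle : J ≤ n := le_maximalIdeal (map_maximalIdeal_lt_top (algebraMap R S)).ne
  obtain ⟨c, hc⟩ := exists_pow_le (R := R) (S := S)
  let R' := AdicCompletion m R
  let S' := AdicCompletion n S
  have : IsNoetherianRing R' := Compl.isNoetherianRing m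
  have : IsNoetherianRing S' := Compl.isNoetherianRing n
  have fgm : m.FG := m.fg_of_isNoetherianRing
  have fgn : n.FG := n.fg_of_isNoetherianRing
  have heR : IsMultiplicity R' d e :=
    (InfRes.isMultiplicity_iff (R := R) (S := R') maximalIdeal_eq_map.symm d e).1 he
  have heS : IsMultiplicity S' d e' :=
    (InfRes.isMultiplicity_iff (R := S) (S := S') maximalIdeal_eq_map.symm d e').1 he'
  have : CharZero (ResidueField R') :=
    charZero_of_injective_ringHom (ResidueField.map (algebraMap R R')).injective
  set φ := compMap (algebraMap R S) (I := m) (J := n) hle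
  let : Algebra R' S' := φ.toAlgebra
  have hφ : ∀ x : R', algebraMap R' S' x = φ x := fun _ => rfl
  have hmap : (maximalIdeal R').map (algebraMap R' S') = J.map (algebraMap S S') := by
    rw [maximalIdeal_eq_map, RingHom.algebraMap_toAlgebra, Ideal.map_map,
      compMap_comp_algebraMap, ← Ideal.map_map]
  have : IsLocalHom (algebraMap R' S') := by
    refine ((local_hom_TFAE _).out 0 2).mpr ?_
    rw [hmap, maximalIdeal_eq_map]
    exact Ideal.map_mono hle
  -- lifts of a basis of the closed fibre
  let : Field (R ⧸ m) := Ideal.Quotient.field _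
  have : Module.Finite (R ⧸ m) (S ⧸ J) := Module.Finite.of_restrictScalars_finite R _ _
  set r := Module.finrank (R ⧸ m) (S ⧸ J)
  let b := Module.finBasis (R ⧸ m) (S ⧸ J)
  choose v hv using fun i => Ideal.Quotient.mk_surjective (b i)
  have hcomb : ∀ a : Fin r → R, Ideal.Quotient.mk J (∑ i, a i • v i) =
      ∑ i, Ideal.Quotient.mk m (a i) • b i := fun a => by
    rw [map_sum]
    refine Finset.sum_congr rfl fun i _ => ?_
    rw [← hv i]
    rfl
  have hind : ∀ a : Fin r → R, ∑ i, a i • v i ∈ m • (⊤ : Submodule R S) → ∀ i, a i ∈ m := by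
    intro a ha i
    rw [Ideal.smul_top_eq_map, Submodule.restrictScalars_mem, ← Ideal.Quotient.eq_zero_iff_mem,
      hcomb] at ha
    exact Ideal.Quotient.eq_zero_iff_mem.1
      (Fintype.linearIndependent_iff.1 b.linearIndependent _ ha i)
  let of' := algebraMap S S'
  let Φ : (Fin r → R') →ₗ[R'] S' := Fintype.linearCombination R' (fun i => of' (v i))
  have hΦ : ∀ x, Φ x = ∑ i, φ (x i) * of' (v i) := fun x => by
    simp [Φ, Fintype.linearCombination_apply, Algebra.smul_def, hφ]
  have hsurj : Function.Surjective Φ := by
    have := AdicCompletion.isAdicComplete_self m fgm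
    have : IsPrecomplete (maximalIdeal R') (Fin r → R') := by
      refine ⟨fun f hf => ?_⟩
      have hco : ∀ i {j k}, j ≤ k → f j i ≡ f k i
          [SMOD (maximalIdeal R' ^ j • ⊤ : Submodule R' R')] := fun i j k hjk => by
        have := (hf hjk).map (LinearMap.proj (φ := fun _ : Fin r => R') i)
        refine this.mono ?_
        rw [Submodule.map_smul'']
        exact Submodule.smul_mono le_rfl le_top
      choose L hL using fun i => IsPrecomplete.prec' (I := maximalIdeal R') (fun j => f j i)
        (fun {j k} h => hco i h)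
      refine ⟨fun i => L i, fun j => ?_⟩
      rw [SModEq.sub_mem, ← Finset.univ_sum_single (f j - fun i => L i)]
      refine sum_mem fun i _ => ?_
      have h1 := Submodule.mem_map_of_mem (f := LinearMap.single R' (fun _ : Fin r => R') i)
        (SModEq.sub_mem.1 (hL i j))
      rw [Submodule.map_smul''] at h1
      have h2 : LinearMap.single R' (fun _ : Fin r => R') i (f j i - L i) ∈
          (maximalIdeal R' ^ j • ⊤ : Submodule R' (Fin r → R')) :=
        Submodule.smul_mono le_rfl le_top h1
      simpa using h2
    have : IsHausdorff (maximalIdeal R') S' := by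
      refine ⟨fun x hx => ext_evalₐ fun k => ?_⟩
      rw [_root_.map_zero, ← mem_pow_iff fgn]
      have := hx k
      rw [SModEq.zero, Ideal.smul_top_eq_map, Submodule.restrictScalars_mem, Ideal.map_pow,
        hmap] at this
      exact Ideal.pow_right_mono (Ideal.map_mono hle) k this
    refine surjective_of_mkQ_comp_surjective (I := maximalIdeal R') fun y => ?_
    obtain ⟨y, rfl⟩ := Submodule.mkQ_surjective _ y
    obtain ⟨s, hs⟩ := Ideal.Quotient.mk_surjective (evalₐ n c y)
    have h1 := sub_mem_of_evalₐ_eq fgn hs.symm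
    choose a ha using fun i => Ideal.Quotient.mk_surjective (b.repr (Ideal.Quotient.mk J s) i)
    have h2 : s - ∑ i, a i • v i ∈ J := by
      rw [← Ideal.Quotient.eq_zero_iff_mem, map_sub, hcomb]
      simp [ha]
    refine ⟨fun i => algebraMap R R' (a i), ?_⟩
    rw [LinearMap.comp_apply, Submodule.mkQ_apply, Submodule.mkQ_apply, eq_comm,
      Submodule.Quotient.eq, Ideal.smul_top_eq_map, Submodule.restrictScalars_mem, hmap, hΦ]
    have e : ∑ i, φ (algebraMap R R' (a i)) * of' (v i) = of' (∑ i, a i • v i) := by
      rw [map_sum]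
      refine Finset.sum_congr rfl fun i _ => ?_
      rw [compMap_algebraMap, ← map_mul, Algebra.smul_def]
    have h3 : y - of' s ∈ J.map of' := by
      rw [← Ideal.map_pow] at h1
      exact Ideal.map_mono hc h1
    have h4 := add_mem h3 (Ideal.mem_map_of_mem of' h2)
    rw [e]
    simpa [of', map_sub] using h4
  have hinj : Function.Injective Φ := by
    rw [injective_iff_map_eq_zero]
    intro x hx
    funext i
    refine ext_evalₐ fun k => ?_
    choose a ha using fun i => Ideal.Quotient.mk_surjective (evalₐ m ((c + 1) * k) (x i))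
    have h0 : ∑ i, a i • v i ∈ n ^ ((c + 1) * k) := by
      rw [← Ideal.Quotient.eq_zero_iff_mem]
      have := congrArg (evalₐ n ((c + 1) * k)) hx
      rw [hΦ, _root_.map_zero, map_sum] at this
      rw [map_sum, ← this]
      refine Finset.sum_congr rfl fun i _ => ?_
      simp [φ, of', evalₐ_compMap, ← ha, Algebra.smul_def]
      exact congrArg _ (evalₐ_of n _ (v i)).symm
    have h1 : n ^ ((c + 1) * k) ≤ (m ^ k).map (algebraMap R S) := by
      rw [pow_mul, Ideal.map_pow]
      exact Ideal.pow_right_mono ((Ideal.pow_le_pow_right c.le_succ).trans hc) k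
    have h2 : a i ∈ m ^ k := by
      refine mem_of_sum_smul_mem v hind _ a ?_ i
      rw [Ideal.smul_top_eq_map]
      exact h1 h0
    rw [← factor_evalₐ (Nat.le_mul_of_pos_left k c.succ_pos) (x i), ← ha i,
      Ideal.Quotient.factor_mk, Ideal.Quotient.eq_zero_iff_mem.2 h2]
    simp
  have : Module.Finite R' S' := Module.Finite.of_surjective Φ hsurj
  have : Module.Free R' S' :=
    Module.Free.of_equiv (LinearEquiv.ofBijective Φ ⟨hinj, hsurj⟩)
  exact main R' S' d e e' heR heS

end

open Polynomial in
/-- reduction to complete `R`, finite free `S` and equal residue fields -/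
theorem reduce_normal
    (main : ∀ (R S : Type u) [CommRing R] [CommRing S] [IsLocalRing R] [IsLocalRing S]
      [IsNoetherianRing R] [IsNoetherianRing S] [Algebra R S] [IsLocalHom (algebraMap R S)]
      [Module.Finite R S] [Module.Free R S] [CharZero (ResidueField R)]
      [IsAdicComplete (maximalIdeal R) R],
      SameResidue R S →
      ∀ (d : ℕ) (e e' : ℝ), IsMultiplicity R d e → IsMultiplicity S d e' → e ≤ e')
    (R S : Type u) [CommRing R] [CommRing S] [IsLocalRing R] [IsLocalRing S]
    [IsNoetherianRing R] [IsNoetherianRing S] [Algebra R S] [IsLocalHom (algebraMap R S)]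
    [Module.Flat R S] [Module.Finite R (S ⧸ (maximalIdeal R).map (algebraMap R S))]
    [CharZero (ResidueField R)]
    (d : ℕ) (e e' : ℝ) (he : IsMultiplicity R d e) (he' : IsMultiplicity S d e') : e ≤ e' := by
  refine reduce_complete (fun R S _ _ _ _ _ _ _ _ _ _ _ _ d e e' he he' => ?_) R S d e e' he he'
  have := adicComplete_finite R S
  set k := ResidueField R
  set K := ResidueField S
  have : FiniteDimensional k K := inferInstance
  obtain ⟨θ, hθ⟩ := Field.exists_primitive_element k K
  have hθi : IsIntegral k θ := Algebra.IsIntegral.isIntegral θ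
  obtain ⟨Φ, hΦ, -, hmonic⟩ := lifts_and_degree_eq_and_monic
    ((mem_lifts _).2 (map_surjective (residue R) residue_surjective (minpoly k θ)))
    (minpoly.monic hθi)
  -- the root in `S`
  have hsep : (minpoly k θ).Separable := (Algebra.IsSeparable.isSeparable k θ)
  obtain ⟨t₀, ht₀⟩ := residue_surjective θ
  have hres : (residue S).comp (algebraMap R S) = (algebraMap k K).comp (residue R) := rfl
  set g : S[X] := Φ.map (algebraMap R S)
  have hg : ∀ P : R[X], residue S ((P.map (algebraMap R S)).eval t₀) =
      aeval θ (P.map (residue R)) := by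
    intro P
    rw [eval_map, hom_eval₂, ht₀, hres, aeval_def, eval₂_map]
  obtain ⟨t, ht, htt⟩ := HenselianRing.is_henselian (I := maximalIdeal S) g (hmonic.map _) t₀
    (by rw [← residue_eq_zero_iff, hg, hΦ, minpoly.aeval])
    (by
      change IsUnit (residue S ((derivative g).eval t₀))
      rw [derivative_map, hg, ← derivative_map, hΦ, isUnit_iff_ne_zero]
      exact hsep.aeval_derivative_ne_zero (minpoly.aeval k θ))
  have htθ : residue S t = θ := by
    rw [← ht₀, ← sub_eq_zero, ← map_sub, residue_eq_zero_iff]; exact htt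
  -- the intermediate ring
  let A := AdjoinRoot Φ
  have htroot : Φ.eval₂ (algebraMap R S) t = 0 := by rw [← eval_map]; exact ht
  let f : A →+* S := AdjoinRoot.lift (algebraMap R S) t htroot
  let π : A →+* K := (residue S).comp f
  have hπmk : ∀ P : R[X], π (AdjoinRoot.mk Φ P) = aeval θ (P.map (residue R)) := fun P => by
    change residue S (f _) = _
    rw [show f (AdjoinRoot.mk Φ P) = P.eval₂ (algebraMap R S) t from AdjoinRoot.lift_mk htroot P,
      hom_eval₂, htθ, hres, aeval_def, eval₂_map]
  have hπ : Function.Surjective π := by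
    intro y
    have hy : y ∈ Algebra.adjoin k ({θ} : Set K) := by
      rw [← IntermediateField.adjoin_simple_toSubalgebra_of_isAlgebraic hθi.isAlgebraic, hθ]
      trivial
    rw [Algebra.adjoin_singleton_eq_range_aeval] at hy
    obtain ⟨P, rfl⟩ := hy
    obtain ⟨P', rfl⟩ := map_surjective (residue R) residue_surjective P
    exact ⟨AdjoinRoot.mk Φ P', hπmk P'⟩
  set mA := (maximalIdeal R).map (algebraMap R A) with hmA
  have hker : RingHom.ker π = mA := by
    refine le_antisymm (fun a ha => ?_) (Ideal.map_le_iff_le_comap.2 fun r hr => ?_)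
    · obtain ⟨P, rfl⟩ := AdjoinRoot.mk_surjective a
      rw [RingHom.mem_ker, hπmk] at ha
      obtain ⟨q, hq⟩ := minpoly.dvd k θ ha
      obtain ⟨q', rfl⟩ := map_surjective (residue R) residue_surjective q
      have h0 : (P - Φ * q').map (residue R) = 0 := by
        rw [Polynomial.map_sub, Polynomial.map_mul, hΦ, ← hq, sub_self]
      rw [show AdjoinRoot.mk Φ P = AdjoinRoot.mk Φ (P - Φ * q') by
        rw [map_sub, map_mul, AdjoinRoot.mk_self, zero_mul, sub_zero]]
      rw [(P - Φ * q').as_sum_range_C_mul_X_pow, map_sum]
      refine sum_mem fun i _ => ?_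
      rw [map_mul, AdjoinRoot.mk_C]
      refine Ideal.mul_mem_right _ _ ?_
      rw [hmA, AdjoinRoot.algebraMap_eq]
      refine Ideal.mem_map_of_mem _ ((residue_eq_zero_iff _).1 ?_)
      rw [← coeff_map, h0, coeff_zero]
    · rw [Ideal.mem_comap, RingHom.mem_ker, AdjoinRoot.algebraMap_eq, ← AdjoinRoot.mk_C, hπmk]
      simp [(residue_eq_zero_iff r).2 hr]
  have hmax : mA.IsMaximal := hker ▸ RingHom.ker_isMaximal_of_surjective π hπ
  have hfinA : Module.Finite R A := hmonic.finite_adjoinRoot
  have hfreeA : Module.Free R A := hmonic.free_adjoinRoot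
  have : IsLocalRing A := IsLocalRing.of_unique_max_ideal ⟨mA, hmax, fun Q hQ => by
    refine (hmax.eq_of_le hQ.ne_top ?_).symm
    rw [hmA, Ideal.map_le_iff_le_comap]
    exact (IsLocalRing.eq_maximalIdeal
      (Ideal.isMaximal_comap_of_isIntegral_of_isMaximal (R := R) Q)).ge⟩
  have hmaxA : mA = maximalIdeal A := IsLocalRing.eq_maximalIdeal hmax
  have : IsNoetherianRing A := IsNoetherianRing.of_finite R A
  have : IsLocalHom (algebraMap R A) :=
    ((local_hom_TFAE _).out 0 2).mpr hmaxA.le
  let _ : Algebra A S := f.toAlgebra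
  have : IsScalarTower R A S := IsScalarTower.of_algebraMap_eq' (by
    rw [RingHom.algebraMap_toAlgebra, AdjoinRoot.algebraMap_eq, AdjoinRoot.lift_comp_of])
  have : IsLocalHom (algebraMap A S) := by
    refine ((local_hom_TFAE _).out 0 2).mpr ?_
    rw [← hmaxA, ← hker, Ideal.map_le_iff_le_comap]
    intro a ha
    rw [Ideal.mem_comap, ← residue_eq_zero_iff]
    exact ha
  have : Module.Finite A S := Module.Finite.of_restrictScalars_finite R A S
  have : Module.Flat A S := flat_tower hmaxA
  have : Module.Free A S := Module.free_of_flat_of_isLocalRing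
  have : CharZero (ResidueField A) :=
    charZero_of_injective_ringHom (ResidueField.map (algebraMap R A)).injective
  have := adicComplete_finite R A
  refine main A S (fun s => ?_) d e e' ((InfRes.isMultiplicity_iff hmaxA d e).1 he) he'
  obtain ⟨a, ha⟩ := hπ (residue S s)
  refine ⟨a, ?_⟩
  rw [← residue_eq_zero_iff, map_sub, sub_eq_zero]
  exact ha.symm

theorem mult_pos {R S : Type u} [CommRing R] [CommRing S] [IsLocalRing R] [IsLocalRing S]
    [IsNoetherianRing R] [IsNoetherianRing S] [Algebra R S] [IsLocalHom (algebraMap R S)]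
    [Module.Finite R S] [Module.Free R S] {d : ℕ} {e e' : ℝ}
    (he : IsMultiplicity R d e) (he' : IsMultiplicity S d e') (h0 : e ≠ 0) : e' ≠ 0 := by
  cases d with
  | zero =>
    intro h
    subst h
    exact h0 (le_antisymm (lech_dim_zero he he') (mult_nonneg he))
  | succ n => exact Base.ne_zero_of_ne_zero he he' h0

end Vale.Agent.P202.Zero
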