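import Vale.Agent.P202.Zero.Spread
import Vale.Agent.P202.Zero.Normal
import Vale.Agent.P202.Zero.CoeffMap
import Vale.Agent.P202.Zero.Complete
import Vale.Agent.P202.Char.Reduction
import Vale.Agent.P202.Char.Trivial

/-!
P202, equal characteristic zero: Lech's inequality for flat local maps with finite closed fibre,
from the inequality in characteristic `p` for finite free extensions.
-/

namespace Vale.Agent.P202.Zero

open IsLocalRing Filter Topology Vale.Agent.P202.Char

universe u

/-- The ideal of a minimal reduction is a reduction. -/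
theorem redData_pow_le {R : Type u} [CommRing R] [IsLocalRing R] {n : ℕ} (Z : RedData R n) :
    ∃ c, maximalIdeal R ^ (c + 1) ≤ Ideal.span (Set.range Z.z) * maximalIdeal R ^ c := by
  refine ⟨Finset.univ.sup Z.δ, ?_⟩
  rw [Z.pow_eq]
  refine iSup_le fun i => ?_
  have hi : Z.δ i ≤ Finset.univ.sup Z.δ := Finset.le_sup (Finset.mem_univ i)
  obtain ⟨t, ht⟩ := Nat.exists_eq_add_of_le hi
  rw [ht, show Z.δ i + t + 1 - Z.δ i = t + 1 by omega, pow_succ', mul_assoc]
  refine Ideal.mul_mono_right ?_
  rw [Nat.add_comm (Z.δ i) t, pow_add]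
  refine Ideal.mul_mono (Ideal.pow_right_mono ?_ t)
    ((Ideal.span_singleton_le_iff_mem _).2 (Z.gen_mem i))
  exact Ideal.span_le.2 (by rintro _ ⟨j, rfl⟩; exact Z.z_mem j)

/-- Lengths modulo powers of a reduction, from the finite structure over power series it gives. -/
theorem eventually_len_le {k : Type u} [Field k] {d : ℕ} {S : Type u} [CommRing S] [IsLocalRing S]
    [IsNoetherianRing S] [IsAdicComplete (maximalIdeal S) S] [Algebra k S]
    (hk : Function.Surjective fun a : k => residue S (algebraMap k S a)) (x : Fin d → S)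
    (hx : ∀ i, x i ∈ maximalIdeal S)
    (hxc : ∃ c, maximalIdeal S ^ (c + 1) ≤ Ideal.span (Set.range x) * maximalIdeal S ^ c)
    {e : ℝ} (he : IsMultiplicity S d e) {ε : ℝ} (hε : 0 < ε) :
    ∀ᶠ M : ℕ in atTop, Module.Finite k (S ⧸ Ideal.span (Set.range fun i => x i ^ M)) ∧
      (len k (S ⧸ Ideal.span (Set.range fun i => x i ^ M)) : ℝ) ≤ (e + ε) * (M : ℝ) ^ d := by
  obtain ⟨c, hc⟩ := hxc
  obtain ⟨φ, hfin, hC, hX⟩ := exists_psMap (algebraMap k S) hk x hx
    ⟨c + 1, hc.trans Ideal.mul_le_left⟩
  let _ : Algebra (PS k d) S := φ.toAlgebra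
  have : IsScalarTower k (PS k d) S := IsScalarTower.of_algebraMap_eq fun a => (hC a).symm
  have : Module.Finite (PS k d) S := hfin
  have hz : ∀ i, algebraMap (PS k d) S (MvPowerSeries.X i) ∈ maximalIdeal S := fun i => by
    rw [RingHom.algebraMap_toAlgebra, hX]; exact hx i
  have hred : ∃ c, maximalIdeal S ^ (c + 1) ≤
      (zI k d).map (algebraMap (PS k d) S) * maximalIdeal S ^ c := ⟨c, by
    rw [zI, Ideal.map_span, ← Set.range_comp, RingHom.algebraMap_toAlgebra,
      show φ ∘ MvPowerSeries.X = x from funext hX]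
    exact hc⟩
  obtain ⟨r, w, π, h, -, -, -, hub⟩ := isMultiplicity_eq_rank hk hz hred he
  filter_upwards [hub ε hε] with M hM
  have heq : zPow k d M • (⊤ : Submodule (PS k d) S) =
      (Ideal.span (Set.range fun i => x i ^ M)).restrictScalars (PS k d) := by
    rw [Ideal.smul_top_eq_map, zPow, Ideal.map_span, ← Set.range_comp]
    simp only [Function.comp_def, map_pow, RingHom.algebraMap_toAlgebra, hX]
  let E := ((Submodule.quotEquivOfEq _ _ heq).trans
    (Submodule.Quotient.restrictScalarsEquiv (PS k d) _)).restrictScalars k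
  have := (finite_quot (k := k) (d := d) S M).2
  refine ⟨Module.Finite.equiv E, ?_⟩
  rwa [len, ← E.length_eq]

/-- The normal case: complete, finite free, equal residue fields. -/
theorem lech_complete
    (mainp : ∀ (p : ℕ) [Fact p.Prime] (R S : Type u) [CommRing R] [CommRing S] [IsLocalRing R]
      [IsLocalRing S] [IsNoetherianRing R] [IsNoetherianRing S] [Algebra R S]
      [IsLocalHom (algebraMap R S)] [Module.Finite R S] [Module.Free R S] [CharP R p]
      (d : ℕ) (e e' : ℝ), IsMultiplicity R d e → IsMultiplicity S d e' → e ≤ e')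
    (R S : Type u) [CommRing R] [CommRing S] [IsLocalRing R] [IsLocalRing S]
    [IsNoetherianRing R] [IsNoetherianRing S] [Algebra R S] [IsLocalHom (algebraMap R S)]
    [Module.Finite R S] [Module.Free R S] [CharZero (ResidueField R)]
    [IsAdicComplete (maximalIdeal R) R] (hSR : SameResidue R S)
    (d : ℕ) (e e' : ℝ) (he : IsMultiplicity R d e) (he' : IsMultiplicity S d e') : e ≤ e' := by
  cases d with
  | zero => exact lech_dim_zero he he'
  | succ n =>
  rcases eq_or_ne e 0 with rfl | h0
  · exact mult_nonneg he'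
  have h0' := mult_pos he he' h0
  set k := ResidueField R
  obtain ⟨σ, hσ⟩ := exists_coefficient_field R
  have : Infinite k := Infinite.of_injective ((↑) : ℕ → k) Nat.cast_injective
  have : Infinite (ResidueField S) :=
    Infinite.of_injective _ (ResidueField.map (algebraMap R S)).injective
  have := adicComplete_finite R S
  obtain ⟨ZR⟩ := exists_redData he h0
  obtain ⟨ZS⟩ := exists_redData he' h0'
  obtain ⟨cR, hcR⟩ := redData_pow_le ZR
  let _ : Algebra k R := σ.toAlgebra
  let _ : Algebra k S := ((algebraMap R S).comp σ).toAlgebra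
  have hk : Function.Surjective fun a : k => residue R (algebraMap k R a) := fun y =>
    ⟨y, hσ y⟩
  have hkS : Function.Surjective fun a : k => residue S (algebraMap k S a) := fun y => by
    obtain ⟨s, rfl⟩ := residue_surjective y
    obtain ⟨r, hr⟩ := hSR s
    refine ⟨residue R r, ?_⟩
    have h1 : residue S s = residue S (algebraMap R S r) := by
      rw [← sub_eq_zero, ← map_sub, residue_eq_zero_iff]; exact hr
    show residue S (algebraMap R S (σ (residue R r))) = residue S s
    rw [h1, ← sub_eq_zero, ← map_sub, ← map_sub, residue_eq_zero_iff, mem_maximalIdeal,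
      mem_nonunits_iff, isUnit_map_iff, ← mem_nonunits_iff, ← mem_maximalIdeal,
      ← residue_eq_zero_iff, map_sub, hσ, sub_self]
  obtain ⟨φ, hfin, hC, hX⟩ := exists_psMap σ hk ZR.z ZR.z_mem
    ⟨cR + 1, hcR.trans Ideal.mul_le_left⟩
  let _ : Algebra (PS k (n + 1)) R := φ.toAlgebra
  have : IsScalarTower k (PS k (n + 1)) R := IsScalarTower.of_algebraMap_eq fun a => (hC a).symm
  have : Module.Finite (PS k (n + 1)) R := hfin
  let _ : Algebra (PS k (n + 1)) S := ((algebraMap R S).comp φ).toAlgebra
  have : IsScalarTower (PS k (n + 1)) R S := IsScalarTower.of_algebraMap_eq fun a => rfl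
  have : IsScalarTower k (PS k (n + 1)) S :=
    IsScalarTower.of_algebraMap_eq fun a => congrArg (algebraMap R S) (hC a).symm
  have hz : ∀ i, algebraMap (PS k (n + 1)) R (MvPowerSeries.X i) ∈ maximalIdeal R := fun i => by
    rw [RingHom.algebraMap_toAlgebra, hX]; exact ZR.z_mem i
  have hRc : ∃ c, maximalIdeal R ^ (c + 1) ≤
      (zI k (n + 1)).map (algebraMap (PS k (n + 1)) R) * maximalIdeal R ^ c := ⟨cR, by
    rw [zI, Ideal.map_span, ← Set.range_comp, RingHom.algebraMap_toAlgebra,
      show φ ∘ MvPowerSeries.X = ZR.z from funext hX]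
    exact hcR⟩
  obtain ⟨r, w, π, h, hh, hw, her, -⟩ := isMultiplicity_eq_rank hk hz hRc he
  refine le_of_forall_pos_le_add fun ε hε => ?_
  obtain ⟨M, ⟨hfinM, hle⟩, hM⟩ := ((eventually_len_le hkS ZS.z ZS.z_mem (redData_pow_le ZS) he'
    hε).and (eventually_gt_atTop 0)).exists
  have hcore := spread_core mainp hk hSR hz hRc ZS.z ZS.z_mem (redData_pow_le ZS) w π hh hw hM
  rw [her]
  exact le_of_mul_le_mul_right (hcore.trans hle) (by positivity)

/-- Lech's inequality in equal characteristic zero from the one in characteristic `p`. -/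
theorem lech_zero
    (mainp : ∀ (p : ℕ) [Fact p.Prime] (R S : Type u) [CommRing R] [CommRing S] [IsLocalRing R]
      [IsLocalRing S] [IsNoetherianRing R] [IsNoetherianRing S] [Algebra R S]
      [IsLocalHom (algebraMap R S)] [Module.Finite R S] [Module.Free R S] [CharP R p]
      (d : ℕ) (e e' : ℝ), IsMultiplicity R d e → IsMultiplicity S d e' → e ≤ e')
    (R S : Type u) [CommRing R] [CommRing S] [IsLocalRing R] [IsLocalRing S]
    [IsNoetherianRing R] [IsNoetherianRing S] [Algebra R S] [IsLocalHom (algebraMap R S)]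
    [Module.Flat R S] [Module.Finite R (S ⧸ (maximalIdeal R).map (algebraMap R S))]
    [CharZero (ResidueField R)]
    (d : ℕ) (e e' : ℝ) (he : IsMultiplicity R d e) (he' : IsMultiplicity S d e') : e ≤ e' :=
  reduce_normal (fun R S _ _ _ _ _ _ _ _ _ _ _ _ hSR d e e' he he' =>
    lech_complete mainp R S hSR d e e' he he') R S d e e' he he'

end Vale.Agent.P202.Zero
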