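import Vale.Agent.P202.Zero.PSLength
import Vale.Agent.P202.Lech

/-!
P202, equal characteristic zero: the multiplicity of a local ring which is finite over
`k[[z_1, ..., z_d]]`, with the variables generating a reduction of the maximal ideal, is the rank.
-/

namespace Vale.Agent.P202.Zero

open IsLocalRing Filter Topology Vale.Agent.P202.Char

universe u

variable {k : Type u} [Field k] {d : ℕ} {R : Type u} [CommRing R] [IsLocalRing R]
  [IsNoetherianRing R] [Algebra (PS k d) R] [Algebra k R] [IsScalarTower k (PS k d) R]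
  (hk : Function.Surjective fun a : k => residue R (algebraMap k R a))
  (hz : ∀ i, algebraMap (PS k d) R (MvPowerSeries.X i) ∈ maximalIdeal R)
  (hc : ∃ c, maximalIdeal R ^ (c + 1) ≤
    (zI k d).map (algebraMap (PS k d) R) * maximalIdeal R ^ c)

include hk hz hc

/-- The multiplicity is computed by the powers of the variables. -/
theorem tendsto_zI_of_isMultiplicity {e : ℝ} (he : IsMultiplicity R d e) :
    Tendsto (fun N : ℕ => (d.factorial : ℝ) *
      (len k (R ⧸ zI k d ^ N • (⊤ : Submodule (PS k d) R)) : ℝ) / (N : ℝ) ^ d) atTop (𝓝 e) := by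
  obtain ⟨c, hc⟩ := hc
  set I := (zI k d).map (algebraMap (PS k d) R)
  set m := maximalIdeal R
  have hIm : I ≤ m := by
    rw [Ideal.map_le_iff_le_comap, zI, Ideal.span_le]
    rintro _ ⟨i, rfl⟩
    exact hz i
  have hlen : ∀ N : ℕ, len k (R ⧸ zI k d ^ N • (⊤ : Submodule (PS k d) R)) =
      len R (R ⧸ I ^ N) := fun N => by
    rw [len, len, length_eq_residue hk (R ⧸ I ^ N)]
    have h : (zI k d ^ N • ⊤ : Submodule (PS k d) R) = (I ^ N).restrictScalars (PS k d) := by
      rw [← Ideal.map_pow]
      exact Ideal.smul_top_eq_map _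
    rw [(((Submodule.quotEquivOfEq _ _ h).trans
      (Submodule.Quotient.restrictScalarsEquiv (PS k d) (I ^ N))).restrictScalars k).length_eq]
  simp only [hlen]
  have hred : ∀ N, m ^ (N + c) ≤ I ^ N := by
    have h : ∀ N, m ^ (N + c) ≤ I ^ N * m ^ c := by
      intro N
      induction N with
      | zero => simp
      | succ N ih =>
        calc m ^ (N + 1 + c) = m * m ^ (N + c) := by rw [← pow_succ']; ring_nf
          _ ≤ m * (I ^ N * m ^ c) := mul_le_mul_right ih _
          _ = I ^ N * m ^ (c + 1) := by rw [pow_succ']; ring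
          _ ≤ I ^ N * (I * m ^ c) := mul_le_mul_right hc _
          _ = I ^ (N + 1) * m ^ c := by rw [pow_succ]; ring
    exact fun N => (h N).trans Ideal.mul_le_left
  have hshift : Tendsto (fun N : ℕ => (d.factorial : ℝ) *
      (len R (R ⧸ m ^ (N + c)) : ℝ) / (N : ℝ) ^ d) atTop (𝓝 e) := by
    have h1 := he.comp (tendsto_add_atTop_nat c)
    have h2 : Tendsto (fun N : ℕ => ((N + c : ℕ) : ℝ) / (N : ℝ)) atTop (𝓝 1) := by
      have h0 := (tendsto_const_nhds (x := (1 : ℝ))).add
        (tendsto_const_div_atTop_nhds_zero_nat (c : ℝ))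
      rw [add_zero] at h0
      refine h0.congr' ?_
      filter_upwards [eventually_gt_atTop 0] with N hN
      have : (0 : ℝ) < N := by exact_mod_cast hN
      push_cast
      field_simp
    have h3 := h1.mul (h2.pow d)
    rw [one_pow, mul_one] at h3
    refine h3.congr' ?_
    filter_upwards [eventually_gt_atTop 0] with N hN
    have : (0 : ℝ) < N := by exact_mod_cast hN
    have : (0 : ℝ) < ((N + c : ℕ) : ℝ) := by exact_mod_cast Nat.add_pos_left hN c
    simp only [Function.comp, div_pow]
    field_simp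
    rfl
  refine tendsto_of_tendsto_of_tendsto_of_le_of_le he hshift (fun N => ?_) fun N => ?_
  · gcongr
    exact_mod_cast ENat.toNat_le_toNat (length_quotient_mono (Ideal.pow_right_mono hIm N))
      (length_quotient_ne_top _ (N + c) (hred N))
  · gcongr
    exact_mod_cast ENat.toNat_le_toNat (length_quotient_mono (hred N))
      (length_quotient_ne_top _ (N + c) le_rfl)

variable [Module.Finite (PS k d) R]

/-- A certificate of `r` independent elements gives `r ≤ e`. -/
theorem rank_le_isMultiplicity {r : ℕ} (w : Fin r → R) (π : R →ₗ[PS k d] (Fin r → PS k d))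
    {h : PS k d} (hh : h ≠ 0) (hw : ∀ j, π (w j) = Pi.single j h) {e : ℝ}
    (he : IsMultiplicity R d e) : (r : ℝ) ≤ e :=
  le_mult R w π hh hw (tendsto_zI_of_isMultiplicity hk hz hc he)

/-- The multiplicity is the rank: certificate and upper bound modulo powers of the variables. -/
theorem isMultiplicity_eq_rank {e : ℝ} (he : IsMultiplicity R d e) :
    ∃ (r : ℕ) (w : Fin r → R) (π : R →ₗ[PS k d] (Fin r → PS k d)) (h : PS k d),
      h ≠ 0 ∧ (∀ j, π (w j) = Pi.single j h) ∧ e = r ∧
      ∀ ε : ℝ, 0 < ε → ∀ᶠ M : ℕ in atTop,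
        (len k (R ⧸ zPow k d M • (⊤ : Submodule (PS k d) R)) : ℝ) ≤
          (e + ε) * (M : ℝ) ^ d := by
  obtain ⟨r, w, π, h, hh, hw, hlim, hub⟩ := rank_data (k := k) (d := d) R
  have her : e = r := tendsto_nhds_unique (tendsto_zI_of_isMultiplicity hk hz hc he) hlim
  exact ⟨r, w, π, h, hh, hw, her, her ▸ hub⟩

end Vale.Agent.P202.Zero
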