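import Vale.Agent.P202.Zero.Descent
import Vale.Agent.P202.Zero.Model
import Vale.Agent.P202.Char.Completion

/-! P202, equal characteristic zero: spreading a pair `R → S` finite over `k[[z]]` to
characteristic `p`. -/

namespace Vale.Agent.P202.Zero

universe u

open IsLocalRing Vale.Agent.P202.Char

/-- Finitely many power series span a subring mapping to power series over a finitely generated
subring, fixing the variables and close to the inclusion. -/
theorem exists_hom (k : Type u) [Field k] [CharZero k] (d : ℕ) (T : Finset (PS k d)) (N : ℕ) :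
    ∃ B : Subring (PS k d), (∀ i, (MvPowerSeries.X i : PS k d) ∈ B) ∧ (T : Set (PS k d)) ⊆ B ∧
      ∃ s : Finset k, ∀ A₀ : Subring k, (↑s : Set k) ⊆ A₀ → ∃ φ : B →+* PS A₀ d,
        (∀ (i : Fin d) (hi : (MvPowerSeries.X i : PS k d) ∈ B),
          φ ⟨MvPowerSeries.X i, hi⟩ = MvPowerSeries.X i) ∧
        ∀ (f : B) (n : Fin d →₀ ℕ), n.degree < N →
          ((MvPowerSeries.coeff n (φ f) : A₀) : k) = MvPowerSeries.coeff n (f : PS k d) := by
  classical
  let c : Fin T.card → PS k d := fun j => (T.equivFin.symm j).1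
  obtain ⟨s, hs⟩ := approx k d (Fin T.card) c N
  have hev : ∀ {C : Type u} [CommRing C] {hC : Algebra ℤ C} (v : Fin d ⊕ Fin T.card → C)
      (F : MvPolynomial (Fin d ⊕ Fin T.card) ℤ),
      MvPolynomial.aeval v F = MvPolynomial.eval₂Hom (Int.castRingHom C) v F := by
    intro C _ hC v F
    induction F using MvPolynomial.induction_on with
    | C a => simp
    | add p q hp hq => simp [map_add, hp, hq]
    | mul_X p i hp => simp [map_mul, hp]
  set e := MvPolynomial.eval₂Hom (Int.castRingHom (PS k d)) (Sum.elim MvPowerSeries.X c) with he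
  refine ⟨e.range, fun i => ⟨MvPolynomial.X (Sum.inl i), by simp [e]⟩,
    fun t ht => ⟨MvPolynomial.X (Sum.inr (T.equivFin ⟨t, ht⟩)), by simp [e, c]⟩, s,
    fun A₀ hA => ?_⟩
  obtain ⟨c', hcc, hrel⟩ := hs A₀ hA
  set e' := MvPolynomial.eval₂Hom (Int.castRingHom (PS A₀ d)) (Sum.elim MvPowerSeries.X c')
  have hker : RingHom.ker e.rangeRestrict ≤ RingHom.ker e' := fun F hF => by
    rw [RingHom.mem_ker] at hF ⊢
    have h0 : e F = 0 := congrArg Subtype.val hF
    have := hrel F ((hev _ F).trans h0)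
    rwa [hev] at this
  set φ := RingHom.liftOfSurjective e.rangeRestrict e.rangeRestrict_surjective ⟨e', hker⟩
  have hφ : ∀ F, φ (e.rangeRestrict F) = e' F := fun F =>
    RingHom.liftOfRightInverse_comp_apply _ _ _ _ _
  refine ⟨φ, fun i hi => ?_, fun f n hn => ?_⟩
  · have h1 : (⟨MvPowerSeries.X i, hi⟩ : e.range) = e.rangeRestrict (MvPolynomial.X (Sum.inl i)) :=
      Subtype.ext (by simp [e])
    rw [h1, hφ]
    simp [e']
  · obtain ⟨F, rfl⟩ := e.rangeRestrict_surjective f
    rw [hφ]
    have h1 : MvPowerSeries.map A₀.subtype (e' F) - e F ∈ zI k d ^ N := by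
      rw [← hev, ← hev, map_aeval (MvPowerSeries.map A₀.subtype)]
      refine sub_mem_aeval _ ?_ F
      rintro (j | j)
      · simp [MvPowerSeries.map_X]
      · exact hcc j
    have h2 := coeff_of_mem_zI_pow h1 hn
    rw [map_sub, sub_eq_zero, MvPowerSeries.coeff_map] at h2
    exact h2

/-- A power of the maximal ideal lies in the ideal of the powers of a reduction. -/
theorem exists_pow_le_span_pow {S : Type u} [CommRing S] [IsNoetherianRing S] {n : Ideal S} {d : ℕ}
    (x : Fin d → S) {c : ℕ} (hc : n ^ (c + 1) ≤ Ideal.span (Set.range x) * n ^ c) (M : ℕ) :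
    ∃ D : ℕ, n ^ D ≤ Ideal.span (Set.range fun i => x i ^ M) := by
  set J := Ideal.span (Set.range fun i => x i ^ M)
  obtain ⟨E, hE⟩ := Ideal.exists_pow_le_of_le_radical_of_fg (I := Ideal.span (Set.range x)) (J := J)
    (Ideal.span_le.2 (by
      rintro _ ⟨i, rfl⟩
      exact ⟨M, Ideal.subset_span ⟨i, rfl⟩⟩)) (IsNoetherian.noetherian _)
  refine ⟨(c + 1) * E, ?_⟩
  rw [pow_mul]
  exact (Ideal.pow_right_mono (hc.trans Ideal.mul_le_left) E).trans hE

/-- Coordinates over a subring. -/
theorem coord_mem {A R : Type u} [CommRing A] [CommRing R] [Algebra A R] {ι : Type} [Fintype ι]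
    {u : ι → R} {co : R → ι → A} (hco : ∀ r, ∑ l, co r l • u l = r) {B : Subring A} {r : R}
    (h : ∀ l, co r l ∈ B) : r ∈ Submodule.span B (Set.range u) := by
  have h1 := sum_mem_span u _ h
  rwa [hco r] at h1

variable {k : Type u} [Field k] [CharZero k] {d : ℕ} {R S : Type u} [CommRing R] [CommRing S]
  [IsLocalRing R] [IsLocalRing S] [IsNoetherianRing R] [IsNoetherianRing S]
  [Algebra (PS k d) R] [Algebra k R] [IsScalarTower k (PS k d) R] [Module.Finite (PS k d) R]
  [Algebra R S] [IsLocalHom (algebraMap R S)] [Module.Finite R S] [Module.Free R S]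
  [Algebra (PS k d) S] [IsScalarTower (PS k d) R S] [Algebra k S] [IsScalarTower k (PS k d) S]

/-- The data of `S` that descends: a basis, generators of the maximal ideal, and the spanning
modulo `J`. -/
theorem exists_S_data (hSR : SameResidue R S) {g : ℕ} (a : Fin g → R)
    (ha : maximalIdeal R = Ideal.span
      (Set.range (fun i => algebraMap (PS k d) R (MvPowerSeries.X i)) ∪ Set.range a)) :
    ∃ (s : ℕ) (β : Module.Basis (Fin s) R S) (r₀ : Fin s → R),
      maximalIdeal S = Ideal.span
        ((algebraMap R S) '' (Set.range (fun i => algebraMap (PS k d) R (MvPowerSeries.X i)) ∪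
          Set.range a) ∪ Set.range fun i => β i - algebraMap R S (r₀ i)) := by
  classical
  let β := (Module.Free.chooseBasis R S).reindex (Fintype.equivFin _)
  choose r₀ hr₀ using fun i => hSR (β i)
  refine ⟨_, β, r₀, le_antisymm ?_ ?_⟩
  · intro y hy
    have h1 : y = algebraMap R S (∑ i, β.repr y i * r₀ i) +
        ∑ i, algebraMap R S (β.repr y i) * (β i - algebraMap R S (r₀ i)) := by
      conv_lhs => rw [← β.sum_repr y]
      simp only [map_sum, map_mul, mul_sub, Finset.sum_sub_distrib, Algebra.smul_def]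
      ring
    have hmem : ∀ i, algebraMap R S (β.repr y i) * (β i - algebraMap R S (r₀ i)) ∈
        maximalIdeal S := fun i => Ideal.mul_mem_left _ _ (hr₀ i)
    have h2 : (∑ i, β.repr y i * r₀ i) ∈ maximalIdeal R := by
      rw [mem_maximalIdeal, mem_nonunits_iff]
      intro hu
      refine (mem_maximalIdeal _).1 ?_ (hu.map (algebraMap R S))
      rw [eq_sub_of_add_eq h1.symm]
      exact sub_mem hy (sum_mem fun i _ => hmem i)
    rw [h1]
    refine add_mem ?_ (sum_mem fun i _ =>
      Ideal.mul_mem_left _ _ (Ideal.subset_span (Or.inr ⟨i, rfl⟩)))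
    rw [ha] at h2
    have := Ideal.mem_map_of_mem (algebraMap R S) h2
    rw [Ideal.map_span] at this
    exact Ideal.span_mono Set.subset_union_left this
  · refine Ideal.span_le.2 (Set.union_subset ?_ ?_)
    · rintro _ ⟨r, hr, rfl⟩
      rw [SetLike.mem_coe, mem_maximalIdeal, mem_nonunits_iff]
      intro hu
      have hr' : r ∈ maximalIdeal R := ha ▸ Ideal.subset_span hr
      exact (mem_maximalIdeal _).1 hr' ((isUnit_map_iff (algebraMap R S) r).1 hu)
    · rintro _ ⟨i, rfl⟩
      exact hr₀ i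

omit [IsLocalRing S] [IsNoetherianRing S] [IsNoetherianRing R] [Algebra R S]
  [IsLocalHom (algebraMap R S)] [Module.Finite R S] [Module.Free R S] [Algebra (PS k d) S]
  [IsScalarTower (PS k d) R S] [Algebra k S] [IsScalarTower k (PS k d) S] [CharZero k] in
/-- Generators of `R` over the power series inside the maximal ideal. -/
theorem exists_R_gens (hk : Function.Surjective fun a : k => residue R (algebraMap k R a))
    (hz : ∀ i, algebraMap (PS k d) R (MvPowerSeries.X i) ∈ maximalIdeal R) :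
    ∃ (g : ℕ) (a : Fin g → R), (∀ i, a i ∈ maximalIdeal R) ∧
      Submodule.span (PS k d) (insert 1 (Set.range a)) = ⊤ ∧
      maximalIdeal R = Ideal.span
        (Set.range (fun i => algebraMap (PS k d) R (MvPowerSeries.X i)) ∪ Set.range a) := by
  classical
  obtain ⟨g, u, hu⟩ := Submodule.fg_iff_exists_fin_generating_family.1
    (Module.Finite.fg_top (R := PS k d) (M := R))
  choose c hc using fun i => hk (residue R (u i))
  set a : Fin g → R := fun i => u i - algebraMap k R (c i)
  have ha : ∀ i, a i ∈ maximalIdeal R := fun i => by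
    rw [← residue_eq_zero_iff, map_sub]
    exact sub_eq_zero.2 (hc i).symm
  have hspan : Submodule.span (PS k d) (insert 1 (Set.range a)) = ⊤ := by
    rw [eq_top_iff, ← hu, Submodule.span_le]
    rintro _ ⟨i, rfl⟩
    rw [show u i = a i + algebraMap (PS k d) R (algebraMap k (PS k d) (c i)) by
      rw [← IsScalarTower.algebraMap_apply, sub_add_cancel]]
    refine add_mem (Submodule.subset_span (Or.inr ⟨i, rfl⟩)) ?_
    rw [Algebra.algebraMap_eq_smul_one (A := R)]
    exact Submodule.smul_mem _ _ (Submodule.subset_span (Or.inl rfl))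
  refine ⟨g, a, ha, hspan, le_antisymm ?_ (Ideal.span_le.2 (Set.union_subset ?_ ?_))⟩
  · intro y hy
    have hy' : y ∈ Submodule.span (PS k d) (insert 1 (Set.range a)) := by rw [hspan]; trivial
    rw [Submodule.mem_span_insert] at hy'
    obtain ⟨f, w, hw, rfl⟩ := hy'
    set I := Ideal.span
      (Set.range (fun i => algebraMap (PS k d) R (MvPowerSeries.X i)) ∪ Set.range a)
    have hwI : w ∈ I := by
      have hle : Submodule.span (PS k d) (Set.range a) ≤ I.restrictScalars (PS k d) :=
        Submodule.span_le.2 fun _ h => Ideal.subset_span (Or.inr h)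
      exact hle hw
    have hIm : I ≤ maximalIdeal R := Ideal.span_le.2 (Set.union_subset
      (by rintro _ ⟨i, rfl⟩; exact hz i) (by rintro _ ⟨i, rfl⟩; exact ha i))
    refine add_mem ?_ hwI
    have hf : MvPowerSeries.constantCoeff f = 0 := by
      by_contra h0
      have hu : IsUnit f := MvPowerSeries.isUnit_iff_constantCoeff.2 (isUnit_iff_ne_zero.2 h0)
      have h1 := sub_mem hy (hIm hwI)
      rw [add_sub_cancel_right, Algebra.smul_def, mul_one] at h1
      exact (mem_maximalIdeal _).1 h1 (hu.map _)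
    have h2 := Ideal.mem_map_of_mem (algebraMap (PS k d) R) (mem_zI_of_constantCoeff hf)
    rw [zI, Ideal.map_span, ← Set.range_comp] at h2
    rw [Algebra.smul_def, mul_one]
    exact Ideal.span_mono Set.subset_union_left h2
  · rintro _ ⟨i, rfl⟩; exact hz i
  · rintro _ ⟨i, rfl⟩; exact ha i

/-- Coefficients modulo an ideal of finite colength. -/
theorem exists_exp (J : Ideal S) [Module.Finite k (S ⧸ J)] :
    ∃ (v : Fin (Module.finrank k (S ⧸ J)) → S)
      (kc : S → Fin (Module.finrank k (S ⧸ J)) → k),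
      ∀ y, y - ∑ l, algebraMap (PS k d) S (MvPowerSeries.C (kc y l)) * v l ∈ J := by
  let bQ := Module.finBasis k (S ⧸ J)
  choose v hv using fun j => Ideal.Quotient.mk_surjective (bQ j)
  refine ⟨v, fun y l => bQ.repr (Ideal.Quotient.mk J y) l, fun y => ?_⟩
  rw [← Ideal.Quotient.eq_zero_iff_mem, map_sub, map_sum, sub_eq_zero]
  conv_lhs => rw [← bQ.sum_repr (Ideal.Quotient.mk J y)]
  refine Finset.sum_congr rfl fun l _ => ?_
  rw [map_mul, hv, Algebra.smul_def,
    IsScalarTower.algebraMap_apply k S (S ⧸ J),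
    IsScalarTower.algebraMap_apply k (PS k d) S]
  rfl

omit [IsLocalRing R] [IsLocalRing S] [IsNoetherianRing R] [IsNoetherianRing S] [Algebra k R]
  [IsScalarTower k (PS k d) R] [Module.Finite (PS k d) R] [Algebra R S]
  [IsLocalHom (algebraMap R S)] [Module.Finite R S] [Module.Free R S] [Algebra (PS k d) S]
  [IsScalarTower (PS k d) R S] [Algebra k S] [IsScalarTower k (PS k d) S] [CharZero k] in
/-- Coordinates over the power series for `1` and the `a i`. -/
theorem exists_coord {g : ℕ} {a : Fin g → R}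
    (haspan : Submodule.span (PS k d) (insert 1 (Set.range a)) = ⊤) :
    ∃ co : R → Option (Fin g) → PS k d, ∀ y, ∑ o, co y o • Option.elim o 1 a = y := by
  have hu : Submodule.span (PS k d) (Set.range fun o : Option (Fin g) => o.elim 1 a) = ⊤ := by
    rw [← haspan]
    congr 1
    ext y
    simp only [Set.mem_range, Set.mem_insert_iff]
    exact ⟨fun ⟨o, ho⟩ => by
      cases o with
      | none => exact Or.inl ho.symm
      | some i => exact Or.inr ⟨i, ho⟩,
      fun h => h.elim (fun h => ⟨none, h.symm⟩) fun ⟨i, hi⟩ => ⟨some i, hi⟩⟩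
  choose co hco using fun y : R => (Submodule.mem_span_range_iff_exists_fun (PS k d)).1
    (hu.symm ▸ Submodule.mem_top : y ∈ Submodule.span (PS k d) (Set.range fun o : Option (Fin g) => o.elim 1 a))
  exact ⟨co, hco⟩

/-- A functional with values in `B` restricts to a model over `B`. -/
theorem exists_piB {B : Subring (PS k d)} {RB : Type u} [CommRing RB] [Algebra B RB]
    (fR : RB →+* R) (hfR : ∀ c : B, fR (algebraMap B RB c) = algebraMap (PS k d) R c) {ι : Type}
    [Fintype ι] (uB : ι → RB) (huB : Submodule.span B (Set.range uB) = ⊤) {r : ℕ}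
    (π : R →ₗ[PS k d] (Fin r → PS k d)) (hπ : ∀ o j, π (fR (uB o)) j ∈ B) :
    ∃ πB : RB →ₗ[B] (Fin r → B), ∀ y j, ((πB y j : B) : PS k d) = π (fR y) j := by
  have hs : ∀ (c : B) (y : RB), π (fR (c • y)) = (c : PS k d) • π (fR y) := fun c y => by
    rw [Algebra.smul_def, map_mul, hfR, ← Algebra.smul_def, map_smul]
  have hmem : ∀ y : RB, ∀ j, π (fR y) j ∈ B := fun y j => by
    obtain ⟨c, rfl⟩ := (Submodule.mem_span_range_iff_exists_fun B).1
      (huB.symm ▸ Submodule.mem_top : y ∈ Submodule.span B (Set.range uB))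
    simp only [map_sum, Finset.sum_apply, hs, Pi.smul_apply, smul_eq_mul]
    exact sum_mem fun o _ => mul_mem (c o).2 (hπ o j)
  refine ⟨{ toFun := fun y j => ⟨π (fR y) j, hmem y j⟩
            map_add' := fun y y' => funext fun j => Subtype.ext (by simp)
            map_smul' := fun c y => funext fun j => Subtype.ext (by simp [hs]) }, fun y j => rfl⟩

/-- `v` spans modulo `J` over `B` if it does so on the products of the generators. -/
theorem span_sup_top {B : Type u} {RB SB : Type u} [CommRing B] [CommRing RB] [CommRing SB]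
    [Algebra B RB] [Algebra RB SB] [Algebra B SB] [IsScalarTower B RB SB] {ι : Type} [Fintype ι]
    {σ L : ℕ} (uB : ι → RB) (huB : Submodule.span B (Set.range uB) = ⊤)
    (bB : Module.Basis (Fin σ) RB SB) (vB : Fin L → SB) (J : Ideal SB)
    (κ : ι → Fin σ → Fin L → B)
    (hκ : ∀ o i, algebraMap RB SB (uB o) * bB i - ∑ l, algebraMap B SB (κ o i l) * vB l ∈ J) :
    Submodule.span B (Set.range vB) ⊔ J.restrictScalars B = ⊤ := by
  set P := Submodule.span B (Set.range vB) ⊔ J.restrictScalars B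
  have hgen : ∀ o i, algebraMap RB SB (uB o) * bB i ∈ P := fun o i => by
    rw [show algebraMap RB SB (uB o) * bB i = (∑ l, algebraMap B SB (κ o i l) * vB l) +
      (algebraMap RB SB (uB o) * bB i - ∑ l, algebraMap B SB (κ o i l) * vB l) from
        (add_sub_cancel _ _).symm]
    refine add_mem (sum_mem fun l _ => ?_) (Submodule.mem_sup_right (hκ o i))
    rw [← Algebra.smul_def]
    exact Submodule.smul_mem _ _ (Submodule.mem_sup_left (Submodule.subset_span ⟨l, rfl⟩))
  refine eq_top_iff.2 fun y _ => ?_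
  rw [show y = ∑ i, bB.repr y i • bB i from (bB.sum_repr y).symm]
  refine sum_mem fun i _ => ?_
  obtain ⟨c, hc⟩ := (Submodule.mem_span_range_iff_exists_fun B).1
    (huB.symm ▸ Submodule.mem_top : bB.repr y i ∈ Submodule.span B (Set.range uB))
  rw [← hc, Finset.sum_smul]
  refine sum_mem fun o _ => ?_
  rw [smul_assoc, Algebra.smul_def (uB o)]
  exact Submodule.smul_mem _ _ (hgen o i)

/-- Everything is defined over `B`, so the model applies. -/
theorem spread_finish {p : ℕ} [Fact p.Prime]
    (mainp : ∀ (R S : Type u) [CommRing R] [CommRing S] [IsLocalRing R]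
      [IsLocalRing S] [IsNoetherianRing R] [IsNoetherianRing S] [Algebra R S]
      [IsLocalHom (algebraMap R S)] [Module.Finite R S] [Module.Free R S] [CharP R p]
      (d : ℕ) (e e' : ℝ), IsMultiplicity R d e → IsMultiplicity S d e' → e ≤ e')
    {F : Type u} [Field F] [CharP F p] {B : Subring (PS k d)} [Algebra B (PS F d)] (ζ : Fin d → B)
    (hζA : ∀ i, (ζ i : PS k d) = MvPowerSeries.X i)
    (hζ : ∀ i, algebraMap B (PS F d) (ζ i) = MvPowerSeries.X i)
    {RB SB : Type u} [CommRing RB] [CommRing SB] [Nontrivial SB] [Algebra B RB] [Algebra RB SB]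
    [Algebra B SB] [IsScalarTower B RB SB] {fR : RB →+* R} {fS : SB →+* S}
    (hRi : Function.Injective fR) (hSi : Function.Injective fS)
    (hfR : ∀ c : B, fR (algebraMap B RB c) = algebraMap (PS k d) R c)
    (hfS : ∀ y, fS (algebraMap RB SB y) = algebraMap R S (fR y))
    {g σ L r M D : ℕ} (hM : 0 < M) (aB : Fin g → RB)
    (huB : Submodule.span B (Set.range fun o : Option (Fin g) => o.elim 1 aB) = ⊤)
    (bB : Module.Basis (Fin σ) RB SB) (r₀B : Fin σ → RB) (xB : Fin d → SB) (vB : Fin L → SB)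
    (wB : Fin r → RB) (π : R →ₗ[PS k d] (Fin r → PS k d)) {h : B}
    (hh : algebraMap B (PS F d) h ≠ 0) (hw : ∀ j, π (fR (wB j)) = Pi.single j (h : PS k d))
    (hπ : ∀ o j, π (fR (Option.elim o 1 aB)) j ∈ B)
    (κz : Fin d → Fin L → Fin L → B)
    (hκc : ∀ i j l, ∃ c : F,
      algebraMap B (PS F d) (κz i j l) - MvPowerSeries.C c ∈ zI F d ^ D)
    (κv : Option (Fin g) → Fin σ → Fin L → B)
    {cR cS cx : ℕ} {GR : Set R} {GS : Set S}
    (hGR : fR '' (Set.range (fun i => algebraMap B RB (ζ i)) ∪ Set.range aB) = GR)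
    (hGS : fS '' ((algebraMap RB SB) '' (Set.range (fun i => algebraMap B RB (ζ i)) ∪
      Set.range aB) ∪ Set.range fun i => bB i - algebraMap RB SB (r₀B i)) = GS)
    {E₁ : Finset R} {E₂ E₃ E₄ : Finset S} {E₅ : Fin d → Finset S}
    {E₆ : Fin d → Fin L → Finset S} {E₇ : Option (Fin g) → Fin σ → Finset S}
    (h₁ : Descends E₁ GR (Set.range fun i => algebraMap (PS k d) R (MvPowerSeries.X i)) GR
      (cR + 1) cR)
    (h₂ : Descends E₂ GS ((algebraMap R S) '' GR) GS cS 0)
    (h₃ : Descends E₃ GS (Set.range fun i => fS (xB i)) GS (cx + 1) cx)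
    (h₄ : Descends E₄ (Set.range fun i => algebraMap (PS k d) S (MvPowerSeries.X i))
      (Set.range fun i => fS (xB i) ^ M)
      (Set.range fun i => algebraMap (PS k d) S (MvPowerSeries.X i)) D 0)
    (h₅ : ∀ i, MemDescends (E₅ i) (fS (xB i)) GS)
    (h₆ : ∀ i j, MemDescends (E₆ i j) (algebraMap (PS k d) S (MvPowerSeries.X i) * fS (vB j) -
      ∑ l, algebraMap (PS k d) S (κz i j l : PS k d) * fS (vB l))
      (Set.range fun i => fS (xB i) ^ M))
    (h₇ : ∀ o i, MemDescends (E₇ o i) (algebraMap R S (fR (Option.elim o 1 aB)) * fS (bB i) -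
      ∑ l, algebraMap (PS k d) S (κv o i l : PS k d) * fS (vB l))
      (Set.range fun i => fS (xB i) ^ M))
    (hE₁ : (E₁ : Set R) ⊆ Set.range fR)
    (hE : (E₂ : Set S) ∪ (E₃ : Set S) ∪ (E₄ : Set S) ∪ (⋃ i, (E₅ i : Set S)) ∪
      (⋃ i, ⋃ j, (E₆ i j : Set S)) ∪ (⋃ o, ⋃ i, (E₇ o i : Set S)) ⊆ Set.range fS) :
    (r : ℝ) * (M : ℝ) ^ d ≤ L := by
  simp only [Set.union_subset_iff, Set.iUnion_subset_iff] at hE
  obtain ⟨⟨⟨⟨⟨hE₂, hE₃⟩, hE₄⟩, hE₅⟩, hE₆⟩, hE₇⟩ := hE
  have hfB : ∀ c : B, fS (algebraMap B SB c) = algebraMap (PS k d) S c := fun c => by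
    rw [IsScalarTower.algebraMap_apply B RB SB, hfS, hfR, ← IsScalarTower.algebraMap_apply]
  have hZR : fR '' (Set.range fun i => algebraMap B RB (ζ i)) =
      Set.range fun i => algebraMap (PS k d) R (MvPowerSeries.X i) := by
    rw [← Set.range_comp]
    simp only [Function.comp_def, hfR, hζA]
  have hZS : fS '' (Set.range fun i => algebraMap B SB (ζ i)) =
      Set.range fun i => algebraMap (PS k d) S (MvPowerSeries.X i) := by
    rw [← Set.range_comp]
    simp only [Function.comp_def, hfB, hζA]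
  set GR₀ := Set.range (fun i => algebraMap B RB (ζ i)) ∪ Set.range aB
  set GS₀ := (algebraMap RB SB) '' GR₀ ∪ Set.range fun i => bB i - algebraMap RB SB (r₀B i)
  have hGRS : fS '' ((algebraMap RB SB) '' GR₀) = (algebraMap R S) '' GR := by
    rw [← hGR, Set.image_image, Set.image_image]
    simp only [hfS]
  have hX : fS '' Set.range xB = Set.range fun i => fS (xB i) := by
    rw [← Set.range_comp]
    rfl
  have hJ : fS '' (Set.range fun i => xB i ^ M) = Set.range fun i => fS (xB i) ^ M := by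
    rw [← Set.range_comp]
    simp only [Function.comp_def, map_pow]
  obtain ⟨πB, hπB⟩ := exists_piB fR hfR _ huB π hπ
  have haB : Submodule.span B (insert 1 (Set.range aB)) = ⊤ := by
    refine eq_top_iff.2 (huB.symm.le.trans (Submodule.span_mono ?_))
    rintro _ ⟨o, rfl⟩
    cases o with
    | none => exact Or.inl rfl
    | some i => exact Or.inr ⟨i, rfl⟩
  have hbB : Submodule.span RB
      (insert 1 (Set.range fun i => bB i - algebraMap RB SB (r₀B i))) = ⊤ := by
    refine eq_top_iff.2 (bB.span_eq.symm.le.trans (Submodule.span_le.2 ?_))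
    rintro _ ⟨i, rfl⟩
    rw [SetLike.mem_coe, show bB i = (bB i - algebraMap RB SB (r₀B i)) + r₀B i • (1 : SB) by
      rw [← Algebra.algebraMap_eq_smul_one, sub_add_cancel]]
    exact add_mem (Submodule.subset_span (Or.inr ⟨i, rfl⟩))
      (Submodule.smul_mem _ _ (Submodule.subset_span (Or.inl rfl)))
  have hnB : Ideal.span GS₀ = (Ideal.span GR₀).map (algebraMap RB SB) ⊔
      Ideal.span (Set.range fun i => bB i - algebraMap RB SB (r₀B i)) := by
    rw [Ideal.span_union, Ideal.map_span]
  have hS₂ := h₂ SB fS hSi GS₀ _ GS₀ hGS hGRS hGS hE₂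
  rw [pow_zero, mul_one, ← Ideal.map_span] at hS₂
  have hS₄ := h₄ SB fS hSi _ _ _ hZS hJ hZS hE₄
  rw [pow_zero, mul_one] at hS₄
  have hv := span_sup_top (fun o : Option (Fin g) => o.elim 1 aB) huB bB vB
    (Ideal.span (Set.range fun i => xB i ^ M)) κv fun o i =>
      h₇ o i SB fS hSi _ _ (by simp only [map_sub, map_sum, map_mul, hfS, hfB]) hJ (hE₇ o i)
  have : Module.Free RB SB := Module.Free.of_basis bB
  have : Module.Finite RB SB := Module.Finite.of_basis bB
  refine model_bound mainp ζ hζ aB haB ⟨cR, h₁ RB fR hRi GR₀ _ GR₀ hGR hZR hGR hE₁⟩ _ hbB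
    (Ideal.span GR₀) rfl (Ideal.span GS₀) hnB ⟨cS, hS₂⟩ xB
    (fun i => h₅ i SB fS hSi _ GS₀ rfl hGS (hE₅ i))
    ⟨cx, h₃ SB fS hSi GS₀ _ GS₀ hGS hX hGS hE₃⟩ wB πB hh (fun j => ?_) hM vB _ rfl hv κz
    (fun i j => h₆ i j SB fS hSi _ _ (by simp only [map_sub, map_sum, map_mul, hfB, hζA]) hJ
      (hE₆ i j)) hκc hS₄
  funext l
  apply Subtype.ext
  rw [hπB, hw, Pi.single_apply, Pi.single_apply]
  split_ifs <;> rfl

/-- Coordinates in a subalgebra put an element in the span over it. -/
theorem repr_mem_span {B R S : Type u} [CommRing B] [CommRing R]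
    [CommRing S] [Algebra B R] [Algebra R S] {σ : ℕ} (β : Module.Basis (Fin σ) R S)
    {RB : Subalgebra B R} {y : S} (h : ∀ l, β.repr y l ∈ RB) :
    y ∈ Submodule.span RB (Set.range β) := by
  rw [← β.sum_repr y]
  exact sum_mem fun l _ => Submodule.smul_mem (Submodule.span RB (Set.range β))
    (⟨_, h l⟩ : RB) (Submodule.subset_span ⟨l, rfl⟩)

/-- A basis restricts to the ring it spans over a subring. -/
theorem exists_basis {RB R S : Type u} [CommRing RB] [CommRing R] [CommRing S] [Algebra RB R]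
    [Algebra R S] [Algebra RB S] [IsScalarTower RB R S]
    (hinj : Function.Injective (algebraMap RB R)) {σ : ℕ} (β : Module.Basis (Fin σ) R S)
    (SB : Subalgebra RB S) (hSB : ∀ y, y ∈ SB ↔ y ∈ Submodule.span RB (Set.range β)) :
    ∃ bB : Module.Basis (Fin σ) RB SB, ∀ i, SB.val (bB i) = β i := by
  have hli : LinearIndependent RB β := β.linearIndependent.restrict_scalars fun a b h =>
    hinj (by simpa [Algebra.smul_def] using h)
  have he : Submodule.span RB (Set.range β) = Subalgebra.toSubmodule SB :=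
    Submodule.ext fun y => (hSB y).symm
  refine ⟨(Module.Basis.span hli).map (LinearEquiv.ofEq _ _ he), fun i => ?_⟩
  rw [Module.Basis.map_apply]
  exact congrArg Subtype.val (Module.Basis.span_apply hli i)

/-- The rings spanned over a subring by the generators and by the basis. -/
theorem exists_rings {A R S : Type u} [CommRing A] [CommRing R] [CommRing S] [Nontrivial S]
    [Algebra A R] [Algebra R S] (B : Subring A) {g σ : ℕ} (a : Fin g → R)
    (β : Module.Basis (Fin σ) R S)
    (hu : ∀ o o' : Option (Fin g), o.elim 1 a * o'.elim 1 a ∈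
      Submodule.span B (Set.range fun o : Option (Fin g) => o.elim 1 a))
    (h1 : ∀ l, β.repr 1 l ∈ Submodule.span B (Set.range fun o : Option (Fin g) => o.elim 1 a))
    (hβ : ∀ i i' l, β.repr (β i * β i') l ∈
      Submodule.span B (Set.range fun o : Option (Fin g) => o.elim 1 a)) :
    ∃ (RB SB : Type u) (_ : CommRing RB) (_ : CommRing SB) (_ : Nontrivial SB) (_ : Algebra B RB)
      (_ : Algebra RB SB) (_ : Algebra B SB) (_ : IsScalarTower B RB SB) (fR : RB →+* R)
      (fS : SB →+* S) (aB : Fin g → RB) (bB : Module.Basis (Fin σ) RB SB),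
      Function.Injective fR ∧ Function.Injective fS ∧
      (∀ c : B, fR (algebraMap B RB c) = algebraMap A R c) ∧
      (∀ y, fS (algebraMap RB SB y) = algebraMap R S (fR y)) ∧
      (∀ o : Option (Fin g), fR (o.elim 1 aB) = o.elim 1 a) ∧
      Submodule.span B (Set.range fun o : Option (Fin g) => o.elim 1 aB) = ⊤ ∧
      (∀ i, fS (bB i) = β i) ∧
      (∀ y ∈ Submodule.span B (Set.range fun o : Option (Fin g) => o.elim 1 a),
        y ∈ Set.range fR) ∧
      ∀ y, (∀ l, β.repr y l ∈ Submodule.span B (Set.range fun o : Option (Fin g) => o.elim 1 a)) →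
        y ∈ Set.range fS := by
  classical
  let RB := spanRing (B := B) (fun o : Option (Fin g) => o.elim 1 a)
    (Submodule.subset_span ⟨none, rfl⟩) hu
  have hin : ∀ y, (∀ l, β.repr y l ∈
      Submodule.span B (Set.range fun o : Option (Fin g) => o.elim 1 a)) →
      y ∈ Submodule.span RB (Set.range β) := fun y hy => repr_mem_span β hy
  let SB := spanRing (B := RB) β (hin 1 h1) fun i i' => hin _ (hβ i i')
  obtain ⟨bB, hbB⟩ := exists_basis (RB := RB) (fun _ _ h => Subtype.ext h) β SB fun y => Iff.rfl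
  let _ : Algebra B SB := ((algebraMap RB SB).comp (algebraMap B RB)).toAlgebra
  let aB : Fin g → RB := fun i => ⟨a i, Submodule.subset_span ⟨some i, rfl⟩⟩
  have hfu : ∀ o : Option (Fin g), RB.val (o.elim 1 aB) = o.elim 1 a := fun o => by
    cases o <;> rfl
  refine ⟨RB, SB, inferInstance, inferInstance, inferInstance, inferInstance, inferInstance, _,
    IsScalarTower.of_algebraMap_eq fun _ => rfl, RB.val.toRingHom, SB.val.toRingHom, aB,
    bB, fun _ _ h => Subtype.ext h,
    fun _ _ h => Subtype.ext h, fun c => rfl, fun y => rfl, hfu, span_top_spanRing _ _ hfu,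
    hbB, fun y hy => ⟨⟨y, hy⟩, rfl⟩,
    fun y hy => ⟨⟨y, hin y hy⟩, rfl⟩⟩

/-- The rank of `R` is bounded by the length of `S` modulo powers of a reduction. -/
theorem spread_core
    (mainp : ∀ (p : ℕ) [Fact p.Prime] (R S : Type u) [CommRing R] [CommRing S] [IsLocalRing R]
      [IsLocalRing S] [IsNoetherianRing R] [IsNoetherianRing S] [Algebra R S]
      [IsLocalHom (algebraMap R S)] [Module.Finite R S] [Module.Free R S] [CharP R p]
      (d : ℕ) (e e' : ℝ), IsMultiplicity R d e → IsMultiplicity S d e' → e ≤ e')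
    (hk : Function.Surjective fun a : k => residue R (algebraMap k R a))
    (hSR : SameResidue R S)
    (hz : ∀ i, algebraMap (PS k d) R (MvPowerSeries.X i) ∈ maximalIdeal R)
    (hRc : ∃ c, maximalIdeal R ^ (c + 1) ≤
      (zI k d).map (algebraMap (PS k d) R) * maximalIdeal R ^ c)
    (x : Fin d → S) (hx : ∀ i, x i ∈ maximalIdeal S)
    (hxc : ∃ c, maximalIdeal S ^ (c + 1) ≤ Ideal.span (Set.range x) * maximalIdeal S ^ c)
    {r : ℕ} (w : Fin r → R) (π : R →ₗ[PS k d] (Fin r → PS k d)) {h : PS k d} (hh : h ≠ 0)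
    (hw : ∀ j, π (w j) = Pi.single j h) {M : ℕ} (hM : 0 < M)
    [Module.Finite k (S ⧸ Ideal.span (Set.range fun i => x i ^ M))] :
    (r : ℝ) * (M : ℝ) ^ d ≤ len k (S ⧸ Ideal.span (Set.range fun i => x i ^ M)) := by
  classical
  set J := Ideal.span (Set.range fun i => x i ^ M) with hJ
  obtain ⟨g, a, ha, haspan, hmR⟩ := exists_R_gens hk hz
  obtain ⟨σ, β, r₀, hmS⟩ := exists_S_data hSR a hmR
  obtain ⟨v, kc, hkc⟩ := exists_exp (k := k) (d := d) J
  obtain ⟨co, hco⟩ := exists_coord haspan
  obtain ⟨cR, hcR⟩ := hRc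
  obtain ⟨cx, hcx⟩ := hxc
  obtain ⟨cS, hcS⟩ := Compl.exists_pow_le (R := R) (S := S)
  obtain ⟨D, hD⟩ := exists_pow_le_span_pow x hcx M
  set ZR := Set.range fun i => algebraMap (PS k d) R (MvPowerSeries.X i)
  set ZS := Set.range fun i => algebraMap (PS k d) S (MvPowerSeries.X i) with hZS
  set GR := ZR ∪ Set.range a
  set GS := (algebraMap R S) '' GR ∪ Set.range fun i => β i - algebraMap R S (r₀ i)
  set u : Option (Fin g) → R := fun o => o.elim 1 a
  have fZR : ZR.Finite := Set.finite_range _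
  have fGR : GR.Finite := fZR.union (Set.finite_range a)
  have fGS : GS.Finite := (fGR.image _).union (Set.finite_range _)
  obtain ⟨E₁, h₁⟩ := descend_pow_le fGR fZR fGR (a := cR + 1) (b := cR) (by
    rw [hmR, zI, Ideal.map_span, ← Set.range_comp] at hcR
    exact hcR)
  obtain ⟨E₂, h₂⟩ := descend_pow_le fGS (fGR.image (algebraMap R S)) fGS (a := cS) (b := 0) (by
    rw [hmS, hmR, Ideal.map_span] at hcS
    rwa [pow_zero, mul_one])
  obtain ⟨E₃, h₃⟩ := descend_pow_le fGS (Set.finite_range x) fGS (a := cx + 1) (b := cx) (by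
    rw [hmS] at hcx
    exact hcx)
  have hZn : Ideal.span ZS ≤ maximalIdeal S := by
    rw [hZS, Ideal.span_le]
    rintro _ ⟨i, rfl⟩
    simp only [SetLike.mem_coe, mem_maximalIdeal, mem_nonunits_iff,
      IsScalarTower.algebraMap_apply (PS k d) R S]
    exact fun hu => (mem_maximalIdeal _).1 (hz i) ((isUnit_map_iff (algebraMap R S) _).1 hu)
  obtain ⟨E₄, h₄⟩ := descend_pow_le (Set.finite_range _ : ZS.Finite)
    (Set.finite_range fun i => x i ^ M) (Set.finite_range _ : ZS.Finite) (a := D) (b := 0) (by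
    rw [pow_zero, mul_one]
    exact (Ideal.pow_right_mono hZn D).trans hD)
  choose E₅ h₅ using fun i => descend_mem fGS (t := x i) (by rw [← hmS]; exact hx i)
  choose E₆ h₆ using fun i j => descend_mem (Set.finite_range fun i => x i ^ M)
    (hkc (algebraMap (PS k d) S (MvPowerSeries.X i) * v j))
  choose E₇ h₇ using fun o i => descend_mem (Set.finite_range fun i => x i ^ M)
    (hkc (algebraMap R S (u o) * β i))
  let SE : Finset S := E₂ ∪ E₃ ∪ E₄ ∪ Finset.univ.biUnion E₅ ∪
    (Finset.univ.biUnion fun i => Finset.univ.biUnion (E₆ i)) ∪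
    (Finset.univ.biUnion fun o => Finset.univ.biUnion (E₇ o)) ∪
    Finset.univ.image v ∪ Finset.univ.image x ∪ {1} ∪
    Finset.univ.image fun q : Fin σ × Fin σ => β q.1 * β q.2
  let RE : Finset R := Finset.univ.image a ∪
    (Finset.univ.image fun q : Option (Fin g) × Option (Fin g) => u q.1 * u q.2) ∪
    E₁ ∪ Finset.univ.image r₀ ∪ Finset.univ.image w ∪
    (SE ×ˢ Finset.univ).image fun q : S × Fin σ => β.repr q.1 q.2
  let T : Finset (PS k d) := ({h} : Finset _) ∪
    ((RE ×ˢ Finset.univ).image fun q : R × Option (Fin g) => co q.1 q.2) ∪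
    (Finset.univ.image fun q : Option (Fin g) × Fin r => π (u q.1) q.2) ∪
    (Finset.univ.image fun q : Fin d × Fin _ × Fin _ => MvPowerSeries.C
      (kc (algebraMap (PS k d) S (MvPowerSeries.X q.1) * v q.2.1) q.2.2)) ∪
    Finset.univ.image fun q : Option (Fin g) × Fin σ × Fin _ => MvPowerSeries.C
      (kc (algebraMap R S (u q.1) * β q.2.1) q.2.2)
  obtain ⟨n₀, hn₀⟩ : ∃ n, MvPowerSeries.coeff n h ≠ 0 := by
    by_contra! hc
    exact hh (MvPowerSeries.ext fun n => by simp [hc n])
  obtain ⟨B, hXB, hTB, s, hs⟩ := exists_hom k d T (max D (n₀.degree + 1))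
  have hT : ∀ f ∈ T, f ∈ B := fun f hf => hTB hf
  let s' := insert (MvPowerSeries.coeff n₀ h) s
  set A₀ := Subring.closure (s' : Set k) with hA₀
  have hsA : (s : Set k) ⊆ A₀ := (Finset.coe_subset.2 (Finset.subset_insert _ _)).trans
    Subring.subset_closure
  obtain ⟨φ, hφX, hφc⟩ := hs A₀ hsA
  have hcA : MvPowerSeries.coeff n₀ h ∈ A₀ :=
    Subring.subset_closure (Finset.mem_coe.2 (Finset.mem_insert_self _ _))
  obtain ⟨p, _, F, _, _, χ, hχ⟩ := exists_charP_field s' hA₀ (a := ⟨_, hcA⟩)
    fun h0 => hn₀ (congrArg Subtype.val h0)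
  let : Algebra B (PS F d) := ((MvPowerSeries.map χ).comp φ).toAlgebra
  have hRspan : ∀ y ∈ RE, y ∈ Submodule.span B (Set.range u) := fun y hy =>
    coord_mem hco fun o => hT _ (by
      simp only [T, Finset.mem_union]
      exact Or.inl (Or.inl (Or.inl (Or.inr
        (Finset.mem_image.2 ⟨(y, o), Finset.mem_product.2 ⟨hy, Finset.mem_univ _⟩, rfl⟩)))))
  have hSspan : ∀ y ∈ SE, ∀ l, β.repr y l ∈ Submodule.span B (Set.range u) := fun y hy l =>
    hRspan _ (by
      simp only [RE, Finset.mem_union]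
      exact Or.inr (Finset.mem_image.2 ⟨(y, l), Finset.mem_product.2 ⟨hy, Finset.mem_univ _⟩, rfl⟩))
  obtain ⟨RB, SB, _, _, _, _, _, _, _, fR, fS, aB, bB, hRi, hSi, hfR, hfS, hfu, huB, hfb, hRm,
    hSm⟩ := exists_rings B a β (fun o o' => hRspan _ (by
      simp only [RE, Finset.mem_union]
      exact Or.inl (Or.inl (Or.inl (Or.inl (Or.inr
        (Finset.mem_image.2 ⟨(o, o'), Finset.mem_univ _, rfl⟩)))))))
      (hSspan 1 (by simp [SE])) fun i i' => hSspan _ (by
        simp only [SE, Finset.mem_union]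
        exact Or.inr (Finset.mem_image.2 ⟨(i, i'), Finset.mem_univ _, rfl⟩))
  choose r₀B hr₀B using fun i => hRm (r₀ i) (hRspan _ (by simp [RE]))
  choose wB hwB using fun i => hRm (w i) (hRspan _ (by simp [RE]))
  choose xB hxB using fun i => hSm (x i) (hSspan _ (by simp [SE]))
  choose vB hvB using fun i => hSm (v i) (hSspan _ (by simp [SE]))
  let ζ : Fin d → B := fun i => ⟨MvPowerSeries.X i, hXB i⟩
  have hmap : ∀ b : B, algebraMap B (PS F d) b = MvPowerSeries.map χ (φ b) := fun b => rfl
  let κz : Fin d → Fin _ → Fin _ → B := fun i j l => ⟨MvPowerSeries.C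
      (kc (algebraMap (PS k d) S (MvPowerSeries.X i) * v j) l), hT _ (by
    simp only [T, Finset.mem_union]
    exact Or.inl (Or.inr (Finset.mem_image.2 ⟨(i, j, l), Finset.mem_univ _, rfl⟩)))⟩
  let κv : Option (Fin g) → Fin σ → Fin _ → B := fun o i l => ⟨MvPowerSeries.C
      (kc (algebraMap R S (u o) * β i) l), hT _ (by
    simp only [T, Finset.mem_union]
    exact Or.inr (Finset.mem_image.2 ⟨(o, i, l), Finset.mem_univ _, rfl⟩))⟩
  have hin : ∀ (E : Finset S), E ⊆ SE → (E : Set S) ⊆ Set.range fS := fun E hE y hy =>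
    hSm y (hSspan y (hE hy))
  have hxB' : (fun i => fS (xB i)) = x := funext hxB
  have hGR : fR '' (Set.range (fun i => algebraMap B RB (ζ i)) ∪ Set.range aB) = GR := by
    rw [Set.image_union, ← Set.range_comp, ← Set.range_comp]
    exact congrArg₂ (· ∪ ·) (congrArg Set.range (funext fun i => hfR (ζ i)))
      (congrArg Set.range (funext fun i => hfu (some i)))
  rw [len, Module.length_eq_finrank, ENat.toNat_natCast]
  refine spread_finish (F := F) (mainp p) ζ (fun i => rfl) (fun i => ?_) hRi hSi hfR hfS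
    hM aB huB bB r₀B xB vB wB π (h := ⟨h, hT _ (by simp [T])⟩) ?_ (fun j => by rw [hwB]; exact hw j)
    (fun o j => ?_) κz (fun i j l => ?_) κv (GR := GR) (GS := GS) hGR ?_ h₁ h₂
    (by rw [hxB']; exact h₃) (by simp only [hxB]; exact h₄) (fun i => by rw [hxB]; exact h₅ i)
    (fun i j => by simp only [hxB, hvB]; exact h₆ i j)
    (fun o i => by simp only [hfu, hfb, hvB, hxB]; exact h₇ o i) ?_ ?_
  · rw [hmap, hφX]
    exact MvPowerSeries.map_X χ i
  · intro h0
    have h1 := congrArg (MvPowerSeries.coeff n₀) h0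
    rw [hmap, MvPowerSeries.coeff_map, map_zero] at h1
    exact hχ ((congrArg χ (Subtype.ext (hφc ⟨h, hT _ (by simp [T])⟩ n₀ (lt_max_of_lt_right (Nat.lt_succ_self _))).symm)
      ).trans h1)
  · rw [hfu]
    exact hT _ (by
      simp only [T, Finset.mem_union]
      exact Or.inl (Or.inl (Or.inr (Finset.mem_image.2 ⟨(o, j), Finset.mem_univ _, rfl⟩))))
  · refine ⟨χ (MvPowerSeries.coeff 0 (φ (κz i j l))), mem_zI_pow_of_coeff fun n hn => ?_⟩
    rw [map_sub, hmap, MvPowerSeries.coeff_map, MvPowerSeries.coeff_C]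
    split_ifs with hn0
    · rw [hn0, sub_self]
    · have h0 := hφc (κz i j l) n (lt_max_of_lt_left hn)
      rw [MvPowerSeries.coeff_C, if_neg hn0] at h0
      rw [show MvPowerSeries.coeff n (φ (κz i j l)) = 0 from Subtype.ext h0, map_zero, sub_zero]
  · rw [Set.image_union, ← Set.range_comp]
    show _ = (algebraMap R S) '' GR ∪ _
    rw [← hGR]
    refine congrArg₂ (· ∪ ·) ?_ (congrArg Set.range (funext fun i => ?_))
    · rw [Set.image_image, Set.image_image]
      simp only [hfS]
    · simp only [Function.comp_apply, map_sub, hfS, hfb, hr₀B]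
  · intro y hy
    exact hRm y (hRspan _ (by simp only [RE, Finset.mem_union]; tauto))
  · simp only [Set.union_subset_iff, Set.iUnion_subset_iff]
    have hL : ∀ {y : S}, y ∈ E₂ ∪ E₃ ∪ E₄ ∪ Finset.univ.biUnion E₅ ∪
        (Finset.univ.biUnion fun i => Finset.univ.biUnion (E₆ i)) ∪
        (Finset.univ.biUnion fun o => Finset.univ.biUnion (E₇ o)) → y ∈ SE := fun hy =>
      Finset.mem_union_left _ (Finset.mem_union_left _ (Finset.mem_union_left _
        (Finset.mem_union_left _ hy)))
    exact ⟨⟨⟨⟨⟨hin _ fun y hy => hL (by simp [hy]), hin _ fun y hy => hL (by simp [hy])⟩,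
      hin _ fun y hy => hL (by simp [hy])⟩,
      fun i => hin _ fun y hy => hL (Finset.mem_union_left _ (Finset.mem_union_left _
        (Finset.mem_union_right _ (Finset.mem_biUnion.2 ⟨i, Finset.mem_univ _, hy⟩))))⟩,
      fun i j => hin _ fun y hy => hL (Finset.mem_union_left _ (Finset.mem_union_right _
        (Finset.mem_biUnion.2 ⟨i, Finset.mem_univ _,
          Finset.mem_biUnion.2 ⟨j, Finset.mem_univ _, hy⟩⟩)))⟩,
      fun o i => hin _ fun y hy => hL (Finset.mem_union_right _
        (Finset.mem_biUnion.2 ⟨o, Finset.mem_univ _,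
          Finset.mem_biUnion.2 ⟨i, Finset.mem_univ _, hy⟩⟩))⟩

end Vale.Agent.P202.Zero
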